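import Vale.Agent.P216.H901.PM

/-!
# P216-C: step modules up to a bounded shift

`A.Step T C`: the persistence module `A` is, up to the constant `C`, zero below the level `T` and
constant above it.  The property passes to retracts with bounded shift and to the middle term of
an exact sequence of five modules; it gives bounded bars, and all births are close to `T`.
-/

set_option linter.all false

namespace Vale.Agent.P216.H901

variable {k : Type} [Field k]

namespace PM

/-- Zero below `T`, constant above `T`, up to the constant `C`. -/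
structure Step (A : PM k) (T C : ℝ) : Prop where
  low : ∀ s t (hs : 0 < s) (h : s ≤ t), s + C ≤ t → s + C ≤ T → ∀ x, A.ρ s t hs h x = 0
  img : ∀ s t t' (hs : 0 < s) (h : s ≤ t) (h' : s ≤ t'), T + C ≤ s → s + C ≤ t →
    ∀ x, ∃ y, A.ρ s t' hs h' y = A.ρ s t hs h x
  ker : ∀ s r t (hs : 0 < s) (hr : 0 < r) (h : s ≤ t) (h' : r ≤ t), T + C ≤ s → s ≤ r →
    r + C ≤ t → ∀ x, A.ρ s t hs h x = 0 → A.ρ r t hr h' x = 0

variable {A B : PM k} {T T' C C' c : ℝ}

theorem Step.mono (h : A.Step T C) (hT : |T' - T| + C ≤ C') : A.Step T' C' := by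
  have h1 := le_abs_self (T' - T)
  have h2 := neg_abs_le (T' - T)
  have h3 := abs_nonneg (T' - T)
  exact ⟨fun s t hs hst h4 h5 => h.low s t hs hst (by linarith) (by linarith),
    fun s t t' hs hst hst' h4 h5 => h.img s t t' hs hst hst' (by linarith) (by linarith),
    fun s r t hs hr hst hrt h4 h5 h6 => h.ker s r t hs hr hst hrt (by linarith) h5 (by linarith)⟩

theorem Step.mono' (h : A.Step T C) (hC : C ≤ C') : A.Step T C' :=
  h.mono (by rw [sub_self, abs_zero, zero_add]; exact hC)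

/-- An ephemeral module is a step module with any wall. -/
theorem Eph.step (h : A.Eph C) (T : ℝ) : A.Step T C where
  low s t hs hst h1 _ := h s t hs hst h1
  img s t t' hs hst hst' _ h1 x := ⟨0, by rw [map_zero, h s t hs hst h1]⟩
  ker s r t hs hr hst hrt _ _ h1 x _ := h r t hr hrt h1 x

/-- the module which vanishes -/
theorem step_of_zero (h : ∀ t, 0 < t → ∀ x : A.V t, x = 0) (T : ℝ) {C : ℝ} : A.Step T C where
  low s t hs hst _ _ x := h s hs _
  img s t t' hs hst hst' _ _ x := ⟨0, (h s hs _).trans (h s hs _).symm⟩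
  ker s r t hs hr hst hrt _ _ _ x _ := h r hr _

end PM

/-! ### Retracts with a bounded shift -/

/-- `A` is a retract of `B` with shift `c`. -/
structure Retr (A B : PM k) (c : ℝ) where
  f : ∀ s t, 0 < s → s + c ≤ t → A.V t →ₗ[k] B.V s
  g : ∀ s t, 0 < s → s + c ≤ t → B.V t →ₗ[k] A.V s
  f_nat : ∀ s t s' t' hs ht hs' (h : s + c ≤ t) (h₁ : s' ≤ s) (h₂ : t ≤ t') (h₃ : s' + c ≤ t') x,
    B.ρ s' s hs' h₁ (f s t hs h (A.ρ t t' ht h₂ x)) = f s' t' hs' h₃ x
  g_nat : ∀ s t s' t' hs ht hs' (h : s + c ≤ t) (h₁ : s' ≤ s) (h₂ : t ≤ t') (h₃ : s' + c ≤ t') x,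
    A.ρ s' s hs' h₁ (g s t hs h (B.ρ t t' ht h₂ x)) = g s' t' hs' h₃ x
  gf : ∀ r s t hr hs (h₁ : r + c ≤ s) (h₂ : s + c ≤ t) (h₃ : r ≤ t) x,
    g r s hr h₁ (f s t hs h₂ x) = A.ρ r t hr h₃ x

/-- the first half of an interleaving -/
def Intl.retr {A B : PM k} {c : ℝ} (i : Intl A B c) : Retr A B c where
  f := i.f
  g := i.g
  f_nat := i.f_nat
  g_nat := i.g_nat
  gf := i.gf

/-- the second half of an interleaving -/
def Intl.retr' {A B : PM k} {c : ℝ} (i : Intl A B c) : Retr B A c where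
  f := i.g
  g := i.f
  f_nat := i.g_nat
  g_nat := i.f_nat
  gf := i.fg

namespace Retr

variable {A B : PM k} {c : ℝ}

theorem f_left (i : Retr A B c) {s t s' : ℝ} (hs : 0 < s) (hs' : 0 < s') (h : s + c ≤ t)
    (h₁ : s' ≤ s) (h₃ : s' + c ≤ t) (x : A.V t) (ht : 0 < t) :
    B.ρ s' s hs' h₁ (i.f s t hs h x) = i.f s' t hs' h₃ x := by
  have := i.f_nat s t s' t hs ht hs' h h₁ le_rfl h₃ x
  rwa [A.ρ_refl] at this

theorem f_right (i : Retr A B c) {s t t' : ℝ} (hs : 0 < s) (ht : 0 < t) (h : s + c ≤ t)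
    (h₂ : t ≤ t') (h₃ : s + c ≤ t') (x : A.V t') :
    i.f s t hs h (A.ρ t t' ht h₂ x) = i.f s t' hs h₃ x := by
  have := i.f_nat s t s t' hs ht hs h le_rfl h₂ h₃ x
  rwa [B.ρ_refl] at this

theorem g_left (i : Retr A B c) {s t s' : ℝ} (hs : 0 < s) (hs' : 0 < s') (h : s + c ≤ t)
    (h₁ : s' ≤ s) (h₃ : s' + c ≤ t) (x : B.V t) (ht : 0 < t) :
    A.ρ s' s hs' h₁ (i.g s t hs h x) = i.g s' t hs' h₃ x := by
  have := i.g_nat s t s' t hs ht hs' h h₁ le_rfl h₃ x
  rwa [B.ρ_refl] at this

theorem g_right (i : Retr A B c) {s t t' : ℝ} (hs : 0 < s) (ht : 0 < t) (h : s + c ≤ t)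
    (h₂ : t ≤ t') (h₃ : s + c ≤ t') (x : B.V t') :
    i.g s t hs h (B.ρ t t' ht h₂ x) = i.g s t' hs h₃ x := by
  have := i.g_nat s t s t' hs ht hs h le_rfl h₂ h₃ x
  rwa [A.ρ_refl] at this

/-- **Retracts of step modules.** -/
theorem step (i : Retr A B c) (hc : 0 ≤ c) {T C : ℝ} (hT : 0 ≤ T) (hC : 0 < C) (h : B.Step T C) :
    A.Step T (C + 2 * c) where
  low s t hs hst h1 h2 x := by
    have p1 : 0 < s + c := by linarith
    have p2 : 0 < s + c + C := by linarith
    have pt : 0 < t := by linarith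
    rw [← i.gf s (s + c) t hs p1 le_rfl (by linarith) hst,
      ← i.f_left p2 p1 (by linarith) (by linarith) (by linarith) x pt,
      h.low _ _ p1 _ le_rfl (by linarith), map_zero]
  img s t t' hs hst hst' h1 h2 x := by
    have p1 : 0 < s + c := by linarith
    have p2 : 0 < s + c + C := by linarith
    have pt : 0 < t := by linarith
    have pt' : 0 < t' := by linarith
    have p3 : 0 < t' + c := by linarith
    obtain ⟨y, hy⟩ := h.img (s + c) (s + c + C) (t' + c) p1 (by linarith) (by linarith)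
      (by linarith) le_rfl (i.f (s + c + C) t p2 (by linarith) x)
    refine ⟨i.g t' (t' + c) pt' le_rfl y, ?_⟩
    rw [i.g_left pt' hs le_rfl hst' (by linarith) y p3,
      ← i.g_right hs p1 le_rfl (by linarith) (by linarith) y, hy,
      i.f_left p2 p1 _ _ (by linarith) x pt, i.gf s (s + c) t hs p1 le_rfl _ hst]
  ker s r t hs hr hst hrt h1 h2 h3 x hx := by
    have pt : 0 < t := by linarith
    have p1 : 0 < s - c := by linarith
    have p2 : 0 < t - c := by linarith
    have p3 : 0 < r + c := by linarith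
    have e1 : B.ρ (s - c) (t - c) p1 (by linarith) (i.f (t - c) t p2 (by linarith) x) = 0 := by
      rw [i.f_left p2 p1 _ _ (by linarith) x pt,
        ← i.f_right p1 hs (by linarith) hst (by linarith) x, hx, map_zero]
    have e2 := h.ker (s - c) (r + c) (t - c) p1 p3 (by linarith) (by linarith) (by linarith)
      (by linarith) (by linarith) _ e1
    rw [i.f_left p2 p3 _ _ (by linarith) x pt] at e2
    rw [← i.gf r (r + c) t hr p3 le_rfl (by linarith) hrt, e2, map_zero]

end Retr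

theorem Intl.step {A B : PM k} {c : ℝ} (i : Intl A B c) (hc : 0 ≤ c) {T C : ℝ} (hT : 0 ≤ T)
    (hC : 0 < C) (h : B.Step T C) : A.Step T (C + 2 * c) := i.retr.step hc hT hC h

theorem Intl.step' {A B : PM k} {c : ℝ} (i : Intl A B c) (hc : 0 ≤ c) {T C : ℝ} (hT : 0 ≤ T)
    (hC : 0 < C) (h : A.Step T C) : B.Step T (C + 2 * c) := i.retr'.step hc hT hC h

/-! ### Exact sequences -/

/-- Exact sequences `N → P → X → Q → R` of persistence modules. -/
structure Ex5 (N P X Q R : PM k) where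
  ν : ∀ t, 0 < t → N.V t →ₗ[k] P.V t
  α : ∀ t, 0 < t → P.V t →ₗ[k] X.V t
  β : ∀ t, 0 < t → X.V t →ₗ[k] Q.V t
  δ : ∀ t, 0 < t → Q.V t →ₗ[k] R.V t
  ν_nat : ∀ s t hs ht (h : s ≤ t) x, P.ρ s t hs h (ν t ht x) = ν s hs (N.ρ s t hs h x)
  α_nat : ∀ s t hs ht (h : s ≤ t) x, X.ρ s t hs h (α t ht x) = α s hs (P.ρ s t hs h x)
  β_nat : ∀ s t hs ht (h : s ≤ t) x, Q.ρ s t hs h (β t ht x) = β s hs (X.ρ s t hs h x)
  δ_nat : ∀ s t hs ht (h : s ≤ t) x, R.ρ s t hs h (δ t ht x) = δ s hs (Q.ρ s t hs h x)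
  exP : ∀ t ht, Function.Exact (ν t ht) (α t ht)
  exX : ∀ t ht, Function.Exact (α t ht) (β t ht)
  exQ : ∀ t ht, Function.Exact (β t ht) (δ t ht)

namespace Ex5

variable {N P X Q R : PM k}

/-- **The middle term of an exact sequence of step modules is a step module.** -/
theorem step (e : Ex5 N P X Q R) {T C : ℝ} (hT : 0 ≤ T) (hC : 0 < C) (hN : N.Step T C)
    (hP : P.Step T C) (hQ : Q.Step T C) (hR : R.Step T C) : X.Step T (3 * C) where
  low s t hs hst h1 h2 x := by
    have p1 : 0 < s + C := by linarith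
    have pt : 0 < t := by linarith
    -- the restriction to the level `s + C` comes from `P`
    have e1 : e.β (s + C) p1 (X.ρ (s + C) t p1 (by linarith) x) = 0 := by
      rw [← e.β_nat _ _ _ pt]
      exact hQ.low _ _ _ _ (by linarith) (by linarith) _
    obtain ⟨p, hp⟩ := (e.exX _ p1 _).1 e1
    have e2 : X.ρ s t hs hst x = X.ρ s (s + C) hs (by linarith) (X.ρ (s + C) t p1 (by linarith) x) :=
      (X.ρ_comp _ _ _ _ _ _ _ _ _).symm
    rw [e2, ← hp, e.α_nat _ _ _ p1, hP.low _ _ hs _ le_rfl (by linarith), map_zero]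
  img s t t' hs hst hst' h1 h2 x := by
    have pt : 0 < t := by linarith
    -- `s < s + C < s + 2 C ≤ t`, and a large level `u`
    have p1 : 0 < s + C := by linarith
    set u := max t' (s + 3 * C) + C with hu
    have u1 : t' + C ≤ u := by rw [hu]; linarith [le_max_left t' (s + 3 * C)]
    have u2 : s + 4 * C ≤ u := by rw [hu]; linarith [le_max_right t' (s + 3 * C)]
    have pu : 0 < u := by linarith
    have pu' : 0 < u - C := by linarith
    obtain ⟨y, hy⟩ := hQ.img (s + C) t u p1 (by linarith) (by linarith) (by linarith)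
      (by linarith) (e.β t pt x)
    -- `y` lifts after restriction to `u - C`
    have e1 : R.ρ (s + C) u p1 (by linarith) (e.δ u pu y) = 0 := by
      rw [e.δ_nat _ _ p1, hy, e.β_nat _ _ p1]
      exact (e.exQ _ p1 _).2 ⟨_, rfl⟩
    have e2 := hR.ker (s + C) (u - C) u p1 pu' (by linarith) (by linarith) (by linarith)
      (by linarith) (by linarith) _ e1
    rw [e.δ_nat _ _ pu' pu] at e2
    obtain ⟨x', hx'⟩ := (e.exQ _ pu' _).1 e2
    -- the difference comes from `P`
    have e3 : e.β (s + C) p1 (X.ρ (s + C) t p1 (by linarith) x -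
        X.ρ (s + C) (u - C) p1 (by linarith) x') = 0 := by
      rw [map_sub, ← e.β_nat _ _ p1 pt, ← e.β_nat _ _ p1 pu', hx', Q.ρ_comp _ _ _ _ _ _ _ (by linarith),
        hy, sub_self]
    obtain ⟨p, hp⟩ := (e.exX _ p1 _).1 e3
    obtain ⟨p', hp'⟩ := hP.img s (s + C) (u - C) hs (by linarith) (by linarith) (by linarith)
      le_rfl p
    refine ⟨X.ρ t' (u - C) (by linarith) (by linarith) (x' + e.α (u - C) pu' p'), ?_⟩
    have e4 : X.ρ s t hs hst x = X.ρ s (s + C) hs (by linarith)
        (X.ρ (s + C) t p1 (by linarith) x) := (X.ρ_comp _ _ _ _ _ _ _ _ _).symm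
    have e5 : X.ρ (s + C) t p1 (by linarith) x = e.α (s + C) p1 p +
        X.ρ (s + C) (u - C) p1 (by linarith) x' := by rw [hp]; abel
    rw [X.ρ_comp _ _ _ hs _ _ _ (by linarith), e4, e5, map_add, map_add, X.ρ_comp,
      e.α_nat _ _ hs p1, e.α_nat _ _ hs pu', hp', add_comm]
  ker s r t hs hr hst hrt h1 h2 h3 x hx := by
    have pt : 0 < t := by linarith
    have p1 : 0 < t - C := by linarith
    have p2 : 0 < s - C := by linarith
    -- `x` comes from `P` at the level `t - C`
    have e1 : Q.ρ s t hs hst (e.β t pt x) = 0 := by rw [e.β_nat _ _ hs, hx, map_zero]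
    have e2 := hQ.ker s (t - C) t hs p1 hst (by linarith) (by linarith) (by linarith)
      (by linarith) _ e1
    rw [e.β_nat _ _ p1] at e2
    obtain ⟨p, hp⟩ := (e.exX _ p1 _).1 e2
    have e3 : e.α s hs (P.ρ s (t - C) hs (by linarith) p) = 0 := by
      rw [← e.α_nat _ _ hs p1, hp, X.ρ_comp _ _ _ _ _ _ _ hst, hx]
    obtain ⟨z, hz⟩ := (e.exP _ hs _).1 e3
    obtain ⟨z', hz'⟩ := hN.img (s - C) s (t - C) p2 (by linarith) (by linarith) (by linarith)
      (by linarith) z
    have e4 : P.ρ (s - C) (t - C) p2 (by linarith) (p - e.ν (t - C) p1 z') = 0 := by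
      rw [map_sub, e.ν_nat _ _ p2, hz', ← e.ν_nat _ _ p2 hs, hz, P.ρ_comp _ _ _ _ _ _ _ (by linarith),
        sub_self]
    have e5 := hP.ker (s - C) r (t - C) p2 hr (by linarith) (by linarith) (by linarith)
      (by linarith) (by linarith) _ e4
    rw [map_sub, sub_eq_zero] at e5
    have e6 : X.ρ r t hr hrt x = X.ρ r (t - C) hr (by linarith) (X.ρ (t - C) t p1 (by linarith) x) :=
      (X.ρ_comp _ _ _ _ _ _ _ _ _).symm
    rw [e6, ← hp, e.α_nat _ _ hr p1, e5, e.ν_nat _ _ hr p1]
    exact (e.exP _ hr _).2 ⟨_, rfl⟩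

end Ex5

/-! ### Direct sums -/

namespace PM

/-- The direct sum. -/
def prod (A B : PM k) : PM k where
  V t := A.V t × B.V t
  ρ s t hs h := (A.ρ s t hs h).prodMap (B.ρ s t hs h)
  ρ_refl s hs h x := by
    refine Prod.ext ?_ ?_
    · exact A.ρ_refl s hs h x.1
    · exact B.ρ_refl s hs h x.2
  ρ_comp r s t hr hs h₁ h₂ h₃ x := by
    refine Prod.ext ?_ ?_
    · exact A.ρ_comp r s t hr hs h₁ h₂ h₃ x.1
    · exact B.ρ_comp r s t hr hs h₁ h₂ h₃ x.2

theorem Step.prod {A B : PM k} {T C : ℝ} (hA : A.Step T C) (hB : B.Step T C) :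
    (A.prod B).Step T C where
  low s t hs hst h1 h2 x := Prod.ext (hA.low s t hs hst h1 h2 x.1) (hB.low s t hs hst h1 h2 x.2)
  img s t t' hs hst hst' h1 h2 x := by
    obtain ⟨y, hy⟩ := hA.img s t t' hs hst hst' h1 h2 x.1
    obtain ⟨z, hz⟩ := hB.img s t t' hs hst hst' h1 h2 x.2
    exact ⟨(y, z), Prod.ext hy hz⟩
  ker s r t hs hr hst hrt h1 h2 h3 x hx :=
    Prod.ext (hA.ker s r t hs hr hst hrt h1 h2 h3 x.1 (congrArg Prod.fst hx))
      (hB.ker s r t hs hr hst hrt h1 h2 h3 x.2 (congrArg Prod.snd hx))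

/-! ### Global classes -/

variable {A : PM k} {T C : ℝ}

/-- Every stable class above the wall is the value of a unique compatible family. -/
theorem Step.exists_fam (h : A.Step T C) (hT : 0 ≤ T) (hC : 0 < C) {s t : ℝ} (hs : 0 < s)
    (hst : s ≤ t) (h1 : T + C ≤ s) (h2 : s + C ≤ t) (x : A.V t) :
    ∃ o : A.Fam, o.z s hs = A.ρ s t hs hst x := by
  classical
  -- for every level `u ≥ s` a class `y u` at the level `u + C` which restricts to `x` on `s`
  have key : ∀ u (hu : s ≤ u), ∃ y : A.V (u + C), A.ρ s (u + C) hs (by linarith) y =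
      A.ρ s t hs hst x := fun u hu => h.img s t (u + C) hs hst (by linarith) h1 h2 x
  choose y hy using key
  -- for `u ≥ s` the restrictions of the `y u` are compatible
  have comp : ∀ u v (hu : s ≤ u) (huv : u ≤ v),
      A.ρ u (v + C) (hs.trans_le hu) (by linarith) (y v (hu.trans huv)) =
      A.ρ u (u + C) (hs.trans_le hu) (by linarith) (y u hu) := by
    intro u v hu huv
    have pu : 0 < u := hs.trans_le hu
    have puC : 0 < u + C := by linarith
    have e1 : A.ρ s (u + C) hs (by linarith)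
        (A.ρ (u + C) (v + C) puC (by linarith) (y v (hu.trans huv)) - y u hu) = 0 := by
      rw [map_sub, A.ρ_comp _ _ _ _ _ _ _ (by linarith), hy v (hu.trans huv), hy u hu, sub_self]
    have e2 := h.ker s u (u + C) hs pu (by linarith) (by linarith) h1 hu le_rfl _ e1
    rw [map_sub, sub_eq_zero, A.ρ_comp _ _ _ _ _ _ _ (by linarith)] at e2
    exact e2
  refine ⟨⟨fun r hr => A.ρ r (max r s + C) hr (by linarith [le_max_left r s])
    (y (max r s) (le_max_right _ _)), fun r v hr hrv => ?_⟩, ?_⟩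
  · have pm : 0 < max r s := lt_max_of_lt_left hr
    rw [A.ρ_comp _ _ _ _ _ _ _ (by linarith [le_max_left v s]),
      ← A.ρ_comp r (max r s) (max v s + C) hr pm (le_max_left _ _)
        (by linarith [max_le_max hrv (le_refl s)]) (by linarith [le_max_left v s]),
      comp (max r s) (max v s) (le_max_right _ _) (max_le_max hrv le_rfl), A.ρ_comp]
  · exact hy (max s s) (le_max_right _ _) |> fun e => by
      have : ∀ u (hu : s ≤ u), A.ρ s (u + C) hs (by linarith) (y u hu) = A.ρ s t hs hst x :=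
        fun u hu => hy u hu
      exact this (max s s) (le_max_right _ _)

/-- **Bounded bars.** -/
theorem Step.bfb (h : A.Step T C) (hT : 0 ≤ T) (hC : 0 < C) : A.BFB (3 * C) := by
  intro s t hs hst h1 x
  rcases le_total (s + C) T with h2 | h2
  · exact ⟨⟨fun _ _ => 0, fun _ _ _ _ => map_zero _⟩, h.low s t hs hst (by linarith) h2 x⟩
  · -- restrict first to `u = max s (T + C)`
    set u := max s (T + C) with hu
    have u1 : s ≤ u := le_max_left _ _
    have u2 : T + C ≤ u := le_max_right _ _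
    have u3 : u + C ≤ t := by
      rcases max_choice s (T + C) with h3 | h3 <;> rw [← hu] at h3 <;> rw [h3] <;> linarith
    have pu : 0 < u := hs.trans_le u1
    obtain ⟨o, ho⟩ := h.exists_fam hT hC pu (by linarith) u2 u3 x
    refine ⟨o, ?_⟩
    rw [← o.comp s u hs u1, ho, A.ρ_comp]

/-- Below the wall all compatible families vanish. -/
theorem Step.fam_low (h : A.Step T C) (hC : 0 ≤ C) (o : A.Fam) {s : ℝ} (hs : 0 < s)
    (h1 : s + C ≤ T) : o.z s hs = 0 := by
  rw [← o.comp s (s + C) hs (by linarith)]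
  exact h.low s (s + C) hs _ le_rfl h1 _

/-- A family which vanishes somewhere above the wall is zero. -/
theorem Step.fam_zero (h : A.Step T C) (hC : 0 ≤ C) (o : A.Fam) {s : ℝ} (hs : 0 < s)
    (h1 : T + C ≤ s) (h2 : o.z s hs = 0) (r : ℝ) (hr : 0 < r) : o.z r hr = 0 := by
  rcases le_total r s with h3 | h3
  · rw [← o.comp r s hr h3, h2, map_zero]
  · have e1 : A.ρ s (r + C) hs (by linarith) (o.z (r + C) (by linarith)) = 0 := by
      rw [o.comp s (r + C) hs (by linarith), h2]
    rw [← o.comp r (r + C) hr (by linarith)]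
    exact h.ker s r (r + C) hs hr (by linarith) (by linarith) h1 h3 le_rfl _ e1

end PM

end Vale.Agent.P216.H901
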