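import Vale.Agent.P216.H83.Les
import Vale.Agent.P216.H901.Fam
import Vale.Agent.P216.H550.Lin

/-!
# P216-C: linear families of spaces

`LinF k A hA a C`: the cohomology `H^q(A t)` of the increasing family `A` is a step module with the
wall `a * q`, for all `q`, with the constant `C`.  The property passes to unions of closed sets
over a base space.
-/

set_option linter.all false

open Set

namespace Vale.Agent.P216.H550

open Vale.Agent.P216.AS Vale.Agent.P216.H901 Vale.Agent.P216.H83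

/-! ### Isomorphic modules -/

section Iso

variable {k : Type} [Field k] {A B : PM k} {T C : ℝ}

theorem pmIso_step (I : PMIso A B) (h : B.Step T C) : A.Step T C where
  low s t hs hst h1 h2 x := by
    have ht : 0 < t := hs.trans_le hst
    apply (I.e s hs).injective
    rw [← I.nat s t hs ht, h.low s t hs hst h1 h2, map_zero]
  img s t t' hs hst hst' h1 h2 x := by
    have ht : 0 < t := hs.trans_le hst
    have ht' : 0 < t' := hs.trans_le hst'
    obtain ⟨y, hy⟩ := h.img s t t' hs hst hst' h1 h2 (I.e t ht x)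
    refine ⟨(I.e t' ht').symm y, (I.e s hs).injective ?_⟩
    rw [← I.nat s t' hs ht', LinearEquiv.apply_symm_apply, hy, I.nat s t hs ht]
  ker s r t hs hr hst hrt h1 h2 h3 x hx := by
    have ht : 0 < t := hs.trans_le hst
    apply (I.e r hr).injective
    rw [← I.nat r t hr ht, map_zero]
    refine h.ker s r t hs hr hst hrt h1 h2 h3 _ ?_
    rw [I.nat s t hs ht, hx, map_zero]

end Iso

/-- the zero module -/
def zeroPM (k : Type) [Field k] : PM k where
  V _ := PUnit
  ρ _ _ _ _ := 0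
  ρ_refl _ _ _ _ := rfl
  ρ_comp _ _ _ _ _ _ _ _ _ := rfl

theorem zeroPM_step (k : Type) [Field k] (T C : ℝ) : (zeroPM k).Step T C :=
  PM.step_of_zero (fun _ _ _ => rfl) T

/-! ### The five term sequences of a pair -/

section Pair

variable {E : Type} [PseudoMetricSpace E] (k : Type) [Field k]
  {X A : ℝ → Set E} (hX : MonoP X) (hA : MonoP A) (hAX : ∀ t, 0 < t → A t ⊆ X t)

/-- relative group in the middle -/
def ex5_rel (q : ℕ) :
    Ex5 (pmX k hX q) (pmQ k hA q) (pmP k hX hA (q + 1)) (pmX k hX (q + 1)) (pmQ k hA (q + 1)) where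
  ν := fB k hX hA hAX q
  α := fD k hX hA q
  β := fA k hX hA (q + 1)
  δ := fB k hX hA hAX (q + 1)
  ν_nat := fB_nat k hX hA hAX q
  α_nat := fD_nat k hX hA q
  β_nat := fA_nat k hX hA (q + 1)
  δ_nat := fB_nat k hX hA hAX (q + 1)
  exP := f_ex2 k hX hA hAX q
  exX := f_ex3 k hX hA hAX q
  exQ := f_ex1 k hX hA hAX (q + 1)

/-- relative group in the middle, degree `0` -/
def ex5_rel0 :
    Ex5 (zeroPM k) (zeroPM k) (pmP k hX hA 0) (pmX k hX 0) (pmQ k hA 0) where
  ν _ _ := 0
  α _ _ := 0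
  β := fA k hX hA 0
  δ := fB k hX hA hAX 0
  ν_nat _ _ _ _ _ _ := rfl
  α_nat _ _ _ _ _ _ := map_zero _
  β_nat := fA_nat k hX hA 0
  δ_nat := fB_nat k hX hA hAX 0
  exP t ht x := ⟨fun _ => ⟨x, rfl⟩, fun _ => rfl⟩
  exX t ht x := ⟨fun h => ⟨PUnit.unit, ((injective_iff_map_eq_zero _).1
    (lesA_zero_injective k (X t) (A t)) x h).symm⟩, fun ⟨_, h⟩ => by rw [← h]; exact map_zero _⟩
  exQ := f_ex1 k hX hA hAX 0

/-- absolute group in the middle -/
def ex5_abs (q : ℕ) :
    Ex5 (pmQ k hA q) (pmP k hX hA (q + 1)) (pmX k hX (q + 1)) (pmQ k hA (q + 1))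
      (pmP k hX hA (q + 1 + 1)) where
  ν := fD k hX hA q
  α := fA k hX hA (q + 1)
  β := fB k hX hA hAX (q + 1)
  δ := fD k hX hA (q + 1)
  ν_nat := fD_nat k hX hA q
  α_nat := fA_nat k hX hA (q + 1)
  β_nat := fB_nat k hX hA hAX (q + 1)
  δ_nat := fD_nat k hX hA (q + 1)
  exP := f_ex3 k hX hA hAX q
  exX := f_ex1 k hX hA hAX (q + 1)
  exQ := f_ex2 k hX hA hAX (q + 1)

/-- absolute group in the middle, degree `0` -/
def ex5_abs0 :
    Ex5 (zeroPM k) (pmP k hX hA 0) (pmX k hX 0) (pmQ k hA 0) (pmP k hX hA (0 + 1)) where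
  ν _ _ := 0
  α := fA k hX hA 0
  β := fB k hX hA hAX 0
  δ := fD k hX hA 0
  ν_nat _ _ _ _ _ _ := map_zero _
  α_nat := fA_nat k hX hA 0
  β_nat := fB_nat k hX hA hAX 0
  δ_nat := fD_nat k hX hA 0
  exP t ht x := ⟨fun h => ⟨PUnit.unit, ((injective_iff_map_eq_zero _).1
    (lesA_zero_injective k (X t) (A t)) x h).symm⟩, fun ⟨_, h⟩ => by rw [← h]; exact map_zero _⟩
  exX := f_ex1 k hX hA hAX 0
  exQ := f_ex2 k hX hA hAX 0

end Pair

/-! ### Linear families -/

section LinF

variable {E : Type} [MetricSpace E] (k : Type) [Field k]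

/-- `H^q(A t)` is a step module with the wall `a * q`, for all `q`. -/
def LinF (A : ℝ → Set E) (hA : MonoP A) (a C : ℝ) : Prop :=
  ∀ q : ℕ, (pmX k hA q).Step (a * q) C

/-- The same for a family of pairs. -/
def LinR (A B : ℝ → Set E) (hA : MonoP A) (hB : MonoP B) (a C : ℝ) : Prop :=
  ∀ q : ℕ, (pmP k hA hB q).Step (a * q) C

variable {k} {X A B : ℝ → Set E} {hX : MonoP X} {hA : MonoP A} {hB : MonoP B} {a C C' : ℝ}

theorem LinF.mono (h : LinF k A hA a C) (hC : C ≤ C') : LinF k A hA a C' :=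
  fun q => (h q).mono' hC

theorem LinR.mono (h : LinR k A B hA hB a C) (hC : C ≤ C') : LinR k A B hA hB a C' :=
  fun q => (h q).mono' hC

theorem LinF.congr (h : LinF k A hA a C) (hAB : ∀ t, A t = B t) : LinF k B hB a C := by
  obtain rfl : A = B := funext hAB
  exact h

theorem LinR.congr (h : LinR k A B hA hB a C) {A' B' : ℝ → Set E} {hA' : MonoP A'}
    {hB' : MonoP B'} (e : ∀ t, A t = A' t) (e' : ∀ t, B t = B' t) : LinR k A' B' hA' hB' a C := by
  obtain rfl : A = A' := funext e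
  obtain rfl : B = B' := funext e'
  exact h

private theorem wall_aux {a : ℝ} (ha : 0 ≤ a) (q : ℕ) : |a * ((q + 1 : ℕ) : ℝ) - a * q| = a := by
  push_cast
  rw [mul_add, mul_one, add_sub_cancel_left, abs_of_nonneg ha]

private theorem wall_aux' {a : ℝ} (ha : 0 ≤ a) (q : ℕ) : |a * (q : ℝ) - a * ((q + 1 : ℕ) : ℝ)| = a := by
  rw [abs_sub_comm, wall_aux ha]

/-- absolute ⟹ relative -/
theorem LinF.rel (ha : 0 ≤ a) (hC : 0 < C) (hAX : ∀ t, 0 < t → A t ⊆ X t)
    (h1 : LinF k X hX a C) (h2 : LinF k A hA a C) : LinR k X A hX hA a (3 * (C + a)) := by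
  intro q
  cases q with
  | zero =>
    have e0 : a * ((0 : ℕ) : ℝ) = 0 := by simp
    have h1' := (h1 0).mono' (show C ≤ C + a by linarith)
    have h2' := (h2 0).mono' (show C ≤ C + a by linarith)
    exact (ex5_rel0 k hX hA hAX).step (by rw [e0]) (by linarith) (zeroPM_step k _ _)
      (zeroPM_step k _ _) h1' h2'
  | succ q =>
    refine (ex5_rel k hX hA hAX q).step (by positivity) (by linarith) ?_ ?_ ?_ ?_
    · exact (h1 q).mono (by rw [wall_aux ha]; linarith)
    · exact (h2 q).mono (by rw [wall_aux ha]; linarith)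
    · exact (h1 (q + 1)).mono' (by linarith)
    · exact (h2 (q + 1)).mono' (by linarith)

/-- relative ⟹ absolute -/
theorem LinR.abs (ha : 0 ≤ a) (hC : 0 < C) (hAX : ∀ t, 0 < t → A t ⊆ X t)
    (h1 : LinR k X A hX hA a C) (h2 : LinF k A hA a C) : LinF k X hX a (3 * (C + a)) := by
  intro q
  cases q with
  | zero =>
    have e0 : a * ((0 : ℕ) : ℝ) = 0 := by simp
    refine (ex5_abs0 k hX hA hAX).step (by rw [e0]) (by linarith) (zeroPM_step k _ _) ?_ ?_ ?_
    · exact (h1 0).mono' (by linarith)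
    · exact (h2 0).mono' (by linarith)
    · exact (h1 1).mono (by
        have := wall_aux' ha 0
        rw [zero_add] at this
        rw [this]; linarith)
  | succ q =>
    refine (ex5_abs k hX hA hAX q).step (by positivity) (by linarith) ?_ ?_ ?_ ?_
    · exact (h2 q).mono (by rw [wall_aux ha]; linarith)
    · exact (h1 (q + 1)).mono' (by linarith)
    · exact (h2 (q + 1)).mono' (by linarith)
    · exact (h1 (q + 1 + 1)).mono (by rw [wall_aux' ha (q + 1)]; linarith)

/-- Strong excision for families of compact sets. -/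
noncomputable def isoExcF (h2 : (2 : k) ≠ 0) (cA : ∀ t, 0 < t → IsCompact (A t))
    (cB : ∀ t, 0 < t → IsCompact (B t)) (hI : MonoP fun t => A t ∩ B t)
    (hU : MonoP fun t => A t ∪ B t) (q : ℕ) :
    PMIso (pmP k hU hA q) (pmP k hB hI q) where
  e t ht := LinearEquiv.ofBijective _ (strong_excision (tw_tr h2 _) (cA t ht) (cB t ht) (inv_tr _)
    (inv_tr _) rfl rfl subset_union_right inter_subset_left q)
  nat s t hs ht h x := by
    obtain ⟨x, hx, rfl⟩ := H.exists_mk x
    rfl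

/-- **Unions.** -/
theorem LinF.union (h2 : (2 : k) ≠ 0) (ha : 0 ≤ a) (hC : 0 < C)
    (cA : ∀ t, 0 < t → IsCompact (A t)) (cB : ∀ t, 0 < t → IsCompact (B t))
    {hI : MonoP fun t => A t ∩ B t} {hU : MonoP fun t => A t ∪ B t}
    (h1 : LinF k A hA a C) (h2' : LinF k B hB a C) (h3 : LinF k _ hI a C) :
    LinF k _ hU a (9 * C + 12 * a) := by
  have e1 : LinR k B (fun t => A t ∩ B t) hB hI a (3 * (C + a)) :=
    LinF.rel ha hC (fun _ _ => inter_subset_right) h2' h3
  have e2 : LinR k (fun t => A t ∪ B t) A hU hA a (3 * (C + a)) := fun q =>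
    pmIso_step (isoExcF h2 cA cB hI hU q) (e1 q)
  have e3 := LinR.abs ha (by linarith) (fun _ _ => subset_union_left) e2
    (h1.mono (by linarith : C ≤ 3 * (C + a)))
  exact e3.mono (by linarith)

/-- The empty family. -/
theorem linF_empty (h : MonoP fun _ => (∅ : Set E)) (a C : ℝ) : LinF k (fun _ => (∅ : Set E)) h a C := by
  intro q
  refine PM.step_of_zero (fun t ht x => ?_) _
  obtain ⟨x, hx, rfl⟩ := H.exists_mk x
  exact H.mk_eq_zero.2
    (T_le_Bc _ _ _ ⟨hx.1.1, 1, one_pos, fun y hy => absurd (hy.1 0) (Set.notMem_empty _)⟩)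

end LinF

/-! ### Finite unions over a base space -/

section Engine

variable {E Y : Type} [MetricSpace E] [TopologicalSpace Y] {k : Type} [Field k]

/-- the constants -/
def linC (a : ℝ) : ℕ → ℝ → ℝ
  | 0, C => C
  | m + 1, C => 9 * linC a m C + 12 * a

theorem linC_pos {a C : ℝ} (ha : 0 ≤ a) (hC : 0 < C) : ∀ m, 0 < linC a m C
  | 0 => hC
  | m + 1 => by
    have := linC_pos ha hC m
    show 0 < 9 * linC a m C + 12 * a
    linarith

theorem le_linC {a C : ℝ} (ha : 0 ≤ a) (hC : 0 < C) : ∀ m, C ≤ linC a m C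
  | 0 => le_rfl
  | m + 1 => by
    have := le_linC ha hC m
    have := linC_pos ha hC m
    show C ≤ 9 * linC a m C + 12 * a
    linarith

/-- the union of a list of sets -/
def lU : List (Set Y) → Set Y
  | [] => ∅
  | D :: l => D ∪ lU l

omit [TopologicalSpace Y] in
theorem inter_lU (D : Set Y) : ∀ l : List (Set Y), D ∩ lU l = lU (l.map (D ∩ ·))
  | [] => inter_empty D
  | D' :: l => by
    show D ∩ (D' ∪ lU l) = (D ∩ D') ∪ lU (l.map (D ∩ ·))
    rw [inter_union_distrib_left, inter_lU D l]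

omit [TopologicalSpace Y] in
theorem mem_lU {l : List (Set Y)} {y : Y} : y ∈ lU l ↔ ∃ D ∈ l, y ∈ D := by
  induction l with
  | nil => exact ⟨fun h => absurd h (notMem_empty _), fun ⟨_, h, _⟩ => absurd h (List.not_mem_nil)⟩
  | cons D l ih =>
    show y ∈ D ∪ lU l ↔ _
    rw [mem_union, ih]
    simp

theorem isClosed_lU : ∀ {l : List (Set Y)}, (∀ D ∈ l, IsClosed D) → IsClosed (lU l)
  | [], _ => isClosed_empty
  | D :: l, h => (h D (List.mem_cons_self)).union (isClosed_lU fun D' h' =>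
      h D' (List.mem_cons_of_mem _ h'))

theorem ovr_mp {E Y : Type} {ev : E → Y} {Z : ℝ → Set E} (hZ : MonoP Z) (D : Set Y) :
    MonoP (ovr ev Z D) := fun s t hs h _ hw => ⟨hZ s t hs h hw.1, hw.2⟩

/-- **Finite unions of closed sets from a class closed under intersections.** -/
theorem linF_lU (h2 : (2 : k) ≠ 0) {ev : E → Y} (hev : Continuous ev) {Z : ℝ → Set E}
    (hZ : MonoP Z) (cZ : ∀ t, 0 < t → IsCompact (Z t)) {𝒟 : Set (Set Y)}
    (hcl : ∀ D ∈ 𝒟, IsClosed D) (hint : ∀ D ∈ 𝒟, ∀ D' ∈ 𝒟, D ∩ D' ∈ 𝒟) {a C : ℝ} (ha : 0 ≤ a)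
    (hC : 0 < C) (h : ∀ D ∈ 𝒟, LinF k (ovr ev Z D) (ovr_mp hZ D) a C) :
    ∀ (m : ℕ) (l : List (Set Y)), l.length = m → (∀ D ∈ l, D ∈ 𝒟) →
      LinF k (ovr ev Z (lU l)) (ovr_mp hZ _) a (linC a m C) := by
  intro m
  induction m with
  | zero =>
    intro l hl _
    obtain rfl := List.length_eq_zero_iff.1 hl
    refine LinF.congr (linF_empty monoP_empty a C) fun t => ?_
    ext w
    exact ⟨fun h => absurd h (notMem_empty _), fun h => absurd h.2 (notMem_empty _)⟩
  | succ m ih =>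
    intro l hl hlD
    obtain ⟨D, l, rfl⟩ : ∃ D l', l = D :: l' := by
      cases l with
      | nil => simp at hl
      | cons D l => exact ⟨D, l, rfl⟩
    have hl' : l.length = m := by simpa using hl
    have hD : D ∈ 𝒟 := hlD D List.mem_cons_self
    have hlD' : ∀ D' ∈ l, D' ∈ 𝒟 := fun D' h' => hlD D' (List.mem_cons_of_mem _ h')
    have i1 := ih l hl' hlD'
    have i2 := (h D hD).mono (le_linC ha hC m)
    have i3 := ih (l.map (D ∩ ·)) (by rw [List.length_map, hl']) fun D' h' => by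
      obtain ⟨D'', h1, rfl⟩ := List.mem_map.1 h'
      exact hint D hD D'' (hlD' D'' h1)
    have cl := isClosed_lU fun D' h' => hcl D' (hlD' D' h')
    have mI : MonoP fun t => ovr ev Z (lU l) t ∩ ovr ev Z D t := fun s t hs hst =>
      inter_subset_inter (ovr_mp hZ _ s t hs hst) (ovr_mp hZ _ s t hs hst)
    have mU : MonoP fun t => ovr ev Z (lU l) t ∪ ovr ev Z D t := fun s t hs hst =>
      union_subset_union (ovr_mp hZ _ s t hs hst) (ovr_mp hZ _ s t hs hst)
    have i3' : LinF k (fun t => ovr ev Z (lU l) t ∩ ovr ev Z D t) mI a (linC a m C) := by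
      refine LinF.congr i3 fun t => ?_
      rw [← inter_lU]
      ext w
      exact ⟨fun h => ⟨⟨h.1, h.2.2⟩, h.1, h.2.1⟩, fun h => ⟨h.1.1, h.2.2, h.1.2⟩⟩
    have := LinF.union (hU := mU) h2 ha (linC_pos ha hC m)
      (fun t ht => ovr_compact hev cl (cZ t ht)) (fun t ht => ovr_compact hev (hcl D hD) (cZ t ht))
      i1 i2 i3'
    refine LinF.congr this fun t => ?_
    ext w
    constructor
    · rintro (h | h)
      · exact ⟨h.1, Or.inr h.2⟩
      · exact ⟨h.1, Or.inl h.2⟩
    · rintro ⟨h1, h2 | h2⟩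
      · exact Or.inr ⟨h1, h2⟩
      · exact Or.inl ⟨h1, h2⟩

end Engine

end Vale.Agent.P216.H550
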