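import Vale.Agent.P216.H550.FinalC
import Vale.Agent.P216.H285.CellOp
import Vale.Agent.P216.H787.COut

/-!
# P216-C: from `OmegaOutC` to the slots of the based loops

`slotsOf : OmegaOutC M q N x₀ B k → OmSlots (H^*(P x₀ x₀)) N q B`, and the signs
(`OmegaSignC`) in terms of the operator `opOm (opP x₀)`.
-/

set_option linter.all false

open Set BoundedContinuousFunction

namespace Vale.Agent.P216.B64

/-- **The signs** of the reversal: `(-1)^j` on `W j`, `(-1)^(j+1)` on `A j`. -/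
structure OmegaSignC {M : Type} [MetricSpace M] {q N : ℕ} {x₀ : M} {B : ℝ} {k : Type} [Field k]
    (O : OmegaOutC M q N x₀ B k) : Prop where
  W : ∀ (j : ℕ) (t : ℝ), 0 < t → ∀ (f : (ℝ →ᵇ M) → (ℝ →ᵇ M)), RevP t f →
    ∀ h : UMap (PS.P x₀ x₀ t) (PS.P x₀ x₀ t) f,
    hpull k h (j * N) (O.W j t) = (-1 : k) ^ j • O.W j t
  A : ∀ (j : ℕ) (t : ℝ), 0 < t → ∀ (f : (ℝ →ᵇ M) → (ℝ →ᵇ M)), RevP t f →
    ∀ h : UMap (PS.P x₀ x₀ t) (PS.P x₀ x₀ t) f,
    hpull k h (j * N + q) (O.A j t) = (-1 : k) ^ (j + 1) • O.A j t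

end Vale.Agent.P216.B64

namespace Vale.Agent.P216.H550

open Vale.Agent.P216.AS Vale.Agent.P216.H901 Vale.Agent.P216.PS Vale.Agent.P216.MV337
open Vale.Agent.P216.H754B Vale.Agent.P216.H894 Vale.Agent.P216.H83 Vale.Agent.P216.B64
open Vale.Agent.P216.H285

variable {M : Type} [MetricSpace M] {x₀ : M} {q N : ℕ} {B : ℝ} {k : Type} [Field k]

/-- The persistence modules of the based loops. -/
noncomputable abbrev GR (k : Type) [Field k] (x₀ : M) (r : ℕ) : PM k :=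
  pmX k (mono_P x₀) r

/-- The relative form of a compatible family of absolute classes. -/
noncomputable def relFam (r : ℕ) (z : ∀ t, HU k (P x₀ x₀ t) r)
    (hz : ∀ s t (h : s ≤ t), hres k (P_mono h) r (z t) = z s) : (GR k x₀ r).Fam where
  z t _ := absE k (P x₀ x₀ t) r (z t)
  comp s t hs h := by
    have e1 := absE_nat k (P_mono (a := x₀) (b := x₀) h) r (z t)
    rw [← hz s t h]
    exact e1

theorem relFam_ne {r : ℕ} {z : ∀ t, HU k (P x₀ x₀ t) r}
    {hz : ∀ s t (h : s ≤ t), hres k (P_mono h) r (z t) = z s} {t : ℝ} (ht : 0 < t) :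
    (relFam r z hz).z t ht ≠ 0 ↔ z t ≠ 0 := by
  show absE k (P x₀ x₀ t) r (z t) ≠ 0 ↔ _
  rw [Ne, LinearEquiv.map_eq_zero_iff]

theorem abs_ρ {r : ℕ} {s t : ℝ} (hs : 0 < s) (h : s ≤ t)
    (x : Hr (tr (ℝ →ᵇ M)) (on k) (P x₀ x₀ t) ∅ r) : (GR k x₀ r).ρ s t hs h x =
      absE k (P x₀ x₀ s) r (hres k (P_mono h) r ((absE k (P x₀ x₀ t) r).symm x)) := by
  obtain ⟨y, rfl⟩ := (absE k (P x₀ x₀ t) r).surjective x
  rw [LinearEquiv.symm_apply_apply]
  exact absE_nat k (P_mono (a := x₀) (b := x₀) h) r y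

theorem relFam_line {r : ℕ} {z : ∀ t, HU k (P x₀ x₀ t) r}
    {hz : ∀ s t (h : s ≤ t), hres k (P_mono h) r (z t) = z s}
    (hl : ∀ t, 0 ≤ t → ∀ (h : P x₀ x₀ t ⊆ P x₀ x₀ (t + B)) (y : HU k (P x₀ x₀ (t + B)) r),
      ∃ c : k, hres k h r y = c • z t) (hB : 0 ≤ B) : (GR k x₀ r).Line (relFam r z hz) B := by
  intro s t hs hst h1 x
  have h2 : P x₀ x₀ s ⊆ P x₀ x₀ (s + B) := P_mono (by linarith)
  obtain ⟨c, hc⟩ := hl s hs.le h2 (hres k (P_mono h1) r ((absE k (P x₀ x₀ t) r).symm x))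
  refine ⟨c, ?_⟩
  have e : hres k (P_mono hst) r ((absE k (P x₀ x₀ t) r).symm x) = c • z s := by
    rw [← hc]
    exact (res_res _ _ _).symm
  refine (abs_ρ hs hst x).trans ?_
  rw [e, map_smul]
  rfl

/-- **From `OmegaOutC` to the slots.** -/
noncomputable def slotsOf (O : OmegaOutC M q N x₀ B k) (hB : 0 ≤ B) :
    OmSlots (fun r => pmX k (mono_P x₀) r) N q B where
  W i := relFam (i * N) (O.W i) (O.res_W i)
  A i := relFam (i * N + q) (O.A i) (O.res_A i)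
  lineW i := relFam_line (O.spanW i) hB
  lineA i := relFam_line (O.spanA i) hB
  zero r h1 h2 s t hs hst h3 x := by
    have h4 : P x₀ x₀ s ⊆ P x₀ x₀ (s + B) := P_mono (by linarith)
    have e := O.zero r h1 h2 s hs.le h4
      (hres k (P_mono h3) r ((absE k (P x₀ x₀ t) r).symm x))
    have e' : hres k (P_mono hst) r ((absE k (P x₀ x₀ t) r).symm x) = 0 := by
      rw [← e]
      exact (res_res _ _ _).symm
    refine (abs_ρ hs hst x).trans ?_
    rw [e', map_zero]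
    rfl
  W0 t ht := (relFam_ne ht).2 (O.W_ne t ht.le)
  b1 i t ht ht' h := (relFam_ne ht').2 (O.b1 i t ht.le ((relFam_ne ht).1 h))
  b2 i t ht ht' h := (relFam_ne ht').2 (O.b2 i t ht.le ((relFam_ne ht).1 h))
  b3 i t ht ht' h := (relFam_ne ht').2 (O.b3 i t ht.le ((relFam_ne ht).1 h))

/-- The operator on an absolute class. -/
theorem opOm_abs (r : ℕ) (t : ℝ) (ht : 0 < t) (y : HU k (P x₀ x₀ t) r) :
    (opOm (opP x₀) k (mono_P x₀) r).r t ht (absE k (P x₀ x₀ t) r y) =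
      absE k (P x₀ x₀ t) r (hpull k ((opP x₀).map t ht) r y) := by
  obtain ⟨z, hz, rfl⟩ := H.exists_mk y
  rfl

theorem sign_W (O : OmegaOutC M q N x₀ B k) (hB : 0 ≤ B) (hs : OmegaSignC O) (i : ℕ) (t : ℝ)
    (ht : 0 < t) : (opOm (opP x₀) k (mono_P x₀) (i * N)).r t ht (((slotsOf O hB).W i).z t ht) =
      (-1 : k) ^ i • ((slotsOf O hB).W i).z t ht := by
  have e1 := opOm_abs (i * N) t ht (O.W i t)
  have e2 := hs.W i t ht _ (fun w u => rfl) ((opP x₀).map t ht)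
  rw [e2, map_smul] at e1
  exact e1

theorem sign_A (O : OmegaOutC M q N x₀ B k) (hB : 0 ≤ B) (hs : OmegaSignC O) (i : ℕ) (t : ℝ)
    (ht : 0 < t) :
    (opOm (opP x₀) k (mono_P x₀) (i * N + q)).r t ht (((slotsOf O hB).A i).z t ht) =
      (-1 : k) ^ (i + 1) • ((slotsOf O hB).A i).z t ht := by
  have e1 := opOm_abs (i * N + q) t ht (O.A i t)
  have e2 := hs.A i t ht _ (fun w u => rfl) ((opP x₀).map t ht)
  rw [e2, map_smul] at e1
  exact e1

end Vale.Agent.P216.H550
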