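import Vale.Agent.P216.H550.HEq4

/-!
# P216-D: injectivity of `F^*`, and `XCGoal` for spaces homotopy equivalent to a space with a
handle decomposition
-/

set_option linter.all false

open Set Filter Topology BoundedContinuousFunction

namespace Vale.Agent.P216.H550

open Vale.Agent.P216.AS Vale.Agent.P216.H901 Vale.Agent.P216.PS Vale.Agent.P216.MV337
open Vale.Agent.P216.H754B Vale.Agent.P216.H894 Vale.Agent.P216.H83 Vale.Agent.P216.B64
open Vale.Agent.P216.H285 Vale.Agent.P216.H774 Vale.Agent.P216.H133C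
open Vale.Agent.P216.C313 (XY XY_mono)
open Vale.Agent.P216.C337 (TrY spXY isCompact_XY tw c2 PY XY_eq PY_mono isMap_tw tw_mem)

section Geo

variable {Q M : Type} [MetricSpace Q] [CompactSpace Q] [MetricSpace M] [CompactSpace M]
  {g : Q → M} {f : M → Q} {ℓ ℓ' : ℝ} {T : M → ℝ → M} {Hh : Q × ℝ → Q} {T' : Q × ℝ → ℝ → M}

/-- the tracks `T (g y)` -/
theorem track_g (hg : Continuous g) (hT : Tk (univ : Set M) id (fun x => g (f x)) ℓ T) :
    TrY (univ : Set Q) g (fun y => g (f (g y))) ℓ fun y => T (g y) where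
  nonneg := hT.nonneg
  lip y _ := hT.lip _ trivial
  left y _ v hv := hT.left _ trivial v hv
  right y _ v hv := hT.right _ trivial v hv
  cont := hT.cont' (S := M) (X := fun p : Q × ℝ => g p.1) (φ := fun p => p.2) (by fun_prop)
    (fun _ _ => trivial) continuousOn_snd

/-- `Θ : XQ g t → FL M (t + 2 ℓ' + 2 ℓ)` -/
noncomputable def thQ (g : Q → M) (ℓ ℓ' : ℝ) (T : M → ℝ → M) (T' : Q × ℝ → ℝ → M) (t : ℝ)
    (q : Q × (ℝ →ᵇ M)) : ℝ →ᵇ M :=
  (tw ℓ (t + (ℓ' + ℓ')) (C337.rv ℓ fun y => T (g y)) (C337.rv ℓ fun y => T (g y))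
    (tw ℓ' t (fun y => T' (y, 1)) (fun y => T' (y, 1)) q)).2

variable (hg : Continuous g) (hf : Continuous f)
  (hT : Tk (univ : Set M) id (fun x => g (f x)) ℓ T) (hH : HTk g (fun y => f (g y)) Hh ℓ' T')

include hg hf hT hH in
theorem map1 {t : ℝ} (ht : 0 < t) :
    IsMap (tr (Q × (ℝ →ᵇ M))) (tr (Q × (ℝ →ᵇ M))) (XQ g t)
      (PY (fun y => g (f (g y))) (fun y => g (f (g y))) univ (t + (ℓ' + ℓ')))
      (tw ℓ' t (fun y => T' (y, 1)) fun y => T' (y, 1)) := by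
  have h := isMap_tw isCompact_univ hg.continuousOn hg.continuousOn hH.track1 hH.track1 ht
  rwa [← XY_eq] at h

include hg hf hT in
theorem map2 {t : ℝ} (ht : 0 < t) :
    IsMap (tr (Q × (ℝ →ᵇ M))) (tr (Q × (ℝ →ᵇ M)))
      (PY (fun y => g (f (g y))) (fun y => g (f (g y))) univ t) (XQ g (t + (ℓ + ℓ)))
      (tw ℓ t (C337.rv ℓ fun y => T (g y)) (C337.rv ℓ fun y => T (g y))) := by
  have hc : ContinuousOn (fun y => g (f (g y))) univ := by fun_prop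
  have h := isMap_tw isCompact_univ hc hc (track_g hg hT).rv_ (track_g hg hT).rv_ ht
  have e : XQ g (t + (ℓ + ℓ)) = PY g g univ (t + (ℓ + ℓ)) := XY_eq
  rw [e]
  exact h

include hg in
theorem map_snd {t : ℝ} (ht : 0 < t) :
    IsMap (tr (Q × (ℝ →ᵇ M))) (tr (ℝ →ᵇ M)) (XQ g t) (FL M t) Prod.snd :=
  MV337.map_of_cont (isCompact_XQ hg ht) continuousOn_snd fun q hq => hq.2.1

include hg hf hT hH in
theorem map_thQ {t : ℝ} (ht : 0 < t) :
    IsMap (tr (Q × (ℝ →ᵇ M))) (tr (ℝ →ᵇ M)) (XQ g t) (FL M (t + (ℓ' + ℓ') + (ℓ + ℓ)))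
      (thQ g ℓ ℓ' T T' t) := by
  have hn := hH.tr.nonneg
  have hn' := hT.nonneg
  exact (map_snd hg (by linarith)).comp
    ((map2 hg hf hT (t := t + (ℓ' + ℓ')) (by linarith)).comp (map1 hg hf hT hH ht))

include hg hf in
/-- the map `(y, v) ↦ (f (g y), v)` -/
theorem map_beta {t : ℝ} (ht : 0 < t) :
    IsMap (tr (Q × (ℝ →ᵇ M))) (tr (Q × (ℝ →ᵇ M)))
      (PY (fun y => g (f (g y))) (fun y => g (f (g y))) univ t) (XQ g t)
      (fun q => (f (g q.1), q.2)) := by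
  have hc : ContinuousOn (fun y => g (f (g y))) univ := by fun_prop
  exact MV337.map_of_cont (C337.isCompact_PY isCompact_univ hc hc ht.le) (by fun_prop)
    fun q hq => mem_XY_of_P trivial hq.2

include hg hf hT hH in
/-- **`F ∘ Θ ~ id`.** -/
theorem hp_FTh {t : ℝ} (ht : 0 < t) :
    Hp (XQ g t) ∅ (XQ g (t + (ℓ' + ℓ') + (ℓ + ℓ) + 2 * ℓ)) ∅ id
      ((retrXQ hg hf hT).f (t + (ℓ' + ℓ') + (ℓ + ℓ)) ∘ thQ g ℓ ℓ' T T' t) := by
  have hn := hH.tr.nonneg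
  have hn' := hT.nonneg
  have hc : ContinuousOn (fun y => g (f (g y))) univ := by fun_prop
  have t1 : 0 < t + (ℓ' + ℓ') := by linarith
  have t2 : 0 < t + (ℓ' + ℓ') + (ℓ + ℓ) := by linarith
  have hTg := track_g hg hT
  -- `id ~ (y, w) ↦ (f (g y), transported w)`
  have A := hp_trans (hp_delay hg hn ht) (hp_move hg hH ht)
  have A' : Hp (XQ g t) ∅ (XQ g (t + (ℓ' + ℓ') + (ℓ + ℓ) + 2 * ℓ)) ∅ id
      ((fun q : Q × (ℝ →ᵇ M) => (f (g q.1), q.2)) ∘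
        (tw ℓ' t (fun y => T' (y, 1)) fun y => T' (y, 1))) :=
    H550.hp_mono A le_rfl le_rfl (XY_mono (by linarith) le_rfl) le_rfl
  -- `id ~ tw ∘ tw` over the middle
  have B0 := C337.hp_gf (A := (∅ : Set Q)) isCompact_univ hc hc (empty_subset _)
    hTg.rv_ hTg.rv_ t1
  rw [C337.rv_rv] at B0
  have B : Hp (PY (fun y => g (f (g y))) (fun y => g (f (g y))) univ (t + (ℓ' + ℓ'))) ∅
      (PY (fun y => g (f (g y))) (fun y => g (f (g y))) univ
        (t + (ℓ' + ℓ') + (ℓ + ℓ) + 2 * ℓ)) ∅ id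
      (tw ℓ (t + (ℓ' + ℓ') + (ℓ + ℓ)) (fun y => T (g y)) (fun y => T (g y)) ∘
        tw ℓ (t + (ℓ' + ℓ')) (C337.rv ℓ fun y => T (g y)) (C337.rv ℓ fun y => T (g y))) :=
    B0.mono le_rfl (empty_subset _) (PY_mono le_rfl (by linarith)) fun q hq => hq.1.elim
  have C1 : Hp (XQ g t) ∅ (XQ g (t + (ℓ' + ℓ') + (ℓ + ℓ) + 2 * ℓ)) ∅
      ((fun q : Q × (ℝ →ᵇ M) => (f (g q.1), q.2)) ∘
        (id ∘ (tw ℓ' t (fun y => T' (y, 1)) fun y => T' (y, 1))))
      ((fun q : Q × (ℝ →ᵇ M) => (f (g q.1), q.2)) ∘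
        ((tw ℓ (t + (ℓ' + ℓ') + (ℓ + ℓ)) (fun y => T (g y)) (fun y => T (g y)) ∘
        tw ℓ (t + (ℓ' + ℓ')) (C337.rv ℓ fun y => T (g y)) (C337.rv ℓ fun y => T (g y))) ∘
        (tw ℓ' t (fun y => T' (y, 1)) fun y => T' (y, 1)))) :=
    hp_comp_left (Z' := ∅) (hp_comp_right B (map1 hg hf hT hH ht) (mapsTo_empty _ _))
    (map_beta (g := g) hg hf (t := t + (ℓ' + ℓ') + (ℓ + ℓ) + 2 * ℓ) (by linarith))
    (mapsTo_empty _ _)
  refine hp_congr (hp_trans A' C1) (fun _ _ => rfl) fun q hq => ?_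
  -- the composite is `F ∘ Θ`
  have hq1 : q ∈ PY g g univ t := by
    have := hq
    rwa [XQ, XY_eq] at this
  have m1 := tw_mem (A := univ) hH.track1 hH.track1 ht.le (mem_univ _) hq1
  have m2 := tw_mem (A := univ) hTg.rv_ hTg.rv_ t1.le (mem_univ _) m1
  have e0 : thQ g ℓ ℓ' T T' t q 0 = g q.1 := eq_left m2.2 le_rfl
  change (f (g q.1), mo (c2 ℓ (t + (ℓ' + ℓ') + (ℓ + ℓ)) (T (g q.1)) (T (g q.1))
      (thQ g ℓ ℓ' T T' t q))) = (f (thQ g ℓ ℓ' T T' t q 0),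
      mo (c2 ℓ (t + (ℓ' + ℓ') + (ℓ + ℓ)) (T (thQ g ℓ ℓ' T T' t q 0))
        (T (thQ g ℓ ℓ' T T' t q 0)) (thQ g ℓ ℓ' T T' t q)))
  rw [e0]

include hg hf hT hH in
/-- **`F^*` is injective up to a shift.** -/
theorem retrXQ_inj (k : Type) [Field k] (hℓ : 0 ≤ 2 * ℓ) (q : ℕ) :
    RInj ((retrXQ hg hf hT).retr k H754B.mono_FL (mono_XQ g) hℓ q)
      ((ℓ' + ℓ') + (ℓ + ℓ)) := by
  intro r s t hr hs h1 h2 h3 y hy
  have hn := hH.tr.nonneg
  have hn' := hT.nonneg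
  set S := retrXQ hg hf hT with hS
  have mTh := map_thQ hg hf hT hH hr
  have r1 : 0 < r + (ℓ' + ℓ') + (ℓ + ℓ) := by linarith
  have hsub : FL M (r + (ℓ' + ℓ') + (ℓ + ℓ)) ⊆ FL M s := FL_mono (by linarith)
  have mF : IsMap (tr (ℝ →ᵇ M)) (tr (Q × (ℝ →ᵇ M))) (FL M s) (XQ g t) (S.f s) :=
    S.map_f (mono_XQ g) hℓ hs h2
  have mTh' : IsMap (tr (Q × (ℝ →ᵇ M))) (tr (ℝ →ᵇ M)) (XQ g r) (FL M s)
      (thQ g ℓ ℓ' T T' r) := H901.IsMap.toSub mTh hsub
  have e0 : (pullR (on k) (mF.comp mTh') (empty_subset _) (mapsTo_empty _ _) q :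
        Hr (tr (Q × (ℝ →ᵇ M))) (on k) (XQ g t) ∅ q →ₗ[k]
          Hr (tr (Q × (ℝ →ᵇ M))) (on k) (XQ g r) ∅ q) y =
      (pullR (on k) mTh' (empty_subset _) (mapsTo_empty _ _) q :
        Hr (tr (ℝ →ᵇ M)) (on k) (FL M s) ∅ q →ₗ[k]
          Hr (tr (Q × (ℝ →ᵇ M))) (on k) (XQ g r) ∅ q)
        ((S.retr k H754B.mono_FL (mono_XQ g) hℓ q).g s t hs h2 y) := by
    obtain ⟨z, hz, rfl⟩ := H.exists_mk y
    rfl
  have e1 := e0.trans ((congrArg (pullR (on k) mTh' (empty_subset _) (mapsTo_empty _ _) q :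
        Hr (tr (ℝ →ᵇ M)) (on k) (FL M s) ∅ q →ₗ[k]
          Hr (tr (Q × (ℝ →ᵇ M))) (on k) (XQ g r) ∅ q) hy).trans (map_zero _))
  -- the homotopy
  have H1 : Hp (XQ g r) ∅ (XQ g t) ∅ id (S.f (r + (ℓ' + ℓ') + (ℓ + ℓ)) ∘ thQ g ℓ ℓ' T T' r) :=
    H550.hp_mono (hp_FTh hg hf hT hH hr) le_rfl le_rfl (XY_mono (by linarith) le_rfl) le_rfl
  have H2 : Hp (XQ g r) ∅ (XQ g t) ∅ (S.f (r + (ℓ' + ℓ') + (ℓ + ℓ)) ∘ thQ g ℓ ℓ' T T' r)
      (S.f s ∘ thQ g ℓ ℓ' T T' r) :=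
    ((S.f_nat (r + (ℓ' + ℓ') + (ℓ + ℓ)) s r1 (by linarith)).comp_right mTh
      (mapsTo_empty _ _)).mono le_rfl le_rfl (XY_mono h2 le_rfl) le_rfl
  have H3 := hp_trans H1 H2
  have mid : IsMap (tr (Q × (ℝ →ᵇ M))) (tr (Q × (ℝ →ᵇ M))) (XQ g r) (XQ g t) id :=
    IsMap.id_of_subset (XY_mono h3 le_rfl)
  have e2 := LinearMap.congr_fun (H3.pullR_eq (k := k) (empty_subset _) mid (mapsTo_empty _ _)
    (mF.comp mTh') (mapsTo_empty _ _) q) y
  rw [e1] at e2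
  exact e2

end Geo

/-! ### The generators of the free loops -/

section Main

variable {Q M : Type} [MetricSpace Q] [CompactSpace Q] [MetricSpace M] [CompactSpace M]
  {d h q N : ℕ}

/-- absolute and relative form of the free loops -/
noncomputable def isoFLr (k : Type) [Field k] (M : Type) [MetricSpace M] (q : ℕ) :
    PMIso (XP k M q) (pmX k (H754B.mono_FL (M := M)) q) where
  e t ht := absE k (FL M t) q
  nat s t hs ht h x := absE_nat k (FL_mono h) q x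

theorem isoFLr_op (k : Type) [Field k] (M : Type) [MetricSpace M] (q : ℕ) :
    IsoOp (isoFLr k M q) (opXP k M q) (opFL k M q) := by
  intro t ht x
  obtain ⟨y, hy, rfl⟩ := H.exists_mk x
  rfl

/-- **The generators of the free loops of a space homotopy equivalent to a space with a handle
decomposition**: one constant for all fields. -/
theorem flGenC_of_equiv [PathConnectedSpace M] [PathConnectedSpace Q] (C : CellDec Q d h)
    (f : C(M, Q)) (g : C(Q, M)) (hgf : (g.comp f).Homotopic (ContinuousMap.id M))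
    (hfg : (f.comp g).Homotopic (ContinuousMap.id Q)) {ρ : ℝ} (hρ : 0 < ρ)
    (hU : LS.UniqSeg M ρ) (x₀ : M) (h4 : 4 ∣ d) (hd : 0 < d) (hh : 0 < h)
    (hD : N + 2 = d * (h + 1)) (he : q + 1 = d) {B : ℝ} (hB : 0 < B)
    (hO : ∀ (k : Type) [Field k], (2 : k) ≠ 0 → ∃ O : OmegaOutC M q N x₀ B k, OmegaSignC O) :
    ∃ B' : ℝ, 0 < B' ∧ ∀ (k : Type) [Field k], (2 : k) ≠ 0 →
      Nonempty (FLGenC M 1 (fun i => i * N + q) 1 B' k) := by
  -- the tracks of `id ~ g ∘ f`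
  obtain ⟨F⟩ := hgf.symm
  have hF : Continuous fun p : M × ℝ => F (projIcc 0 1 zero_le_one p.2, p.1) :=
    F.continuous.comp ((continuous_projIcc.comp continuous_snd).prodMk continuous_fst)
  obtain ⟨ℓ, T, hT⟩ := exists_tk hρ hU (isCompact_univ (X := M)) (H := fun p : M × ℝ =>
    F (projIcc 0 1 zero_le_one p.2, p.1)) hF.continuousOn
  have e0 : (fun x => F (projIcc 0 1 zero_le_one ((x, (0:ℝ)) : M × ℝ).2, x)) = id := by
    funext x
    show F (projIcc 0 1 zero_le_one 0, x) = x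
    rw [projIcc_left]
    exact F.apply_zero x
  have e1 : (fun x => F (projIcc 0 1 zero_le_one ((x, (1:ℝ)) : M × ℝ).2, x)) =
      fun x => g (f x) := by
    funext x
    show F (projIcc 0 1 zero_le_one 1, x) = g (f x)
    rw [projIcc_right]
    exact F.apply_one x
  have hT' : Tk (univ : Set M) id (fun x => g (f x)) ℓ T := by
    rw [← e0, ← e1]
    exact hT
  -- the homotopy `id ~ f ∘ g`
  obtain ⟨G⟩ := hfg.symm
  have hG : Continuous fun p : Q × ℝ => G (projIcc 0 1 zero_le_one p.2, p.1) :=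
    G.continuous.comp ((continuous_projIcc.comp continuous_snd).prodMk continuous_fst)
  obtain ⟨ℓ', T', hH⟩ := exists_htk hρ hU g.continuous (u := fun y => f (g y)) hG
    (fun y => by
      show G (projIcc 0 1 zero_le_one 0, y) = y
      rw [projIcc_left]
      exact G.apply_zero y)
    (fun y => by
      show G (projIcc 0 1 zero_le_one 1, y) = f (g y)
      rw [projIcc_right]
      exact G.apply_one y)
  obtain ⟨B₁, hB₁, hΓ⟩ := exists_genXQ C g.continuous hρ hU x₀ h4 hd hh hD he hB hO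
  have hn := hT'.nonneg
  have hn' := hH.tr.nonneg
  have hℓ : 0 ≤ 2 * ℓ := by linarith
  have hc' : 0 ≤ (ℓ' + ℓ') + (ℓ + ℓ) := by linarith
  have hB' : 0 < B₁ + 2 * (2 * ℓ) + ((ℓ' + ℓ') + (ℓ + ℓ)) := by linarith
  refine ⟨_, hB', fun k _ h2 => ?_⟩
  obtain ⟨Γ⟩ := hΓ k h2
  obtain ⟨d1, d2, d3⟩ := deg_facts h4 hd hh hD he
  have Γ' := Γ.retr hB₁ hℓ hc' (fun q => (retrXQ g.continuous f.continuous hT').retr k
    H754B.mono_FL (mono_XQ g) hℓ q) (fun q => retrXQ_comm g.continuous f.continuous hT' k hℓ q)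
    (fun q => retrXQ_inj g.continuous f.continuous hT' hH k hℓ q)
  exact ⟨flGenC (Γ'.iso (fun q => isoFLr k M q) fun q => isoFLr_op k M q) d1 d2 d3 hB'.le⟩

end Main

end Vale.Agent.P216.H550
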