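import Vale.Agent.P216.H550.GenD
import Vale.Agent.P216.H550.HEq5

/-!
# P216-D, block GEN: the walls of the free loops and the generators

`exists_stepFL`: from the based loops (`OmegaOutC`) and a domination of `M` by a finite complex:
`H^n(FL M t)` is a step module for every `n`, the walls have bounded steps, one constant for all
fields and degrees.  `genC_of_stab`: the generators from the stable classes.
-/

set_option linter.all false

open Set

namespace Vale.Agent.P216.H550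

open Vale.Agent.P216.AS Vale.Agent.P216.H901 Vale.Agent.P216.PS Vale.Agent.P216.MV337
open Vale.Agent.P216.H754B Vale.Agent.P216.H894 Vale.Agent.P216.H83 Vale.Agent.P216.B64
open Vale.Agent.P216.H285 Vale.Agent.P216.H774 Vale.Agent.P216.H133C

/-- **The generators from the stable classes**, with an operator. -/
theorem genC_of_stab {k : Type} [Field k] {Y : ℕ → PM k} {O : ∀ q, PMOp (Y q)} {σ : ℕ → k}
    {e : ℕ → ℕ} (S : Stab Y e)
    (hσ : ∀ n (o : (Y n).Fam) t (ht : 0 < t), (O n).r t ht (o.z t ht) = σ n • o.z t ht)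
    {T : ℕ → ℝ} {a C B : ℝ} {R : ℕ} (W : Wall T a) (hC : 0 < C) (h : ∀ n, (Y n).Step (T n) C)
    (he : ∀ i, e i ≤ e (i + 1)) (hR : ∀ i, e (i + 1) ≤ e i + R)
    (hB : 3 * C + a * R + a * e 0 + T 0 ≤ B) : Nonempty (GenC Y O σ e B) := by
  obtain ⟨g, _, h1, h2, h3, h4⟩ := exists_gen S W hC h he hR hB
  exact ⟨⟨g, h1, fun n t ht => hσ n (g n) t ht, h2, h3, h4⟩⟩

/-- **The walls of the free loops**: one constant for all fields and all degrees. -/
theorem exists_stepFL {M : Type} [MetricSpace M] [CompactSpace M] [PathConnectedSpace M]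
    {ρ : ℝ} (hρ : 0 < ρ) (hU : LS.UniqSeg M ρ) {V : Type} [NormedAddCommGroup V]
    [NormedSpace ℝ V] (T : Geometry.SimplicialComplex ℝ V) (hT : T.faces.Finite)
    (i : C(M, T.space)) (r : C(T.space, M)) (hri : (ContinuousMap.id M).Homotopic (r.comp i))
    (x₀ : M) {B : ℝ} (hB : 0 < B) : ∃ C : ℝ, 0 < C ∧ ∀ (k : Type) [Field k], (2 : k) ≠ 0 →
    ∀ (q N : ℕ), q < N → OmegaOutC M q N x₀ B k → ∃ W : ℕ → ℝ, Wall W (2 * B) ∧ W 0 = 0 ∧
      ∀ n, (XP k M n).Step (W n) C := by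
  obtain ⟨C, hC, h⟩ := lin_loops hρ hU T hT i r hri x₀ (a := 2 * B) (by linarith)
    (C := 3 * B) (by linarith)
  refine ⟨C, by linarith, fun k _ h2 q N hqN O => ?_⟩
  have S := slotsOf O hB.le
  refine ⟨S.T, S.wall (by omega) hB.le, ?_, fun n => ?_⟩
  · rw [S.T_zero]
    refine le_antisymm ?_ (PM.Fam.birth_nonneg _)
    refine le_of_forall_pos_le_add fun ε hε => ?_
    rw [zero_add]
    exact csInf_le (PM.Fam.alive_bdd _) ⟨hε, S.W0 ε hε⟩
  · have h1 : LinW k (fun t => P x₀ x₀ t) (monoP_P x₀ x₀) S.T (3 * B) := fun n =>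
      S.step hqN hB n
    exact pmIso_step (isoFLr k M n) (h k h2 S.T (S.wall (by omega) hB.le) h1 n)

/-- **The generators of the free loops**: one constant `B'` for all fields and all degrees; the
input are the based loops and the stable classes. -/
theorem exists_genFL {M : Type} [MetricSpace M] [CompactSpace M] [PathConnectedSpace M]
    {ρ : ℝ} (hρ : 0 < ρ) (hU : LS.UniqSeg M ρ) {V : Type} [NormedAddCommGroup V]
    [NormedSpace ℝ V] (T : Geometry.SimplicialComplex ℝ V) (hT : T.faces.Finite)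
    (i : C(M, T.space)) (r : C(T.space, M)) (hri : (ContinuousMap.id M).Homotopic (r.comp i))
    (x₀ : M) {B : ℝ} (hB : 0 < B) (q N : ℕ) (hqN : q < N) :
    ∃ B' : ℝ, 0 < B' ∧ ∀ (k : Type) [Field k], (2 : k) ≠ 0 → OmegaOutC M q N x₀ B k →
      Stab (fun n => XP k M n) (fun i => i * N + q) →
      ∃ g : ∀ n, (XP k M n).Fam,
        (∀ n (o : (XP k M n).Fam), ∃ c : k, ∀ t (ht : 0 < t), o.z t ht = c • (g n).z t ht) ∧
        (∀ n, (XP k M n).Line (g n) B') ∧
        (∀ i t (ht : 0 < t), (g (i * N + q - 1)).z t ht = 0) ∧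
        (∀ t (ht : 0 < t), B' ≤ t → (g (0 * N + q)).z t ht ≠ 0) ∧
        ∀ i t (ht : 0 < t) (ht' : 0 < t + B'), (g (i * N + q)).z t ht ≠ 0 →
          (g ((i + 1) * N + q)).z (t + B') ht' ≠ 0 := by
  obtain ⟨C, hC, h⟩ := exists_stepFL hρ hU T hT i r hri x₀ hB
  have h1 : 0 ≤ 2 * B * (N : ℝ) := by positivity
  have h2 : 0 ≤ 2 * B * (q : ℝ) := by positivity
  refine ⟨3 * C + 2 * B * N + 2 * B * q, by linarith, fun k _ hk O S => ?_⟩
  obtain ⟨W, hW, hW0, hst⟩ := h k hk q N hqN O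
  refine exists_gen S hW hC hst (fun i => ?_) (R := N) (fun i => ?_) ?_
  · rw [Nat.succ_mul]
    omega
  · rw [Nat.succ_mul]
    omega
  · rw [hW0, Nat.zero_mul, Nat.zero_add]
    linarith

/-- **`FLGenC` from the stable classes** (`4 ∣ d`, signs of the reversal). -/
theorem exists_flGenC {M : Type} [MetricSpace M] [CompactSpace M] [PathConnectedSpace M]
    {ρ : ℝ} (hρ : 0 < ρ) (hU : LS.UniqSeg M ρ) {V : Type} [NormedAddCommGroup V]
    [NormedSpace ℝ V] (T : Geometry.SimplicialComplex ℝ V) (hT : T.faces.Finite)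
    (i : C(M, T.space)) (r : C(T.space, M)) (hri : (ContinuousMap.id M).Homotopic (r.comp i))
    (x₀ : M) {B : ℝ} (hB : 0 < B) {d h q N : ℕ} (h4 : 4 ∣ d) (hd : 0 < d) (hh : 0 < h)
    (hD : N + 2 = d * (h + 1)) (he : q + 1 = d) :
    ∃ B' : ℝ, 0 < B' ∧ ∀ (k : Type) [Field k], (2 : k) ≠ 0 → OmegaOutC M q N x₀ B k →
      Stab (fun n => XP k M n) (fun i => i * N + q) →
      (∀ n (o : (XP k M n).Fam) t (ht : 0 < t),
        (opXP k M n).r t ht (o.z t ht) = sgn k n • o.z t ht) →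
      Nonempty (FLGenC M 1 (fun i => i * N + q) 1 B' k) := by
  obtain ⟨d1, d2, d3⟩ := deg_facts h4 hd hh hD he
  have hqN : q < N := by
    have h4' : 4 ≤ d := Nat.le_of_dvd hd h4
    have : d * 2 ≤ d * (h + 1) := Nat.mul_le_mul_left d (by omega)
    omega
  obtain ⟨B', hB', H⟩ := exists_genFL hρ hU T hT i r hri x₀ hB q N hqN
  refine ⟨B', hB', fun k _ hk O S hσ => ?_⟩
  obtain ⟨g, _, h1, h2, h3, h4⟩ := H k hk O S
  exact ⟨flGenC ⟨g, h1, fun n t ht => hσ n (g n) t ht, h2, h3, h4⟩ d1 d2 d3 hB'.le⟩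

end Vale.Agent.P216.H550
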