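import Vale.Agent.P216.H550.LinLoops

/-!
# P216-C: the walls of a system of classes with bounded steps

`PM.Line.step`: a module with bounded bars spanned by one compatible family is a step module, its
wall is the birth of the family.  `OmSlots`: the classes `W i` (degree `i * D`) and `A i` (degree
`i * D + e`) of the based loops; `OmSlots.wall`, `OmSlots.step`: the walls
`T q = birth (W (q / D))`.
-/

set_option linter.all false

namespace Vale.Agent.P216.H901

variable {k : Type} [Field k]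

namespace PM

variable {A : PM k}

/-- The levels at which the family is not zero. -/
def Fam.alive (o : A.Fam) : Set ℝ := {t | ∃ h : 0 < t, o.z t h ≠ 0}

/-- The birth of a family. -/
noncomputable def Fam.birth (o : A.Fam) : ℝ := sInf o.alive

theorem Fam.alive_up (o : A.Fam) {s t : ℝ} (hs : s ∈ o.alive) (h : s ≤ t) : t ∈ o.alive := by
  obtain ⟨p, hp⟩ := hs
  refine ⟨p.trans_le h, fun h0 => hp ?_⟩
  rw [← o.comp s t p h, h0, map_zero]

theorem Fam.alive_bdd (o : A.Fam) : BddBelow o.alive := ⟨0, fun _ h => h.1.le⟩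

theorem Fam.birth_nonneg (o : A.Fam) : 0 ≤ o.birth := Real.sInf_nonneg fun _ h => h.1.le

theorem Fam.zero_of_lt_birth (o : A.Fam) {s : ℝ} (hs : 0 < s) (h : s < o.birth) :
    o.z s hs = 0 := by
  by_contra h0
  exact absurd (csInf_le o.alive_bdd ⟨hs, h0⟩) (not_le.2 h)

theorem Fam.ne_zero_of_birth_lt (o : A.Fam) (ho : o.alive.Nonempty) {s : ℝ} (hs : 0 < s)
    (h : o.birth < s) : o.z s hs ≠ 0 := by
  obtain ⟨t, ht, hts⟩ := exists_lt_of_csInf_lt ho h
  obtain ⟨_, h1⟩ := o.alive_up ht hts.le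
  exact h1

/-- births from implications between non-vanishing -/
theorem Fam.birth_le {A' : PM k} (o : A.Fam) (o' : A'.Fam) {B : ℝ} (ho : o.alive.Nonempty)
    (h : ∀ t (ht : 0 < t) (ht' : 0 < t + B), o.z t ht ≠ 0 → o'.z (t + B) ht' ≠ 0) (hB : 0 ≤ B) :
    o'.birth ≤ o.birth + B := by
  refine le_of_forall_pos_le_add fun ε hε => ?_
  obtain ⟨t, ht, hts⟩ := exists_lt_of_csInf_lt ho (show o.birth < o.birth + ε by linarith)
  obtain ⟨p, hp⟩ := ht
  have := csInf_le o'.alive_bdd (show t + B ∈ o'.alive from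
    ⟨by linarith, h t p (by linarith) hp⟩)
  show sInf o'.alive ≤ _
  linarith

/-- **A line is a step module.** -/
theorem Line.step {o : A.Fam} {B : ℝ} (h : A.Line o B) (ho : o.alive.Nonempty) {C : ℝ}
    (hBC : B ≤ C) (hC : 0 < C) : A.Step o.birth C where
  low s t hs hst h1 h2 x := by
    obtain ⟨c, hc⟩ := h s t hs hst (by linarith) x
    rw [hc, o.zero_of_lt_birth hs (by linarith), smul_zero]
  img s t t' hs hst hst' h1 h2 x := by
    obtain ⟨c, hc⟩ := h s t hs hst (by linarith) x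
    exact ⟨c • o.z t' (hs.trans_le hst'), by rw [map_smul, o.comp s t' hs hst', hc]⟩
  ker s r t hs hr hst hrt h1 h2 h3 x hx := by
    obtain ⟨c, hc⟩ := h r t hr hrt (by linarith) x
    have e : c • o.z s hs = 0 := by
      rw [← o.comp s r hs h2, ← map_smul, ← hc, A.ρ_comp _ _ _ _ _ _ _ hst, hx]
    have hc0 : c = 0 := (smul_eq_zero.1 e).resolve_right
      (o.ne_zero_of_birth_lt ho hs (by linarith))
    rw [hc, hc0, zero_smul]

end PM

/-- **The classes of the based loops**: `W i` in degree `i * D`, `A i` in degree `i * D + e`. -/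
structure OmSlots (G : ℕ → PM k) (D e : ℕ) (B : ℝ) where
  W : ∀ i, (G (i * D)).Fam
  A : ∀ i, (G (i * D + e)).Fam
  lineW : ∀ i, (G (i * D)).Line (W i) B
  lineA : ∀ i, (G (i * D + e)).Line (A i) B
  zero : ∀ q, (∀ i, q ≠ i * D) → (∀ i, q ≠ i * D + e) → (G q).Eph B
  W0 : ∀ t (ht : 0 < t), (W 0).z t ht ≠ 0
  /-- births: `W i ≤ A i + B` -/
  b1 : ∀ i t (ht : 0 < t) (ht' : 0 < t + B), (A i).z t ht ≠ 0 → (W i).z (t + B) ht' ≠ 0
  /-- births: `A i ≤ W (i + 1) + B` -/
  b2 : ∀ i t (ht : 0 < t) (ht' : 0 < t + B), (W (i + 1)).z t ht ≠ 0 → (A i).z (t + B) ht' ≠ 0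
  /-- births: `W (i + 1) ≤ W i + B` -/
  b3 : ∀ i t (ht : 0 < t) (ht' : 0 < t + B), (W i).z t ht ≠ 0 → (W (i + 1)).z (t + B) ht' ≠ 0

namespace OmSlots

variable {G : ℕ → PM k} {D e : ℕ} {B : ℝ} (S : OmSlots G D e B)

theorem alive_W (hB : 0 ≤ B) (i : ℕ) : (S.W i).alive.Nonempty := by
  induction i with
  | zero => exact ⟨1, one_pos, S.W0 1 one_pos⟩
  | succ i ih =>
    obtain ⟨t, ht, h⟩ := ih
    exact ⟨t + B, by linarith, S.b3 i t ht (by linarith) h⟩

theorem alive_A (hB : 0 ≤ B) (i : ℕ) : (S.A i).alive.Nonempty := by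
  obtain ⟨t, ht, h⟩ := S.alive_W hB (i + 1)
  exact ⟨t + B, by linarith, S.b2 i t ht (by linarith) h⟩

/-- the walls -/
noncomputable def T (q : ℕ) : ℝ := (S.W (q / D)).birth

theorem birth_W (hB : 0 ≤ B) (i : ℕ) : |(S.W (i + 1)).birth - (S.W i).birth| ≤ 2 * B := by
  have h1 := (S.A i).birth_le (S.W i) (S.alive_A hB i) (S.b1 i) hB
  have h2 := (S.W (i + 1)).birth_le (S.A i) (S.alive_W hB (i + 1)) (S.b2 i) hB
  have h3 := (S.W i).birth_le (S.W (i + 1)) (S.alive_W hB i) (S.b3 i) hB
  rw [abs_le]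
  constructor <;> linarith

theorem birth_A (hB : 0 ≤ B) (i : ℕ) : |(S.W i).birth - (S.A i).birth| ≤ 2 * B := by
  have h1 := (S.A i).birth_le (S.W i) (S.alive_A hB i) (S.b1 i) hB
  have h2 := (S.W (i + 1)).birth_le (S.A i) (S.alive_W hB (i + 1)) (S.b2 i) hB
  have h3 := (S.W i).birth_le (S.W (i + 1)) (S.alive_W hB i) (S.b3 i) hB
  rw [abs_le]
  constructor <;> linarith

theorem T_zero : S.T 0 = (S.W 0).birth := by
  unfold T
  rw [Nat.zero_div]

theorem T_mul (hD : 0 < D) (i : ℕ) : S.T (i * D) = (S.W i).birth := by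
  unfold T
  rw [Nat.mul_div_cancel _ hD]

theorem T_add (hD : e < D) (i : ℕ) : S.T (i * D + e) = (S.W i).birth := by
  unfold T
  have h0 : 0 < D := by omega
  have : (i * D + e) / D = i := by
    rw [Nat.add_comm, Nat.add_mul_div_right _ _ h0, Nat.div_eq_of_lt hD, zero_add]
  rw [this]

/-- **The walls have bounded steps.** -/
theorem wall (hD : 0 < D) (hB : 0 ≤ B) : H550.Wall S.T (2 * B) where
  a0 := by linarith
  nonneg q := (S.W _).birth_nonneg
  step q := by
    unfold T
    rcases Nat.eq_or_lt_of_le (Nat.div_le_div_right (c := D) (Nat.le_succ q)) with h | h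
    · have h' : (q + 1) / D = q / D := h.symm
      rw [h', sub_self, abs_zero]
      linarith
    · have h1 : (q + 1) / D = q / D + 1 := by
        have := Nat.succ_div (a := q) (b := D)
        split_ifs at this with h2
        · exact this
        · have h3 : (q + 1) / D = q / D := by
            simpa using this
          have h4 : q / D < (q + 1) / D := h
          omega
      rw [h1]
      exact S.birth_W hB _

/-- **All modules are step modules.** -/
theorem step (hD : e < D) (hB : 0 < B) (q : ℕ) : (G q).Step (S.T q) (3 * B) := by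
  by_cases h : ∃ i, q = i * D
  · obtain ⟨i, rfl⟩ := h
    rw [S.T_mul (by omega)]
    exact ((S.lineW i).step (S.alive_W hB.le i) le_rfl hB).mono' (by linarith)
  · by_cases h' : ∃ i, q = i * D + e
    · obtain ⟨i, rfl⟩ := h'
      rw [S.T_add hD]
      exact ((S.lineA i).step (S.alive_A hB.le i) le_rfl hB).mono
        (by linarith [S.birth_A hB.le i])
    · exact (PM.Eph.step (S.zero q (fun i hi => h ⟨i, hi⟩) fun i hi => h' ⟨i, hi⟩) _).mono'
        (by linarith)

end OmSlots

end Vale.Agent.P216.H901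

namespace Vale.Agent.P216.H550

open Set BoundedContinuousFunction
open Vale.Agent.P216.PS Vale.Agent.P216.MV337
open Vale.Agent.P216.AS
open Vale.Agent.P216.H901 (PM PMIso OmSlots)
open Vale.Agent.P216.H83

/-- `H^*(A t, ∅) ≅ H^*(A t)`. -/
noncomputable def isoAbs {E : Type} [PseudoMetricSpace E] (k : Type) [Field k] {A : ℝ → Set E}
    (hA : MonoP A) (q : ℕ) : PMIso (pmX k hA q) (haPM k A hA q) where
  e t ht := (absE k (A t) q).symm
  nat s t hs ht h x := absE_symm_nat k (hA s t hs h) q x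

/-- The based loops have walls with bounded steps. -/
theorem linW_of_slots {E : Type} [MetricSpace E] {k : Type} [Field k] {A : ℝ → Set E}
    {hA : MonoP A} {D e : ℕ} {B : ℝ} (S : OmSlots (haPM k A hA) D e B) (hD : e < D)
    (hB : 0 < B) : LinW k A hA S.T (3 * B) := fun q =>
  pmIso_step (isoAbs k hA q) (S.step hD hB q)

end Vale.Agent.P216.H550
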