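import Vale.Agent.P216.H901.Sp

/-!
# P216-B: calculus of the homotopies of pairs `H901.Hp`
-/

set_option linter.all false

namespace Vale.Agent.P216.H550

open Set
open Vale.Agent.P216.AS Vale.Agent.P216.H901

variable {E E' E'' : Type} [PseudoMetricSpace E] [PseudoMetricSpace E'] [PseudoMetricSpace E'']
  {A A' C C' : Set E} {B B' D D' : Set E'} {Z Z' : Set E''} {f g h : E → E'}

/-- maps which are equal on `A` -/
theorem isMap_congr {I : Type} {a : I → E → E} {a' : I → E' → E'}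
    (hf : IsMap a a' A B f) (ha : ∀ i, MapsTo (a i) A A) (he : EqOn g f A) :
    IsMap a a' A B g where
  mapsX x hx := by rw [he hx]; exact hf.mapsX hx
  eqv i x hx := by rw [he hx, he (ha i hx), hf.eqv i x hx]
  uc ε hε := by
    obtain ⟨δ, hδ, h⟩ := hf.uc ε hε
    exact ⟨δ, hδ, fun x hx y hy hxy => by rw [he hx, he hy]; exact h x hx y hy hxy⟩

theorem isMap_congr' (hf : IsMap (tr E) (tr E') A B f) (he : EqOn g f A) :
    IsMap (tr E) (tr E') A B g := isMap_congr hf (fun e => e.elim) he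

theorem hp_of_htpy {D : ℝ → E → E'} (hD : IsHtpy (tr E) (tr E') A B D)
    (hD' : ∀ s ∈ Icc (0 : ℝ) 1, MapsTo (D s) A' B') (h0 : EqOn (D 0) f A) (h1 : EqOn (D 1) g A) :
    Hp A A' B B' f g := ⟨D, hD, hD', h0, h1⟩

/-- a continuous homotopy on a compact set -/
theorem hp_of_cont {D : ℝ → E → E'} (hA : IsCompact A)
    (hc : ContinuousOn (fun q : ℝ × E => D q.1 q.2) (Icc (0 : ℝ) 1 ×ˢ A))
    (hm : ∀ s ∈ Icc (0 : ℝ) 1, MapsTo (D s) A B)
    (hD' : ∀ s ∈ Icc (0 : ℝ) 1, MapsTo (D s) A' B') (h0 : EqOn (D 0) f A) (h1 : EqOn (D 1) g A) :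
    Hp A A' B B' f g :=
  ⟨D, IsHtpy.of_continuousOn hA hc hm fun _ _ e => e.elim, hD', h0, h1⟩

theorem hp_isMap_left (h : Hp A A' B B' f g) : IsMap (tr E) (tr E') A B f := by
  obtain ⟨D, hD, -, h0, -⟩ := h
  exact isMap_congr' hD.zero h0.symm

theorem hp_isMap_right (h : Hp A A' B B' f g) : IsMap (tr E) (tr E') A B g := by
  obtain ⟨D, hD, -, -, h1⟩ := h
  exact isMap_congr' hD.one h1.symm

theorem hp_mapsTo_left (h : Hp A A' B B' f g) (hA : A' ⊆ A) : MapsTo f A' B' := by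
  obtain ⟨D, -, hD', h0, -⟩ := h
  intro x hx
  rw [← h0 (hA hx)]
  exact hD' 0 ⟨le_rfl, zero_le_one⟩ hx

theorem hp_mapsTo_right (h : Hp A A' B B' f g) (hA : A' ⊆ A) : MapsTo g A' B' := by
  obtain ⟨D, -, hD', -, h1⟩ := h
  intro x hx
  rw [← h1 (hA hx)]
  exact hD' 1 ⟨zero_le_one, le_rfl⟩ hx

theorem hp_congr (h : Hp A A' B B' f g) {f₁ g₁ : E → E'} (hf : EqOn f f₁ A) (hg : EqOn g g₁ A) :
    Hp A A' B B' f₁ g₁ := by
  obtain ⟨D, hD, hD', h0, h1⟩ := h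
  exact ⟨D, hD, hD', h0.trans hf, h1.trans hg⟩

/-- equal maps are homotopic -/
theorem hp_of_eqOn (hf : IsMap (tr E) (tr E') A B f) (hf' : MapsTo f A' B') (he : EqOn f g A) :
    Hp A A' B B' f g :=
  ⟨fun _ => f, ⟨fun _ _ => hf.mapsX, fun _ _ e => e.elim, fun ε hε => by
    obtain ⟨δ, hδ, h⟩ := hf.uc ε hε
    exact ⟨δ, hδ, fun _ _ _ _ x hx y hy _ hxy => h x hx y hy hxy⟩⟩, fun _ _ => hf',
    fun _ _ => rfl, he⟩

theorem hp_refl (hf : IsMap (tr E) (tr E') A B f) (hf' : MapsTo f A' B') :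
    Hp A A' B B' f f := hp_of_eqOn hf hf' fun _ _ => rfl

theorem hp_mono (h : Hp A A' B B' f g) (hA : C ⊆ A) (hA' : C' ⊆ A') (hB : B ⊆ D)
    (hB' : B' ⊆ D') : Hp C C' D D' f g := by
  obtain ⟨G, hG, hG', h0, h1⟩ := h
  exact ⟨G, hG.mono hA fun s hs x hx => hB (hG.mapsX s hs (hA hx)),
    fun s hs x hx => hB' (hG' s hs (hA' hx)), h0.mono hA, h1.mono hA⟩

theorem hp_symm (h : Hp A A' B B' f g) : Hp A A' B B' g f := by
  obtain ⟨D, hD, hD', h0, h1⟩ := h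
  have key : ∀ s ∈ Icc (0 : ℝ) 1, 1 - s ∈ Icc (0 : ℝ) 1 := fun s hs =>
    ⟨by linarith [hs.2], by linarith [hs.1]⟩
  refine ⟨fun s => D (1 - s), ⟨fun s hs => hD.mapsX _ (key s hs), fun _ _ e => e.elim,
    fun ε hε => ?_⟩, fun s hs => hD' _ (key s hs), ?_, ?_⟩
  · obtain ⟨δ, hδ, h⟩ := hD.uc ε hε
    refine ⟨δ, hδ, fun s hs t ht x hx y hy hst hxy =>
      h _ (key s hs) _ (key t ht) x hx y hy ?_ hxy⟩
    have e : 1 - s - (1 - t) = -(s - t) := by ring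
    rwa [e, abs_neg]
  · intro x hx
    show D (1 - 0) x = g x
    rw [sub_zero, h1 hx]
  · intro x hx
    show D (1 - 1) x = f x
    rw [sub_self, h0 hx]

/-- **Transitivity.** -/
theorem hp_trans (h : Hp A A' B B' f g) {k : E → E'} (h' : Hp A A' B B' g k) :
    Hp A A' B B' f k := by
  obtain ⟨D, hD, hD', h0, h1⟩ := h
  obtain ⟨G, hG, hG', g0, g1⟩ := h'
  have k1 : ∀ s ∈ Icc (0 : ℝ) 1, s ≤ 1 / 2 → 2 * s ∈ Icc (0 : ℝ) 1 := fun s hs h =>
    ⟨by linarith [hs.1], by linarith⟩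
  have k2 : ∀ s ∈ Icc (0 : ℝ) 1, ¬ s ≤ 1 / 2 → 2 * s - 1 ∈ Icc (0 : ℝ) 1 := fun s hs h =>
    ⟨by linarith [not_le.1 h], by linarith [hs.2]⟩
  have m0 : (0 : ℝ) ∈ Icc (0 : ℝ) 1 := ⟨le_rfl, zero_le_one⟩
  have m1 : (1 : ℝ) ∈ Icc (0 : ℝ) 1 := ⟨zero_le_one, le_rfl⟩
  refine ⟨fun s x => if s ≤ 1 / 2 then D (2 * s) x else G (2 * s - 1) x,
    ⟨fun s hs x hx => ?_, fun _ _ e => e.elim, fun ε hε => ?_⟩, fun s hs x hx => ?_,
    fun x hx => ?_, fun x hx => ?_⟩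
  · show (if s ≤ 1 / 2 then D (2 * s) x else G (2 * s - 1) x) ∈ B
    split_ifs with h
    · exact hD.mapsX _ (k1 s hs h) hx
    · exact hG.mapsX _ (k2 s hs h) hx
  · obtain ⟨δ₁, hδ₁, e1⟩ := hD.uc (ε / 2) (by positivity)
    obtain ⟨δ₂, hδ₂, e2⟩ := hG.uc (ε / 2) (by positivity)
    have key : ∀ s ∈ Icc (0 : ℝ) 1, ∀ t ∈ Icc (0 : ℝ) 1, ∀ x ∈ A, ∀ y ∈ A,
        |s - t| < min δ₁ δ₂ / 2 → dist x y < min δ₁ δ₂ → s ≤ 1 / 2 → ¬ t ≤ 1 / 2 →
        dist (D (2 * s) x) (G (2 * t - 1) y) < ε := by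
      intro s hs t ht x hx y hy hst hxy h3 h4
      have a1 := abs_lt.1 hst
      have h5 := not_le.1 h4
      have b1 := min_le_left δ₁ δ₂
      have b2 := min_le_right δ₁ δ₂
      have q1 : dist (D (2 * s) x) (g x) < ε / 2 := by
        rw [← h1 hx]
        refine e1 _ (k1 s hs h3) _ m1 x hx x hx ?_ (by simpa using hδ₁)
        rw [abs_lt]; constructor <;> linarith [a1.1, a1.2]
      have q2 : dist (g x) (G (2 * t - 1) y) < ε / 2 := by
        rw [← g0 hx]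
        refine e2 _ m0 _ (k2 t ht h4) x hx y hy ?_ (hxy.trans_le b2)
        rw [abs_lt]; constructor <;> linarith [a1.1, a1.2]
      linarith [dist_triangle (D (2 * s) x) (g x) (G (2 * t - 1) y)]
    refine ⟨min δ₁ δ₂ / 2, by positivity, fun s hs t ht x hx y hy hst hxy => ?_⟩
    have hm : 0 < min δ₁ δ₂ := lt_min hδ₁ hδ₂
    have hxy' : dist x y < min δ₁ δ₂ := hxy.trans (by linarith)
    have a1 := abs_lt.1 hst
    have b1 := min_le_left δ₁ δ₂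
    have b2 := min_le_right δ₁ δ₂
    by_cases hs' : s ≤ 1 / 2
    · by_cases ht' : t ≤ 1 / 2
      · simp only [if_pos hs', if_pos ht']
        refine (e1 _ (k1 s hs hs') _ (k1 t ht ht') x hx y hy ?_ (hxy'.trans_le b1)).trans
          (by linarith)
        rw [abs_lt]; constructor <;> linarith [a1.1, a1.2]
      · simp only [if_pos hs', if_neg ht']
        exact key s hs t ht x hx y hy hst hxy' hs' ht'
    · by_cases ht' : t ≤ 1 / 2
      · simp only [if_neg hs', if_pos ht']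
        rw [dist_comm]
        exact key t ht s hs y hy x hx (by rwa [abs_sub_comm]) (by rwa [dist_comm]) ht' hs'
      · simp only [if_neg hs', if_neg ht']
        refine (e2 _ (k2 s hs hs') _ (k2 t ht ht') x hx y hy ?_ (hxy'.trans_le b2)).trans
          (by linarith)
        rw [abs_lt]; constructor <;> linarith [a1.1, a1.2]
  · show (if s ≤ 1 / 2 then D (2 * s) x else G (2 * s - 1) x) ∈ B'
    split_ifs with h
    · exact hD' _ (k1 s hs h) hx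
    · exact hG' _ (k2 s hs h) hx
  · show (if (0 : ℝ) ≤ 1 / 2 then D (2 * 0) x else G (2 * 0 - 1) x) = f x
    rw [if_pos (by norm_num), mul_zero, h0 hx]
  · show (if (1 : ℝ) ≤ 1 / 2 then D (2 * 1) x else G (2 * 1 - 1) x) = k x
    rw [if_neg (by norm_num), show (2 * 1 - 1 : ℝ) = 1 by norm_num, g1 hx]

/-- composition with a map of pairs `(B, B') → (Z, Z')` -/
theorem hp_comp_left (h : Hp A A' B B' f g) {j : E' → E''}
    (hj : IsMap (tr E') (tr E'') B Z j) (hj' : MapsTo j B' Z') :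
    Hp A A' Z Z' (j ∘ f) (j ∘ g) := by
  obtain ⟨D, hD, hD', h0, h1⟩ := h
  refine ⟨fun s => j ∘ D s, ⟨fun s hs => hj.mapsX.comp (hD.mapsX s hs), fun _ _ e => e.elim,
    fun ε hε => ?_⟩, fun s hs => hj'.comp (hD' s hs), fun x hx => ?_, fun x hx => ?_⟩
  · obtain ⟨δ, hδ, e1⟩ := hj.uc ε hε
    obtain ⟨η, hη, e2⟩ := hD.uc δ hδ
    exact ⟨η, hη, fun s hs t ht x hx y hy hst hxy =>
      e1 _ (hD.mapsX s hs hx) _ (hD.mapsX t ht hy) (e2 s hs t ht x hx y hy hst hxy)⟩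
  · show j (D 0 x) = j (f x)
    rw [h0 hx]
  · show j (D 1 x) = j (g x)
    rw [h1 hx]

/-- composition with a map of pairs `(Z, Z') → (A, A')` -/
theorem hp_comp_right (h : Hp A A' B B' f g) {j : E'' → E}
    (hj : IsMap (tr E'') (tr E) Z A j) (hj' : MapsTo j Z' A') :
    Hp Z Z' B B' (f ∘ j) (g ∘ j) := by
  obtain ⟨D, hD, hD', h0, h1⟩ := h
  refine ⟨fun s => D s ∘ j, ⟨fun s hs => (hD.mapsX s hs).comp hj.mapsX, fun _ _ e => e.elim,
    fun ε hε => ?_⟩, fun s hs => (hD' s hs).comp hj', fun x hx => ?_, fun x hx => ?_⟩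
  · obtain ⟨δ, hδ, e1⟩ := hD.uc ε hε
    obtain ⟨η, hη, e2⟩ := hj.uc δ hδ
    exact ⟨min δ η, lt_min hδ hη, fun s hs t ht x hx y hy hst hxy =>
      e1 s hs t ht _ (hj.mapsX hx) _ (hj.mapsX hy) (hst.trans_le (min_le_left _ _))
        (e2 x hx y hy (hxy.trans_le (min_le_right _ _)))⟩
  · show D 0 (j x) = f (j x)
    rw [h0 (hj.mapsX hx)]
  · show D 1 (j x) = g (j x)
    rw [h1 (hj.mapsX hx)]

/-- composition of homotopies -/
theorem hp_comp {f₁ g₁ : E' → E''} (h : Hp A A' B B' f g) (h' : Hp B B' Z Z' f₁ g₁)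
    (hA : A' ⊆ A) (hB : B' ⊆ B) : Hp A A' Z Z' (f₁ ∘ f) (g₁ ∘ g) :=
  hp_trans (hp_comp_left h (hp_isMap_left h') (hp_mapsTo_left h' hB))
    (hp_comp_right h' (hp_isMap_right h) (hp_mapsTo_right h hA))

end Vale.Agent.P216.H550
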