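import Vale.Agent.P216.H550.GenD2

/-!
# P216-D, block GEN: the walls of the free loops from `OmegaOut` (spheres and their kin)
-/

set_option linter.all false

open Set

namespace Vale.Agent.P216.H550

open Vale.Agent.P216.AS Vale.Agent.P216.H901 Vale.Agent.P216.PS Vale.Agent.P216.MV337
open Vale.Agent.P216.H754B Vale.Agent.P216.H894 Vale.Agent.P216.H83 Vale.Agent.P216.B64
open Vale.Agent.P216.H285 Vale.Agent.P216.H774 Vale.Agent.P216.H133C

/-- One class in every degree which is a multiple of `m`. -/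
structure OmOne {k : Type} [Field k] (G : ℕ → PM k) (m : ℕ) (B : ℝ) where
  om : ∀ j, (G (j * m)).Fam
  line : ∀ j, (G (j * m)).Line (om j) B
  zero : ∀ q, ¬ m ∣ q → (G q).Eph B
  om0 : ∀ t (ht : 0 < t), (om 0).z t ht ≠ 0
  up : ∀ j t (ht : 0 < t) (ht' : 0 < t + B), (om (j + 1)).z t ht ≠ 0 → (om j).z (t + B) ht' ≠ 0
  down : ∀ j t (ht : 0 < t) (ht' : 0 < t + B), (om j).z t ht ≠ 0 → (om (j + 1)).z (t + B) ht' ≠ 0

namespace OmOne

variable {k : Type} [Field k] {G : ℕ → PM k} {m : ℕ} {B : ℝ} (S : OmOne G m B)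

theorem alive (hB : 0 ≤ B) (i : ℕ) : (S.om i).alive.Nonempty := by
  induction i with
  | zero => exact ⟨1, one_pos, S.om0 1 one_pos⟩
  | succ i ih =>
    obtain ⟨t, ht, h⟩ := ih
    exact ⟨t + B, by linarith, S.down i t ht (by linarith) h⟩

/-- the walls -/
noncomputable def T (q : ℕ) : ℝ := (S.om (q / m)).birth

theorem birth_om (hB : 0 ≤ B) (i : ℕ) : |(S.om (i + 1)).birth - (S.om i).birth| ≤ B := by
  have h1 := (S.om (i + 1)).birth_le (S.om i) (S.alive hB (i + 1)) (S.up i) hB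
  have h2 := (S.om i).birth_le (S.om (i + 1)) (S.alive hB i) (S.down i) hB
  rw [abs_le]
  constructor <;> linarith

theorem wall (hm : 0 < m) (hB : 0 ≤ B) : Wall S.T B where
  a0 := hB
  nonneg q := (S.om _).birth_nonneg
  step q := by
    unfold T
    rcases Nat.eq_or_lt_of_le (Nat.div_le_div_right (c := m) (Nat.le_succ q)) with h | h
    · have h' : (q + 1) / m = q / m := h.symm
      rw [h', sub_self, abs_zero]
      exact hB
    · have h1 : (q + 1) / m = q / m + 1 := by
        have := Nat.succ_div (a := q) (b := m)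
        split_ifs at this with h2
        · exact this
        · have h3 : (q + 1) / m = q / m := by
            simpa using this
          have h4 : q / m < (q + 1) / m := h
          omega
      rw [h1]
      exact S.birth_om hB _

theorem T_zero : S.T 0 = 0 := by
  unfold T
  rw [Nat.zero_div]
  refine le_antisymm ?_ (S.om 0).birth_nonneg
  refine le_of_forall_pos_le_add fun ε hε => ?_
  rw [zero_add]
  exact csInf_le (S.om 0).alive_bdd ⟨hε, S.om0 ε hε⟩

theorem step (hm : 0 < m) (hB : 0 < B) (q : ℕ) : (G q).Step (S.T q) B := by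
  by_cases h : m ∣ q
  · obtain ⟨i, rfl⟩ := h
    rw [Nat.mul_comm]
    have e : S.T (i * m) = (S.om i).birth := by
      unfold T
      rw [Nat.mul_div_cancel _ hm]
    rw [e]
    exact (S.line i).step (S.alive hB.le i) le_rfl hB
  · exact PM.Eph.step (S.zero q h) _

end OmOne

section FL

variable {M : Type} [MetricSpace M] {x₀ : M} {m : ℕ} {B : ℝ} {k : Type} [Field k]

/-- **From `OmegaOut`.** -/
noncomputable def oneOf (O : OmegaOut M m x₀ B k) (hB : 0 ≤ B) :
    OmOne (fun r => pmX k (mono_P x₀) r) m B where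
  om i := relFam (i * m) (O.om i) (O.res_om i)
  line i := relFam_line (O.span i) hB
  zero r h1 s t hs hst h3 x := by
    have h4 : P x₀ x₀ s ⊆ P x₀ x₀ (s + B) := P_mono (by linarith)
    have e := O.zero r h1 s hs.le h4
      (hres k (P_mono h3) r ((absE k (P x₀ x₀ t) r).symm x))
    have e' : hres k (P_mono hst) r ((absE k (P x₀ x₀ t) r).symm x) = 0 := by
      rw [← e]
      exact (res_res _ _ _).symm
    refine (abs_ρ hs hst x).trans ?_
    rw [e', map_zero]
    rfl
  om0 t ht := (relFam_ne ht).2 (O.om_ne t ht.le)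
  up j t ht ht' h := (relFam_ne ht').2 fun h0 => (relFam_ne ht).1 h (O.up j t ht.le h0)
  down j t ht ht' h := (relFam_ne ht').2 fun h0 => (relFam_ne ht).1 h (O.down j t ht.le h0)

/-- **The walls of the free loops**, from `OmegaOut`: one constant for all fields, all degrees. -/
theorem exists_stepFL1 {M : Type} [MetricSpace M] [CompactSpace M] [PathConnectedSpace M]
    {ρ : ℝ} (hρ : 0 < ρ) (hU : LS.UniqSeg M ρ) {V : Type} [NormedAddCommGroup V]
    [NormedSpace ℝ V] (T : Geometry.SimplicialComplex ℝ V) (hT : T.faces.Finite)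
    (i : C(M, T.space)) (r : C(T.space, M)) (hri : (ContinuousMap.id M).Homotopic (r.comp i))
    (x₀ : M) {B : ℝ} (hB : 0 < B) : ∃ C : ℝ, 0 < C ∧ ∀ (k : Type) [Field k], (2 : k) ≠ 0 →
    ∀ m : ℕ, 0 < m → OmegaOut M m x₀ B k → ∃ W : ℕ → ℝ, Wall W B ∧ W 0 = 0 ∧
      ∀ n, (XP k M n).Step (W n) C := by
  obtain ⟨C, hC, h⟩ := lin_loops hρ hU T hT i r hri x₀ (a := B) hB.le (C := B) hB
  refine ⟨C, by linarith, fun k _ h2 m hm O => ?_⟩
  have S := oneOf O hB.le
  refine ⟨S.T, S.wall hm hB.le, S.T_zero, fun n => ?_⟩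
  have h1 : LinW k (fun t => P x₀ x₀ t) (monoP_P x₀ x₀) S.T B := fun n => S.step hm hB n
  exact pmIso_step (isoFLr k M n) (h k h2 S.T (S.wall hm hB.le) h1 n)

/-- **The generators of the free loops, from the walls**: `B'` only depends on the constants. -/
theorem gen_of_step {M : Type} [MetricSpace M] {a C : ℝ} {R : ℕ} {k : Type} [Field k]
    (hC : 0 < C) {e : ℕ → ℕ} (he : ∀ i, e i ≤ e (i + 1)) (hR : ∀ i, e (i + 1) ≤ e i + R)
    (h : ∃ W : ℕ → ℝ, Wall W a ∧ W 0 = 0 ∧ ∀ n, (XP k M n).Step (W n) C)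
    (S : Stab (fun n => XP k M n) e) :
      ∃ g : ∀ n, (XP k M n).Fam,
        (∀ n (o : (XP k M n).Fam), ∃ c : k, ∀ t (ht : 0 < t), o.z t ht = c • (g n).z t ht) ∧
        (∀ n, (XP k M n).Line (g n) (3 * C + a * R + a * e 0)) ∧
        (∀ i t (ht : 0 < t), (g (e i - 1)).z t ht = 0) ∧
        (∀ t (ht : 0 < t), 3 * C + a * R + a * e 0 ≤ t → (g (e 0)).z t ht ≠ 0) ∧
        ∀ i t (ht : 0 < t) (ht' : 0 < t + (3 * C + a * R + a * e 0)), (g (e i)).z t ht ≠ 0 →
          (g (e (i + 1))).z (t + (3 * C + a * R + a * e 0)) ht' ≠ 0 := by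
  obtain ⟨W, hW, hW0, hst⟩ := h
  exact exists_gen S hW hC hst he hR (by rw [hW0, add_zero])

end FL

end Vale.Agent.P216.H550
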