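import Vale.Agent.P216.H550.Hp

/-!
# P216-B: coordinates on `Cu E n`, functoriality, composition of interleavings
-/

set_option linter.all false

namespace Vale.Agent.P216.H550

open Set
open Vale.Agent.P216.AS Vale.Agent.P216.H901

section Coord

variable {E : Type}

/-- the point of `Cu E n` with the given coordinates -/
def cuB : ∀ (n : ℕ), E → (Fin n → ℝ) → Cu E n
  | 0, e, _ => e
  | n + 1, e, y => (cuB n e (fun i => y i.castSucc), y (Fin.last n))

/-- the `E`-coordinate -/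
def cuE : ∀ (n : ℕ), Cu E n → E
  | 0, z => z
  | n + 1, z => cuE n z.1

/-- the real coordinates -/
def cuP : ∀ (n : ℕ), Cu E n → Fin n → ℝ
  | 0, _ => fun i => i.elim0
  | n + 1, z => Fin.snoc (α := fun _ => ℝ) (cuP n z.1) z.2

@[simp] theorem cuP_succ_castSucc {n : ℕ} (z : Cu E (n + 1)) (i : Fin n) :
    cuP (n + 1) z i.castSucc = cuP n z.1 i := Fin.snoc_castSucc (α := fun _ => ℝ) _ _ _

@[simp] theorem cuP_succ_last {n : ℕ} (z : Cu E (n + 1)) :
    cuP (n + 1) z (Fin.last n) = z.2 := Fin.snoc_last (α := fun _ => ℝ) _ _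

@[simp] theorem cuE_cuB : ∀ (n : ℕ) (e : E) (y : Fin n → ℝ), cuE n (cuB n e y) = e
  | 0, _, _ => rfl
  | n + 1, e, y => cuE_cuB n e _

@[simp] theorem cuP_cuB : ∀ (n : ℕ) (e : E) (y : Fin n → ℝ), cuP n (cuB n e y) = y
  | 0, _, _ => funext fun i => i.elim0
  | n + 1, e, y => by
    funext i
    refine Fin.lastCases ?_ (fun i => ?_) i
    · rw [cuP_succ_last]; rfl
    · rw [cuP_succ_castSucc]
      exact congrFun (cuP_cuB n e _) i

theorem cuB_cuE_cuP : ∀ (n : ℕ) (z : Cu E n), cuB n (cuE n z) (cuP n z) = z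
  | 0, _ => rfl
  | n + 1, z => by
    refine Prod.ext ?_ ?_
    · show cuB n (cuE n z.1) (fun i => cuP (n + 1) z i.castSucc) = z.1
      have : (fun i : Fin n => cuP (n + 1) z i.castSucc) = cuP n z.1 := by
        funext i
        rw [cuP_succ_castSucc]
      rw [this]
      exact cuB_cuE_cuP n z.1
    · show cuP (n + 1) z (Fin.last n) = z.2
      rw [cuP_succ_last]

theorem cu_ext {n : ℕ} {z z' : Cu E n} (h1 : cuE n z = cuE n z') (h2 : cuP n z = cuP n z') :
    z = z' := by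
  rw [← cuB_cuE_cuP n z, ← cuB_cuE_cuP n z', h1, h2]

theorem mem_cub : ∀ {n : ℕ} {Z : Set E} {z : Cu E n},
    z ∈ cub n Z ↔ cuE n z ∈ Z ∧ ∀ i, cuP n z i ∈ Icc (0 : ℝ) 1
  | 0, Z, z => ⟨fun h => ⟨h, fun i => i.elim0⟩, fun h => h.1⟩
  | n + 1, Z, z => by
    have h0 : z ∈ cub (n + 1) Z ↔ z.1 ∈ cub n Z ∧ z.2 ∈ Icc (0 : ℝ) 1 := Iff.rfl
    rw [h0, mem_cub (n := n)]
    constructor
    · rintro ⟨⟨h1, h2⟩, h3⟩
      refine ⟨h1, fun i => ?_⟩
      refine Fin.lastCases ?_ (fun i => ?_) i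
      · rw [cuP_succ_last]; exact h3
      · rw [cuP_succ_castSucc]; exact h2 i
    · rintro ⟨h1, h2⟩
      refine ⟨⟨h1, fun i => ?_⟩, ?_⟩
      · rw [← cuP_succ_castSucc]; exact h2 _
      · rw [← cuP_succ_last z]; exact h2 _

theorem mem_bdc : ∀ {n : ℕ} {Z : Set E} {z : Cu E n},
    z ∈ bdc n Z ↔ z ∈ cub n Z ∧ ∃ i, cuP n z i = 0 ∨ cuP n z i = 1
  | 0, Z, z => ⟨fun h => h.elim, fun h => h.2.choose.elim0⟩
  | n + 1, Z, z => by
    have h0 : z ∈ bdc (n + 1) Z ↔ (z.1 ∈ cub n Z ∧ z.2 ∈ ({0, 1} : Set ℝ)) ∨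
      (z.1 ∈ bdc n Z ∧ z.2 ∈ Icc (0 : ℝ) 1) := Iff.rfl
    have h1 : z ∈ cub (n + 1) Z ↔ z.1 ∈ cub n Z ∧ z.2 ∈ Icc (0 : ℝ) 1 := Iff.rfl
    rw [h0, h1, mem_bdc (n := n)]
    constructor
    · rintro (⟨h2, h3⟩ | ⟨⟨h2, i, hi⟩, h3⟩)
      · refine ⟨⟨h2, ?_⟩, Fin.last n, ?_⟩
        · rcases h3 with h | h
          · rw [h]; exact ⟨le_rfl, zero_le_one⟩
          · rw [h]; exact ⟨zero_le_one, le_rfl⟩
        · rw [cuP_succ_last]; exact h3
      · refine ⟨⟨h2, h3⟩, i.castSucc, ?_⟩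
        rw [cuP_succ_castSucc]; exact hi
    · rintro ⟨⟨h2, h3⟩, i, hi⟩
      revert hi
      refine Fin.lastCases (fun hi => ?_) (fun i hi => ?_) i
      · rw [cuP_succ_last] at hi
        exact Or.inl ⟨h2, hi⟩
      · rw [cuP_succ_castSucc] at hi
        exact Or.inr ⟨⟨h2, i, hi⟩, h3⟩

theorem bdc_subset_cub {n : ℕ} {Z : Set E} : bdc n Z ⊆ cub n Z := fun _ h => (mem_bdc.1 h).1

theorem cub_mono {n : ℕ} {Z Z' : Set E} (h : Z ⊆ Z') : cub n Z ⊆ cub n Z' := fun _ hz =>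
  mem_cub.2 ⟨h (mem_cub.1 hz).1, (mem_cub.1 hz).2⟩

theorem bdc_mono {n : ℕ} {Z Z' : Set E} (h : Z ⊆ Z') : bdc n Z ⊆ bdc n Z' := fun _ hz =>
  mem_bdc.2 ⟨cub_mono h (mem_bdc.1 hz).1, (mem_bdc.1 hz).2⟩

theorem cuB_mem_cub {n : ℕ} {Z : Set E} {e : E} {y : Fin n → ℝ} :
    cuB n e y ∈ cub n Z ↔ e ∈ Z ∧ ∀ i, y i ∈ Icc (0 : ℝ) 1 := by
  rw [mem_cub, cuE_cuB, cuP_cuB]

theorem cuB_mem_bdc {n : ℕ} {Z : Set E} {e : E} {y : Fin n → ℝ} :
    cuB n e y ∈ bdc n Z ↔ (e ∈ Z ∧ ∀ i, y i ∈ Icc (0 : ℝ) 1) ∧ ∃ i, y i = 0 ∨ y i = 1 := by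
  rw [mem_bdc, cuB_mem_cub, cuP_cuB]

end Coord

section Metric

variable {E E' : Type} [MetricSpace E] [MetricSpace E']

theorem cu_dist_le : ∀ {n : ℕ} {z z' : Cu E n} {r : ℝ}, dist z z' ≤ r ↔
    dist (cuE n z) (cuE n z') ≤ r ∧ ∀ i, dist (cuP n z i) (cuP n z' i) ≤ r
  | 0, z, z', r => ⟨fun h => ⟨h, fun i => i.elim0⟩, fun h => h.1⟩
  | n + 1, z, z', r => by
    have h0 : dist z z' ≤ r ↔ dist z.1 z'.1 ≤ r ∧ dist z.2 z'.2 ≤ r := by
      show max (dist z.1 z'.1) (dist z.2 z'.2) ≤ r ↔ _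
      exact max_le_iff
    rw [h0, cu_dist_le (n := n)]
    constructor
    · rintro ⟨⟨h1, h2⟩, h3⟩
      refine ⟨h1, fun i => ?_⟩
      refine Fin.lastCases ?_ (fun i => ?_) i
      · rw [cuP_succ_last, cuP_succ_last]; exact h3
      · rw [cuP_succ_castSucc, cuP_succ_castSucc]; exact h2 i
    · rintro ⟨h1, h2⟩
      refine ⟨⟨h1, fun i => ?_⟩, ?_⟩
      · have := h2 i.castSucc
        rwa [cuP_succ_castSucc, cuP_succ_castSucc] at this
      · have := h2 (Fin.last n)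
        rwa [cuP_succ_last, cuP_succ_last] at this

theorem cu_dist_lt : ∀ {n : ℕ} {z z' : Cu E n} {r : ℝ}, dist z z' < r ↔
    dist (cuE n z) (cuE n z') < r ∧ ∀ i, dist (cuP n z i) (cuP n z' i) < r
  | 0, z, z', r => ⟨fun h => ⟨h, fun i => i.elim0⟩, fun h => h.1⟩
  | n + 1, z, z', r => by
    have h0 : dist z z' < r ↔ dist z.1 z'.1 < r ∧ dist z.2 z'.2 < r := by
      show max (dist z.1 z'.1) (dist z.2 z'.2) < r ↔ _
      exact max_lt_iff
    rw [h0, cu_dist_lt (n := n)]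
    constructor
    · rintro ⟨⟨h1, h2⟩, h3⟩
      refine ⟨h1, fun i => ?_⟩
      refine Fin.lastCases ?_ (fun i => ?_) i
      · rw [cuP_succ_last, cuP_succ_last]; exact h3
      · rw [cuP_succ_castSucc, cuP_succ_castSucc]; exact h2 i
    · rintro ⟨h1, h2⟩
      refine ⟨⟨h1, fun i => ?_⟩, ?_⟩
      · have := h2 i.castSucc
        rwa [cuP_succ_castSucc, cuP_succ_castSucc] at this
      · have := h2 (Fin.last n)
        rwa [cuP_succ_last, cuP_succ_last] at this

theorem cuE_dist {n : ℕ} (z z' : Cu E n) : dist (cuE n z) (cuE n z') ≤ dist z z' :=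
  (cu_dist_le.1 le_rfl).1

theorem cuP_dist {n : ℕ} (z z' : Cu E n) (i : Fin n) :
    dist (cuP n z i) (cuP n z' i) ≤ dist z z' := (cu_dist_le.1 le_rfl).2 i

theorem cuP_dist' {n : ℕ} (z z' : Cu E n) : dist (cuP n z) (cuP n z') ≤ dist z z' :=
  (dist_pi_le_iff dist_nonneg).2 fun i => cuP_dist z z' i

theorem continuous_cuE (n : ℕ) : Continuous (cuE n : Cu E n → E) :=
  (LipschitzWith.of_dist_le_mul (K := 1) fun z z' => by
    rw [NNReal.coe_one, one_mul]; exact cuE_dist z z').continuous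

theorem continuous_cuP (n : ℕ) : Continuous (cuP n : Cu E n → Fin n → ℝ) :=
  (LipschitzWith.of_dist_le_mul (K := 1) fun z z' => by
    rw [NNReal.coe_one, one_mul]; exact cuP_dist' z z').continuous

theorem continuous_cuB (n : ℕ) : Continuous fun p : E × (Fin n → ℝ) => cuB n p.1 p.2 := by
  refine (LipschitzWith.of_dist_le_mul (K := 1) fun p p' => ?_).continuous
  rw [NNReal.coe_one, one_mul, cu_dist_le]
  simp only [cuE_cuB, cuP_cuB]
  refine ⟨?_, fun i => ?_⟩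
  · rw [Prod.dist_eq]; exact le_max_left _ _
  · rw [Prod.dist_eq]; exact (dist_le_pi_dist _ _ i).trans (le_max_right _ _)

theorem isCompact_cub : ∀ (n : ℕ) {Z : Set E}, IsCompact Z → IsCompact (cub n Z)
  | 0, _, h => h
  | n + 1, Z, h => by
    have h1 : IsCompact ((cub n Z) ×ˢ Icc (0 : ℝ) 1 : Set (Cu E n × ℝ)) :=
      (isCompact_cub n h).prod isCompact_Icc
    exact h1

theorem isClosed_cub : ∀ (n : ℕ) {Z : Set E}, IsClosed Z → IsClosed (cub n Z)
  | 0, _, h => h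
  | n + 1, Z, h => by
    have h1 : IsClosed ((cub n Z) ×ˢ Icc (0 : ℝ) 1 : Set (Cu E n × ℝ)) :=
      (isClosed_cub n h).prod isClosed_Icc
    exact h1

theorem isClosed_bdc (n : ℕ) {Z : Set E} (h : IsClosed Z) : IsClosed (bdc n Z) := by
  have e : bdc n Z = cub n Z ∩ ⋃ i : Fin n, ({z | cuP n z i = 0} ∪ {z | cuP n z i = 1}) := by
    ext z
    rw [mem_bdc, mem_inter_iff, mem_iUnion]
    rfl
  rw [e]
  refine (isClosed_cub n h).inter (isClosed_iUnion_of_finite fun i => ?_)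
  exact (isClosed_eq ((continuous_apply i).comp (continuous_cuP n)) continuous_const).union
    (isClosed_eq ((continuous_apply i).comp (continuous_cuP n)) continuous_const)

theorem isCompact_bdc (n : ℕ) {Z : Set E} (h : IsCompact Z) : IsCompact (bdc n Z) :=
  (isCompact_cub n h).of_isClosed_subset (isClosed_bdc n h.isClosed) bdc_subset_cub

/-! ### Functoriality -/

/-- `f × id` -/
def cuF (n : ℕ) (f : E → E') (z : Cu E n) : Cu E' n := cuB n (f (cuE n z)) (cuP n z)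

@[simp] theorem cuE_cuF (n : ℕ) (f : E → E') (z : Cu E n) : cuE n (cuF n f z) = f (cuE n z) :=
  cuE_cuB _ _ _

@[simp] theorem cuP_cuF (n : ℕ) (f : E → E') (z : Cu E n) : cuP n (cuF n f z) = cuP n z :=
  cuP_cuB _ _ _

theorem cuF_id (n : ℕ) : cuF n (id : E → E) = id := funext fun z => cuB_cuE_cuP n z

theorem cuF_comp {E'' : Type} [MetricSpace E''] (n : ℕ) (g : E' → E'') (f : E → E') :
    cuF n (g ∘ f) = cuF n g ∘ cuF n f := funext fun z => cu_ext (by simp) (by simp)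

variable {Z : Set E} {Z' : Set E'} {f g : E → E'} {n : ℕ}

theorem isHtpy_cuF {D : ℝ → E → E'} (h : IsHtpy (tr E) (tr E') Z Z' D) (n : ℕ) :
    IsHtpy (tr (Cu E n)) (tr (Cu E' n)) (cub n Z) (cub n Z') fun s => cuF n (D s) where
  mapsX s hs z hz := cuB_mem_cub.2 ⟨h.mapsX s hs (mem_cub.1 hz).1, (mem_cub.1 hz).2⟩
  eqv _ _ e := e.elim
  uc ε hε := by
    obtain ⟨δ, hδ, h1⟩ := h.uc ε hε
    refine ⟨min δ ε, lt_min hδ hε, fun s hs t ht x hx y hy hst hxy => ?_⟩
    rw [cu_dist_lt]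
    rw [cu_dist_lt] at hxy
    simp only [cuE_cuF, cuP_cuF]
    exact ⟨h1 s hs t ht _ (mem_cub.1 hx).1 _ (mem_cub.1 hy).1 (hst.trans_le (min_le_left _ _))
      (hxy.1.trans_le (min_le_left _ _)), fun i => (hxy.2 i).trans_le (min_le_right _ _)⟩

theorem mapsTo_cuF (h : MapsTo f Z Z') (n : ℕ) : MapsTo (cuF n f) (cub n Z) (cub n Z') :=
  fun _ hz => cuB_mem_cub.2 ⟨h (mem_cub.1 hz).1, (mem_cub.1 hz).2⟩

theorem mapsTo_cuF_bdc (h : MapsTo f Z Z') (n : ℕ) : MapsTo (cuF n f) (bdc n Z) (bdc n Z') :=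
  fun _ hz => cuB_mem_bdc.2 ⟨⟨h (mem_cub.1 (mem_bdc.1 hz).1).1, (mem_cub.1 (mem_bdc.1 hz).1).2⟩,
    (mem_bdc.1 hz).2⟩

theorem isMap_cuF (h : IsMap (tr E) (tr E') Z Z' f) (n : ℕ) :
    IsMap (tr (Cu E n)) (tr (Cu E' n)) (cub n Z) (cub n Z') (cuF n f) where
  mapsX := mapsTo_cuF h.mapsX n
  eqv e := e.elim
  uc ε hε := by
    obtain ⟨δ, hδ, h1⟩ := h.uc ε hε
    refine ⟨min δ ε, lt_min hδ hε, fun x hx y hy hxy => ?_⟩
    rw [cu_dist_lt]
    rw [cu_dist_lt] at hxy
    simp only [cuE_cuF, cuP_cuF]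
    exact ⟨h1 _ (mem_cub.1 hx).1 _ (mem_cub.1 hy).1 (hxy.1.trans_le (min_le_left _ _)),
      fun i => (hxy.2 i).trans_le (min_le_right _ _)⟩

theorem hp_cuF {A' : Set E} {B' : Set E'} (h : Hp Z A' Z' B' f g) (n : ℕ) :
    Hp (cub n Z) (bdc n Z) (cub n Z') (bdc n Z') (cuF n f) (cuF n g) := by
  obtain ⟨D, hD, -, h0, h1⟩ := h
  refine ⟨fun s => cuF n (D s), isHtpy_cuF hD n, fun s hs => mapsTo_cuF_bdc (hD.mapsX s hs) n,
    fun z hz => ?_, fun z hz => ?_⟩
  · show cuB n (D 0 (cuE n z)) (cuP n z) = cuB n (f (cuE n z)) (cuP n z)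
    rw [h0 (mem_cub.1 hz).1]
  · show cuB n (D 1 (cuE n z)) (cuP n z) = cuB n (g (cuE n z)) (cuP n z)
    rw [h1 (mem_cub.1 hz).1]

end Metric

/-! ### Interleavings -/

section Intl

variable {E E' E'' : Type} [PseudoMetricSpace E] [PseudoMetricSpace E'] [PseudoMetricSpace E'']
  {A A' : ℝ → Set E} {B B' : ℝ → Set E'} {C C' : ℝ → Set E''} {c d : ℝ}

/-- reversed interleaving -/
def spSymm (I : SpIntl A A' B B' c) : SpIntl B B' A A' c where
  f := I.g
  g := I.f
  f_map := I.g_map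
  f_sub := I.g_sub
  g_map := I.f_map
  g_sub := I.f_sub
  f_nat := I.g_nat
  g_nat := I.f_nat
  gf := I.fg
  fg := I.gf

/-- composition of interleavings -/
def spComp (I : SpIntl A A' B B' c) (J : SpIntl B B' C C' d) (hc : 0 ≤ c) (hd : 0 ≤ d)
    (hA : ∀ s t, 0 < s → s ≤ t → A s ⊆ A t) (hA' : ∀ s t, 0 < s → s ≤ t → A' s ⊆ A' t)
    (hC : ∀ s t, 0 < s → s ≤ t → C s ⊆ C t) (hC' : ∀ s t, 0 < s → s ≤ t → C' s ⊆ C' t) :
    SpIntl A A' C C' (c + d) where
  f t := J.f (t + c) ∘ I.f t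
  g t := I.g (t + d) ∘ J.g t
  f_map t ht := by
    have e : t + (c + d) = t + c + d := by ring
    rw [e]
    exact (J.f_map (t + c) (by linarith)).comp (I.f_map t ht)
  f_sub t ht := by
    have e : t + (c + d) = t + c + d := by ring
    rw [e]
    exact (J.f_sub (t + c) (by linarith)).comp (I.f_sub t ht)
  g_map t ht := by
    have e : t + (c + d) = t + d + c := by ring
    rw [e]
    exact (I.g_map (t + d) (by linarith)).comp (J.g_map t ht)
  g_sub t ht := by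
    have e : t + (c + d) = t + d + c := by ring
    rw [e]
    exact (I.g_sub (t + d) (by linarith)).comp (J.g_sub t ht)
  f_nat s t hs hst := by
    have e : t + (c + d) = t + c + d := by ring
    rw [e]
    exact hp_trans (hp_comp_right (J.f_nat (s + c) (t + c) (by linarith) (by linarith))
      (I.f_map s hs) (I.f_sub s hs)) (hp_comp_left (I.f_nat s t hs hst)
        (J.f_map (t + c) (by linarith)) (J.f_sub (t + c) (by linarith)))
  g_nat s t hs hst := by
    have e : t + (c + d) = t + d + c := by ring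
    rw [e]
    exact hp_trans (hp_comp_right (I.g_nat (s + d) (t + d) (by linarith) (by linarith))
      (J.g_map s hs) (J.g_sub s hs)) (hp_comp_left (J.g_nat s t hs hst)
        (I.g_map (t + d) (by linarith)) (I.g_sub (t + d) (by linarith)))
  gf t ht := by
    have e1 : t + (c + d) + (c + d) = t + c + d + d + c := by ring
    have e2 : t + (c + d) + d = t + c + d + d := by ring
    have e3 : t + (c + d) = t + c + d := by ring
    rw [e1, e2, e3]
    have h1 : Hp (A t) (A' t) (A (t + c + d + d + c)) (A' (t + c + d + d + c)) id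
        (I.g (t + c) ∘ I.f t) :=
      hp_mono (I.gf t ht) subset_rfl subset_rfl (hA _ _ (by linarith) (by linarith))
        (hA' _ _ (by linarith) (by linarith))
    have h2 : Hp (A t) (A' t) (A (t + c + d + d + c)) (A' (t + c + d + d + c))
        (I.g (t + c) ∘ I.f t) (I.g (t + c + d + d) ∘ I.f t) :=
      hp_comp_right (I.g_nat (t + c) (t + c + d + d) (by linarith) (by linarith)) (I.f_map t ht)
        (I.f_sub t ht)
    have h3 : Hp (A t) (A' t) (A (t + c + d + d + c)) (A' (t + c + d + d + c))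
        (I.g (t + c + d + d) ∘ (id ∘ I.f t))
        (I.g (t + c + d + d) ∘ ((J.g (t + c + d) ∘ J.f (t + c)) ∘ I.f t)) :=
      hp_comp_left (hp_comp_right (J.gf (t + c) (by linarith)) (I.f_map t ht) (I.f_sub t ht))
        (I.g_map (t + c + d + d) (by linarith)) (I.g_sub (t + c + d + d) (by linarith))
    exact hp_trans h1 (hp_trans h2 h3)
  fg t ht := by
    have e1 : t + (c + d) + (c + d) = t + d + c + c + d := by ring
    have e2 : t + (c + d) + c = t + d + c + c := by ring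
    have e3 : t + (c + d) = t + d + c := by ring
    rw [e1, e2, e3]
    have h1 : Hp (C t) (C' t) (C (t + d + c + c + d)) (C' (t + d + c + c + d)) id
        (J.f (t + d) ∘ J.g t) :=
      hp_mono (J.fg t ht) subset_rfl subset_rfl (hC _ _ (by linarith) (by linarith))
        (hC' _ _ (by linarith) (by linarith))
    have h2 : Hp (C t) (C' t) (C (t + d + c + c + d)) (C' (t + d + c + c + d))
        (J.f (t + d) ∘ J.g t) (J.f (t + d + c + c) ∘ J.g t) :=
      hp_comp_right (J.f_nat (t + d) (t + d + c + c) (by linarith) (by linarith)) (J.g_map t ht)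
        (J.g_sub t ht)
    have h3 : Hp (C t) (C' t) (C (t + d + c + c + d)) (C' (t + d + c + c + d))
        (J.f (t + d + c + c) ∘ (id ∘ J.g t))
        (J.f (t + d + c + c) ∘ ((I.f (t + d + c) ∘ I.g (t + d)) ∘ J.g t)) :=
      hp_comp_left (hp_comp_right (I.fg (t + d) (by linarith)) (J.g_map t ht) (J.g_sub t ht))
        (J.f_map (t + d + c + c) (by linarith)) (J.f_sub (t + d + c + c) (by linarith))
    exact hp_trans h1 (hp_trans h2 h3)

/-- a larger shift -/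
def spMono (I : SpIntl A A' B B' c) (hcd : c ≤ d) (hc : 0 ≤ c)
    (hA : ∀ s t, 0 < s → s ≤ t → A s ⊆ A t) (hA' : ∀ s t, 0 < s → s ≤ t → A' s ⊆ A' t)
    (hB : ∀ s t, 0 < s → s ≤ t → B s ⊆ B t) (hB' : ∀ s t, 0 < s → s ≤ t → B' s ⊆ B' t) :
    SpIntl A A' B B' d where
  f := I.f
  g := I.g
  f_map t ht := (I.f_map t ht).comp (IsMap.id_of_subset (a := tr E) subset_rfl) |>.mono subset_rfl
    fun x hx => hB _ _ (by linarith) (by linarith) ((I.f_map t ht).mapsX hx)
  f_sub t ht x hx := hB' _ _ (by linarith) (by linarith) (I.f_sub t ht hx)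
  g_map t ht := (I.g_map t ht).mono subset_rfl
    fun x hx => hA _ _ (by linarith) (by linarith) ((I.g_map t ht).mapsX hx)
  g_sub t ht x hx := hA' _ _ (by linarith) (by linarith) (I.g_sub t ht hx)
  f_nat s t hs hst := hp_mono (I.f_nat s t hs hst) subset_rfl subset_rfl
    (hB _ _ (by linarith) (by linarith)) (hB' _ _ (by linarith) (by linarith))
  g_nat s t hs hst := hp_mono (I.g_nat s t hs hst) subset_rfl subset_rfl
    (hA _ _ (by linarith) (by linarith)) (hA' _ _ (by linarith) (by linarith))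
  gf t ht := by
    refine hp_trans (hp_mono (I.gf t ht) subset_rfl subset_rfl
      (hA _ _ (by linarith) (by linarith)) (hA' _ _ (by linarith) (by linarith))) ?_
    refine hp_mono (hp_comp_right (I.g_nat (t + c) (t + d) (by linarith) (by linarith))
      (I.f_map t ht) (I.f_sub t ht)) subset_rfl subset_rfl
      (hA _ _ (by linarith) (by linarith)) (hA' _ _ (by linarith) (by linarith))
  fg t ht := by
    refine hp_trans (hp_mono (I.fg t ht) subset_rfl subset_rfl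
      (hB _ _ (by linarith) (by linarith)) (hB' _ _ (by linarith) (by linarith))) ?_
    refine hp_mono (hp_comp_right (I.f_nat (t + c) (t + d) (by linarith) (by linarith))
      (I.g_map t ht) (I.g_sub t ht)) subset_rfl subset_rfl
      (hB _ _ (by linarith) (by linarith)) (hB' _ _ (by linarith) (by linarith))

end Intl

end Vale.Agent.P216.H550
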