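import Vale.Agent.P216.H977C.MkDefs
import Vale.Agent.P216.H934D.Bridge

/-!
# P216-D, block MID: [BASE-EX]

The base complex `C^*(M) ⊕ C^{*-e}(M)`, `(a, c) ↦ -(da ± c ∪ ξ, dc)`, is exact in the degrees
`q + 1`, `e < q`, `q + 2 < d (h + 1)`, `e = d - 1`, if `H^*(M; k) = k[ξ] / (ξ ^ (h + 1))`.
-/

set_option linter.all false

open Set

namespace Vale.Agent.P216.H550.BaseX

open Vale.Agent.P216.Sl Vale.Agent.P216.PS Vale.Agent.P216.E2L Vale.Agent.P216.H977C
  Vale.Agent.P216.H977C.K3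
open Vale.Agent.P216.H133C (pw)
open Vale.Agent.P216.N929 (Coc)

variable {k M : Type} [Field k]

/-- Cut off at the empty list. -/
noncomputable def c0 (c : List M → k) (l : List M) : k := if l = [] then 0 else c l

theorem c0_nil (c : List M → k) : c0 c [] = 0 := if_pos rfl

theorem c0_of {c : List M → k} {l : List M} (hl : 0 < l.length) : c0 c l = c l :=
  if_neg fun h => by rw [h] at hl; simp at hl

theorem c0_nrm {c : List M → k} (hc : Nrm c) : Nrm (c0 c) := by
  intro l hl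
  unfold c0
  split_ifs with h
  · rfl
  · exact hc l hl

theorem dl_c0 (c : List M → k) {l : List M} (hl : 1 < l.length) : dl (c0 c) l = dl c l :=
  dl_congr fun l' h1 _ => c0_of (by omega)

variable [MetricSpace M]

omit [MetricSpace M] in
theorem dl_neg' (f : List M → k) (l : List M) : dl (fun l => -f l) l = -dl f l := by
  have h := dl_mul_left (-1 : k) f l
  rw [show (fun l => -f l) = fun l => (-1 : k) * f l from funext fun l => by ring, h]
  ring

theorem smL_of_mem {ε : ℝ} {l l' : List M} (h : SmL (univ : Set M) ε l) (hl : ∀ x ∈ l', x ∈ l) :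
    SmL (univ : Set M) ε l' :=
  ⟨fun x hx => h.1 x (hl x hx), fun x hx y hy => h.2 x (hl x hx) y (hl y hy)⟩

/-- `c ∪ ξ`, on the lists of length `n ≥ d + 1`. -/
theorem rc_eq_cup {d r : ℕ} (c ξ : List M → k) {l : List M} (hl : l.length = r + d + 1) :
    rc d id c ξ l = c (l.take (r + 1)) * ξ (l.drop r) := by
  rw [rc_cup id c ξ hl]
  show c ((l.take (r + 1)).map id) * ξ (l.drop r) = _
  rw [List.map_id]

/-- The cup product of a boundary and a cocycle. -/
theorem dl_rc_coc {d : ℕ} {ε : ℝ} {c ξ : List M → k} (hc : c [] = 0)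
    (hξ : Coc (univ : Set M) ε d ξ) {l : List M} (hl : d + 2 ≤ l.length)
    (hs : SmL (univ : Set M) ε l) : dl (rc d id c ξ) l = rc d id (dl c) ξ l := by
  rw [dl_rc d id hc ξ l]
  have h1 : rc (d + 1) id c (dl ξ) l = 0 := by
    obtain ⟨r, hr⟩ : ∃ r, l.length = r + (d + 1) + 1 := ⟨l.length - (d + 2), by omega⟩
    rw [rc_eq_cup c (dl ξ) hr, hξ (l.drop r) (by rw [List.length_drop]; omega)
      ⟨fun _ _ => mem_univ _, fun x hx y hy => hs.2 x (List.mem_of_mem_drop hx) y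
        (List.mem_of_mem_drop hy)⟩, mul_zero]
  rw [h1, mul_zero, add_zero]

theorem rc_sm_congr {d r : ℕ} {c c' ξ : List M → k} {l : List M} (hl : l.length = r + d + 1)
    (h : c (l.take (r + 1)) = c' (l.take (r + 1))) : rc d id c ξ l = rc d id c' ξ l := by
  rw [rc_eq_cup c ξ hl, rc_eq_cup c' ξ hl, h]

/-- The first step: `c` is exact. -/
theorem exact_c {d h r : ℕ} (hd : 2 ≤ d) (B : H934D.BaseK k M d h) (hr : 2 ≤ r)
    (hr' : r < d * h) {κ : k} (hκ : κ ≠ 0) {a c : List M → k} (hc0 : c [] = 0) {s : k}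
    (hs : s ≠ 0) {ε : ℝ} (hε : 0 < ε)
    (hac : ∀ ys : List M, ys.length = r + d + 1 → SmL (univ : Set M) ε ys →
      dl a ys + s * rc d id c (fun l => κ * B.ξ l) ys = 0)
    (hc : ∀ ys : List M, ys.length = r + 2 → SmL (univ : Set M) ε ys → dl c ys = 0) :
    ExL (univ : Set M) r c := by
  have hcc : CocL (univ : Set M) r c := ⟨ε, hε, hc⟩
  by_cases hj : ∀ j ≤ h, r ≠ d * j
  · exact B.zero r hj c hcc
  · push Not at hj
    obtain ⟨j, hjh, rfl⟩ := hj
    have hj1 : j < h := lt_of_mul_lt_mul_left hr' (by omega)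
    obtain ⟨lam, g, hg0, ε', hε', hg⟩ := B.line j hjh c hcc
    have hlam : lam = 0 := by
      by_contra hlam
      refine B.ne (j + 1) hj1 ?_
      -- `lam κ s ξ^(j+1) = - d a - s κ (dg) ∪ ξ = -d (a + s κ g ∪ ξ)`
      refine ⟨fun l => -(lam * κ * s)⁻¹ * (a l + s * κ * rc d id (c0 g) B.ξ l),
        fun h0 => absurd h0 (Nat.mul_pos (by omega) (Nat.succ_pos j)).ne',
        min ε (min ε' B.ε), lt_min hε (lt_min hε' B.hε), fun l hl hsm => ?_⟩
      have s1 := hsm.mono subset_rfl (min_le_left ε (min ε' B.ε))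
      have s2 := hsm.mono subset_rfl ((min_le_right ε (min ε' B.ε)).trans (min_le_left _ _))
      have s3 := hsm.mono subset_rfl ((min_le_right ε (min ε' B.ε)).trans (min_le_right _ _))
      have e1 : d * (j + 1) = d * j + d := by ring
      have hl' : l.length = d * j + d + 1 := by omega
      have h1 := hac l hl' s1
      have h2 := dl_rc_coc (c0_nil g) B.cξ (l := l) (by omega) s3
      have h3 : rc d id (dl (c0 g)) B.ξ l = rc d id c B.ξ l - lam * pw B.ξ d (j + 1) l := by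
        rw [rc_eq_cup _ _ hl', rc_eq_cup _ _ hl', H934D.pw_succ_right B.ξ d j l (by omega),
          dl_c0 g (by rw [List.length_take]; omega), ← hg (l.take (d * j + 1))
            (by rw [List.length_take]; omega) (smL_of_mem s2 fun x hx => List.mem_of_mem_take hx)]
        ring
      have h4 : rc d id c (fun l => κ * B.ξ l) l = κ * rc d id c B.ξ l := by
        rw [rc_eq_cup _ _ hl', rc_eq_cup _ _ hl']
        ring
      have h5 : dl (fun l => -(lam * κ * s)⁻¹ * (a l + s * κ * rc d id (c0 g) B.ξ l)) l =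
          -(lam * κ * s)⁻¹ * (dl a l + s * κ * dl (rc d id (c0 g) B.ξ) l) := by
        rw [dl_mul_left]
        congr 1
        rw [Sl.dl_add, dl_mul_left]
      rw [h5, h2, h3]
      rw [h4] at h1
      have h6 : dl a l + s * κ * (rc d id c B.ξ l - lam * pw B.ξ d (j + 1) l) =
          -(lam * κ * s) * pw B.ξ d (j + 1) l := by linear_combination h1
      rw [h6]
      have h7 : lam * κ * s ≠ 0 := mul_ne_zero (mul_ne_zero hlam hκ) hs
      field_simp
    refine ⟨g, hg0, ε', hε', fun l hl hsm => ?_⟩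
    have h8 : c l - lam * pw B.ξ d j l = dl g l := hg l hl hsm
    rw [hlam, zero_mul, sub_zero] at h8
    exact h8

/-- **[BASE-EX]**. -/
theorem baseEx {d h q : ℕ} (hd : 2 ≤ d) (B : H934D.BaseK k M d h) (hq : d - 1 < q)
    (hq' : q + 2 < d * (h + 1)) {κ : k} (hκ : κ = 1 ∨ κ = -1) :
    BaseEx (fun l => κ * B.ξ l) (d - 1) q := by
  have hd1 : d - 1 + 1 = d := by omega
  unfold BaseEx
  rw [hd1]
  intro a c ha0 hc0 haN hcN ⟨ε, hε, hac, hc⟩
  have hκ2 : κ * κ = 1 := by rcases hκ with rfl | rfl <;> ring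
  have hκ0 : κ ≠ 0 := by
    intro h0
    rw [h0] at hκ2
    simp at hκ2
  obtain ⟨r, hr⟩ : ∃ r, q + 2 = r + d := ⟨q + 2 - d, by omega⟩
  have hr2 : 2 ≤ r := by omega
  have hrh : r < d * h := by
    have : d * (h + 1) = d * h + d := by ring
    omega
  have hξN : Nrm (fun l => κ * B.ξ l) := fun l hl => by
    show κ * B.ξ l = 0
    rw [B.nξ l hl, mul_zero]
  have hξc : Coc (univ : Set M) B.ε d (fun l => κ * B.ξ l) := fun l hl hs => by
    rw [dl_mul_left, B.cξ l hl hs, mul_zero]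
  set ξ' : List M → k := fun l => κ * B.ξ l with hξ'
  have hac' : ∀ ys : List M, ys.length = r + d + 1 → SmL (univ : Set M) ε ys →
      dl a ys + (-1 : k) ^ (r + 2) * rc d id c ξ' ys = 0 := by
    intro ys h1 h2
    have := hac ys (by omega) h2
    rwa [show ys.length - (d - 1) = r + 2 by omega] at this
  have hc' : ∀ ys : List M, ys.length = r + 2 → SmL (univ : Set M) ε ys → dl c ys = 0 :=
    fun ys h1 h2 => hc ys (by omega) h2
  have hex := exact_c hd B hr2 hrh hκ0 hc0 (pow_ne_zero _ (by simp)) hε hac' hc'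
  obtain ⟨g, hgN, -, ε₁, hε₁, hg⟩ := nrm_prim hcN ⟨ε, hε, hc'⟩ hex
  -- the second step
  set c₁ : List M → k := c0 fun l => -g l with hc₁
  have hc₁N : Nrm c₁ := c0_nrm fun l hl => by
    show -g l = 0
    rw [hgN l hl, neg_zero]
  have hc₁0 : c₁ [] = 0 := c0_nil _
  have hdc₁ : ∀ l : List M, l.length = r + 1 → SmL (univ : Set M) ε₁ l → dl c₁ l = -c l := by
    intro l hl hs
    rw [hc₁, dl_c0 _ (by omega), dl_neg', hg l hl hs]
  -- the statement for `c₁` replaced by any other primitive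
  have key : ∀ c₂ : List M → k, c₂ [] = 0 → Nrm c₂ → ∀ ε₂ > 0,
      (∀ l : List M, l.length = r + 1 → SmL (univ : Set M) ε₂ l → dl c₂ l = -c l) →
      CocL (univ : Set M) (q + 1) (fun l => a l + (-1 : k) ^ (r + 1) * rc d id c₂ ξ' l) := by
    intro c₂ h0 hN ε₂ hε₂ h2
    refine ⟨min ε (min ε₂ B.ε), lt_min hε (lt_min hε₂ B.hε), fun l hl hsm => ?_⟩
    have s1 := hsm.mono subset_rfl (min_le_left ε (min ε₂ B.ε))
    have s2 := hsm.mono subset_rfl ((min_le_right ε (min ε₂ B.ε)).trans (min_le_left _ _))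
    have s3 := hsm.mono subset_rfl ((min_le_right ε (min ε₂ B.ε)).trans (min_le_right _ _))
    have hl' : l.length = r + d + 1 := by omega
    have h3 : rc d id (dl c₂) ξ' l = -rc d id c ξ' l := by
      rw [rc_eq_cup _ _ hl', rc_eq_cup _ _ hl', h2 (l.take (r + 1))
        (by rw [List.length_take]; omega) (smL_of_mem s2 fun x hx => List.mem_of_mem_take hx)]
      ring
    rw [Sl.dl_add, dl_mul_left, dl_rc_coc h0 hξc (by omega) s3, h3]
    have h4 := hac' l hl' s1
    rw [pow_succ] at h4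
    linear_combination h4
  -- from the exactness to the conclusion
  have fin : ∀ c₂ : List M → k, c₂ [] = 0 → Nrm c₂ → ∀ ε₂ > 0,
      (∀ l : List M, l.length = r + 1 → SmL (univ : Set M) ε₂ l → dl c₂ l = -c l) →
      ExL (univ : Set M) (q + 1) (fun l => a l + (-1 : k) ^ (r + 1) * rc d id c₂ ξ' l) →
      ∃ a' c' : List M → k, a' [] = 0 ∧ c' [] = 0 ∧ Nrm a' ∧ Nrm c' ∧
        ∃ r > 0, (∀ ys, ys.length = q + 2 → SmL (univ : Set M) r ys →
          a ys = -(dl a' ys + (-1 : k) ^ (ys.length - (d - 1)) * rc d id c' ξ' ys)) ∧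
        ∀ ys, ys.length = q + 2 - (d - 1) → SmL (univ : Set M) r ys → c ys = -dl c' ys := by
    intro c₂ h0 hN ε₂ hε₂ h2 h3
    have hAN : Nrm (fun l => a l + (-1 : k) ^ (r + 1) * rc d id c₂ ξ' l) := fun l hl => by
      show a l + (-1 : k) ^ (r + 1) * rc d id c₂ ξ' l = 0
      rw [haN l hl, nrm_rc d h0 hN hξN l hl, mul_zero, add_zero]
    obtain ⟨b, hbN, -, ε₃, hε₃, hb⟩ := nrm_prim hAN (key c₂ h0 hN ε₂ hε₂ h2) h3
    refine ⟨c0 fun l => -b l, c₂, c0_nil _, h0, c0_nrm fun l hl => ?_, hN, min ε₂ ε₃,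
      lt_min hε₂ hε₃, fun ys h4 h5 => ?_, fun ys h4 h5 => ?_⟩
    · show -b l = 0
      rw [hbN l hl, neg_zero]
    · have h6 := hb ys (by omega) (h5.mono subset_rfl (min_le_right _ _))
      have h6' : a ys + (-1 : k) ^ (r + 1) * rc d id c₂ ξ' ys = dl b ys := h6
      rw [dl_c0 _ (by omega), dl_neg', show ys.length - (d - 1) = r + 1 by omega, ← h6']
      ring
    · rw [h2 ys (by omega) (h5.mono subset_rfl (min_le_left _ _)), neg_neg]
  by_cases hj : ∀ j ≤ h, q + 1 ≠ d * j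
  · exact fin c₁ hc₁0 hc₁N ε₁ hε₁ hdc₁ (B.zero _ hj _ (key c₁ hc₁0 hc₁N ε₁ hε₁ hdc₁))
  · push Not at hj
    obtain ⟨j, hjh, hjq⟩ := hj
    obtain ⟨i, rfl⟩ : ∃ i, j = i + 1 := by
      rcases j with _ | i
      · simp at hjq
      · exact ⟨i, rfl⟩
    have e1 : d * (i + 1) = d * i + d := by ring
    have hi : 0 < d * i := by omega
    obtain ⟨mu, b, hb0, ε₃, hε₃, hb⟩ := B.line (i + 1) hjh
      (fun l => a l + (-1 : k) ^ (r + 1) * rc d id c₁ ξ' l)
      (hjq ▸ key c₁ hc₁0 hc₁N ε₁ hε₁ hdc₁)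
    obtain ⟨ε₄, hε₄, h4⟩ := H934D.pw_cocL B.hε B.cξ i
    have hss : ((-1 : k) ^ (r + 1)) * (-1 : k) ^ (r + 1) = 1 := by
      rw [← mul_pow]; norm_num
    refine fin (fun l => c₁ l - (-1 : k) ^ (r + 1) * mu * κ * c0 (pw B.ξ d i) l) ?_ ?_
      (min ε₁ ε₄) (lt_min hε₁ hε₄) ?_ ?_
    · show c₁ [] - (-1 : k) ^ (r + 1) * mu * κ * c0 (pw B.ξ d i) [] = 0
      rw [hc₁0, c0_nil, mul_zero, sub_zero]
    · intro l hl
      show c₁ l - (-1 : k) ^ (r + 1) * mu * κ * c0 (pw B.ξ d i) l = 0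
      rw [hc₁N l hl, c0_nrm (H934D.pw_Nrm B.nξ i) l hl, mul_zero, sub_zero]
    · intro l hl hsm
      have h5 : dl (fun l => c₁ l - (-1 : k) ^ (r + 1) * mu * κ * c0 (pw B.ξ d i) l) l =
          dl c₁ l - (-1 : k) ^ (r + 1) * mu * κ * dl (c0 (pw B.ξ d i)) l := by
        rw [dl_sub, dl_mul_left]
      rw [h5, hdc₁ l hl (hsm.mono subset_rfl (min_le_left _ _)), dl_c0 _ (by omega),
        h4 l (by omega) (hsm.mono subset_rfl (min_le_right _ _)), mul_zero, sub_zero]
    · rw [hjq]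
      refine ⟨b, hb0, ε₃, hε₃, fun l hl hsm => ?_⟩
      have h5 := hb l hl hsm
      have hl' : l.length = d * i + d + 1 := by omega
      have h6 : rc d id (fun l => c₁ l - (-1 : k) ^ (r + 1) * mu * κ * c0 (pw B.ξ d i) l) ξ' l =
          rc d id c₁ ξ' l - (-1 : k) ^ (r + 1) * mu * pw B.ξ d (i + 1) l := by
        rw [rc_eq_cup _ _ hl', rc_eq_cup _ _ hl', H934D.pw_succ_right B.ξ d i l (by omega),
          c0_of (by rw [List.length_take]; omega)]
        show (_ - (-1 : k) ^ (r + 1) * mu * κ * _) * (κ * B.ξ _) = _ * (κ * B.ξ _) - _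
        linear_combination (-((-1 : k) ^ (r + 1) * mu * pw B.ξ d i (l.take (d * i + 1)) *
          B.ξ (l.drop (d * i)))) * hκ2
      show a l + (-1 : k) ^ (r + 1) * rc d id _ ξ' l = dl b l
      rw [h6, ← h5]
      linear_combination (-(mu * pw B.ξ d (i + 1) l)) * hss

/-- 977's last input. -/
theorem baseEx' {d h : ℕ} (hd : 2 ≤ d) (B : H934D.BaseK k M d h) (q : ℕ) (hq : d - 1 < q)
    (hq' : q + 2 < d * (h + 1)) : BaseEx (fun l => (-1 : k) ^ d * B.ξ l) (d - 1) q :=
  baseEx hd B hq hq' (neg_one_pow_eq_or k d)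

end Vale.Agent.P216.H550.BaseX
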