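import Vale.Agent.P216.MV337.Conj

/-!
# P216-B: the free Moore-Lipschitz loop spaces are compact
-/

set_option linter.all false

namespace Vale.Agent.P216.H550

open Set Filter Topology BoundedContinuousFunction
open Vale.Agent.P216.PS Vale.Agent.P216.MV337

variable {M : Type*} [MetricSpace M] {t : ℝ}

/-- for negative times the loops are constant -/
theorem FL_of_nonpos (ht : t ≤ 0) : FL M t = FL M 0 := by
  ext w
  constructor
  · exact fun h => FL_mono ht h
  · rintro ⟨h1, h2, h3⟩
    refine ⟨h1, h2, fun u hu => ?_⟩
    rcases le_total u 0 with h | h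
    · exact h2 u h
    · exact h3 u h

variable (M t) in
/-- **`FL M t` is compact.** -/
theorem isCompact_FL [CompactSpace M] : IsCompact (FL M t) := by
  wlog ht : 0 ≤ t generalizing t
  · rw [FL_of_nonpos (not_le.1 ht).le]
    exact this 0 le_rfl
  let S : Set (C(Icc (0 : ℝ) t, M)) :=
    {w | (∀ u v, dist (w u) (w v) ≤ |(u : ℝ) - v|) ∧ w ⟨t, ht, le_rfl⟩ = w ⟨0, le_rfl, ht⟩}
  have hS : IsCompact S := by
    refine ArzelaAscoli.isCompact_of_equicontinuous S ?_ ?_
    · have himg : ContinuousMap.toFun '' S =
          {f : Icc (0 : ℝ) t → M | (∀ u v, dist (f u) (f v) ≤ |(u : ℝ) - v|) ∧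
            f ⟨t, ht, le_rfl⟩ = f ⟨0, le_rfl, ht⟩} := by
        ext f
        constructor
        · rintro ⟨g, hg, rfl⟩
          exact hg
        · intro hf
          have hc : Continuous f := by
            refine (LipschitzWith.of_dist_le_mul (K := 1) fun u v => ?_).continuous
            rw [NNReal.coe_one, one_mul, Subtype.dist_eq, Real.dist_eq]
            exact hf.1 u v
          exact ⟨⟨f, hc⟩, hf, rfl⟩
      rw [himg]
      refine IsClosed.isCompact ?_
      have h1 : IsClosed {f : Icc (0 : ℝ) t → M | ∀ u v, dist (f u) (f v) ≤ |(u : ℝ) - v|} := by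
        simp only [Set.ofPred_forall]
        exact isClosed_iInter fun u => isClosed_iInter fun v =>
          isClosed_le ((continuous_apply u).dist (continuous_apply v)) continuous_const
      have h2 : IsClosed {f : Icc (0 : ℝ) t → M | f ⟨t, ht, le_rfl⟩ = f ⟨0, le_rfl, ht⟩} :=
        isClosed_eq (continuous_apply _) (continuous_apply _)
      exact h1.inter h2
    · have := Metric.uniformEquicontinuous_of_continuity_modulus (fun r => r) tendsto_id
        (fun g : S => (g : Icc (0 : ℝ) t → M)) (fun x y g => by
          rw [Subtype.dist_eq, Real.dist_eq]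
          exact g.2.1 x y)
      exact this.equicontinuous
  let ext : C(Icc (0 : ℝ) t, M) → (ℝ →ᵇ M) := fun w =>
    bc (fun u => w (projIcc 0 t ht u)) (w.continuous.comp continuous_projIcc)
  have hext : Continuous ext := by
    refine LipschitzWith.continuous (K := 1) (LipschitzWith.of_dist_le_mul fun w w' => ?_)
    rw [NNReal.coe_one, one_mul, BoundedContinuousFunction.dist_le dist_nonneg]
    intro u
    exact ContinuousMap.dist_apply_le_dist (f := w) (g := w') (projIcc 0 t ht u)
  have himg : ext '' S = FL M t := by
    ext w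
    constructor
    · rintro ⟨g, hg, rfl⟩
      have e0 : ext g 0 = g ⟨0, le_rfl, ht⟩ := by
        change g (projIcc 0 t ht 0) = _
        rw [projIcc_left]
      refine ⟨fun u v => ?_, fun u hu => ?_, fun u hu => ?_⟩
      · refine (hg.1 _ _).trans ?_
        have := abs_projIcc_sub_projIcc (h := ht) (c := u) (d := v)
        exact this
      · rw [e0]
        change g (projIcc 0 t ht u) = _
        rw [projIcc_of_le_left ht hu]
      · rw [e0]
        change g (projIcc 0 t ht u) = _
        rw [projIcc_of_right_le ht hu]
        exact hg.2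
    · intro hw
      refine ⟨⟨fun u => w u, w.continuous.comp continuous_subtype_val⟩,
        ⟨fun u v => hw.1 u v, hw.2.2 t le_rfl⟩, ?_⟩
      ext u
      change w (projIcc 0 t ht u) = w u
      rcases le_total u 0 with h0 | h0
      · rw [projIcc_of_le_left ht h0, hw.2.1 u h0]
      rcases le_total t u with h1 | h1
      · rw [projIcc_of_right_le ht h1, hw.2.2 u h1]
        exact hw.2.2 t le_rfl
      · rw [projIcc_of_mem ht ⟨h0, h1⟩]
  rw [← himg]
  exact hS.image hext

end Vale.Agent.P216.H550
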