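import Vale.Agent.P216.C313.Defs
import Vale.Agent.P216.MV337.Main
import Vale.Agent.P216.H550.LinSp

/-!
# P216-C: the free loops as a retract of a pulled back family

* `Tk A α β ℓ T`: tracks `T x` of time `ℓ` from `α x` to `β x`, for `x ∈ A`; `exists_tk`.
* `continuousOn_conj`: joint continuity of conjugations.
* `SpRetr`: retracts with a bounded shift, up to homotopy; `SpRetr.retr`.
* `domRetr`: `FL M` is a retract of `XY f · K` if `f ∘ g` is homotopic to the identity.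
* `conIntl`: `L × Om t ~ Om t` for `L` contractible in itself.
-/

set_option linter.all false

namespace Vale.Agent.P216.H550

open Set Filter Topology BoundedContinuousFunction
open Vale.Agent.P216.PS Vale.Agent.P216.MV337
open Vale.Agent.P216.AS
open Vale.Agent.P216.H901 (Hp SpIntl tr on PM Retr)
open Vale.Agent.P216.H83 (MonoP pmX monoP_empty)
open Vale.Agent.P216.C313

/-! ### Tracks -/

/-- tracks from `α x` to `β x`, `x ∈ A` -/
structure Tk {S M : Type*} [TopologicalSpace S] [MetricSpace M] (A : Set S) (α β : S → M) (ℓ : ℝ)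
    (T : S → ℝ → M) : Prop where
  nonneg : 0 ≤ ℓ
  lip : ∀ x ∈ A, Lip (T x)
  left : ∀ x ∈ A, ∀ u ≤ 0, T x u = α x
  right : ∀ x ∈ A, ∀ u, ℓ ≤ u → T x u = β x
  cont : ContinuousOn (fun p : S × ℝ => T p.1 p.2) (A ×ˢ univ)

/-- **Tracks from a homotopy.** -/
theorem exists_tk {S M : Type*} [MetricSpace S] [MetricSpace M] [CompactSpace M] {ρ : ℝ}
    (hρ : 0 < ρ) (hU : LS.UniqSeg M ρ) {A : Set S} (hA : IsCompact A) {H : S × ℝ → M}
    (hc : ContinuousOn H (A ×ˢ Icc (0:ℝ) 1)) :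
    ∃ ℓ T, Tk A (fun x => H (x, 0)) (fun x => H (x, 1)) ℓ T := by
  have huc := (hA.prod isCompact_Icc).uniformContinuousOn_of_continuous hc
  rw [Metric.uniformContinuousOn_iff] at huc
  obtain ⟨δ, hδ, huc⟩ := huc (ρ / 2) (by linarith)
  obtain ⟨N, hN⟩ := exists_nat_gt (1 / δ)
  have hN0 : (0:ℝ) < N := (by positivity : 0 < 1 / δ).trans hN
  have hN1 : 1 / (N:ℝ) < δ := by
    rw [div_lt_iff₀ hN0]
    rw [div_lt_iff₀ hδ] at hN
    linarith
  have hmem : ∀ i : ℕ, i ≤ N → (i:ℝ) / N ∈ Icc (0:ℝ) 1 := fun i hi =>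
    ⟨by positivity, (div_le_one hN0).2 (by exact_mod_cast hi)⟩
  have hd : ∀ x ∈ A, ∀ i < N, dist (H (x, (i:ℝ) / N)) (H (x, ((i + 1 : ℕ):ℝ) / N)) < ρ / 2 := by
    intro x hx i hi
    refine huc _ ⟨hx, hmem i hi.le⟩ _ ⟨hx, hmem (i + 1) hi⟩ ?_
    rw [Prod.dist_eq, dist_self, max_eq_right dist_nonneg, Real.dist_eq]
    have e : (i:ℝ) / N - ((i + 1 : ℕ):ℝ) / N = - (1 / N) := by push_cast; ring
    rw [e, abs_neg, abs_of_pos (by positivity)]
    exact hN1
  have hr : ∀ i : ℕ, i < N → (0:ℝ) < (fun _ : ℕ => ρ / 2) i := fun _ _ => by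
    show 0 < ρ / 2
    linarith
  refine ⟨N * (ρ / 2), fun x u => pg (fun i => H (x, (i:ℝ) / N)) (fun _ => ρ / 2) N u, ?_, ?_, ?_, ?_, ?_⟩
  · positivity
  · intro x hx u v
    have := dist_pg_le (x := fun i : ℕ => H (x, (i:ℝ) / N)) (Δ := fun _ => ρ / 2) (n := N) hU
      zero_le_one hr (fun i hi => (hd x hx i hi).trans (by linarith))
      (fun i hi => by rw [one_mul]; exact (hd x hx i hi).le) u v
    rwa [one_mul] at this
  · intro x hx u hu
    show pg _ _ N u = H (x, 0)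
    rw [pg_of_nonpos hr hu]
    show H (x, ((0:ℕ):ℝ) / N) = H (x, 0)
    rw [Nat.cast_zero, zero_div]
  · intro x hx u hu
    show pg _ _ N u = H (x, 1)
    rw [pg_of_ge hr (by rw [cs_const]; exact hu)]
    show H (x, (N:ℝ) / N) = H (x, 1)
    rw [div_self hN0.ne']
  · refine continuousOn_pg (S := S × ℝ) (X := fun p i => H (p.1, (i:ℝ) / N)) (D := fun _ _ => ρ / 2)
      (U := fun p => p.2) hU (fun i hi => ?_) (fun _ _ => continuousOn_const) continuousOn_snd
      (fun p _ i hi => hr i hi) fun p hp i hi => (hd p.1 hp.1 i hi).trans (by linarith)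
    exact hc.comp (continuousOn_fst.prodMk continuousOn_const) fun p hp => ⟨hp.1, hmem i hi⟩

theorem Tk.cont' {S M : Type*} [TopologicalSpace S] [MetricSpace M] {A : Set S} {α β : S → M}
    {ℓ : ℝ} {T : S → ℝ → M} (h : Tk A α β ℓ T) {R : Type*} [TopologicalSpace R] {B : Set R}
    {X : R → S} {φ : R → ℝ} (hX : ContinuousOn X B) (hXA : MapsTo X B A) (hφ : ContinuousOn φ B) :
    ContinuousOn (fun s => T (X s) (φ s)) B :=
  h.cont.comp (hX.prodMk hφ) fun s hs => ⟨hXA hs, mem_univ _⟩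

/-- **Joint continuity of conjugations.** -/
theorem continuousOn_conj {M : Type*} [MetricSpace M] [CompactSpace M] {S : Type*}
    [TopologicalSpace S] {A : Set S} {Q : S → ℝ → M} {W : S → ℝ →ᵇ M} {m τ : S → ℝ} {C : ℝ}
    (hQ : ∀ φ : S → ℝ, ContinuousOn φ A → ContinuousOn (fun s => Q s (φ s)) A)
    (hQL : ∀ s ∈ A, Lip (Q s)) (hW : ContinuousOn W A) (hm : ContinuousOn m A)
    (hτ : ContinuousOn τ A) (hm0 : ∀ s ∈ A, 0 ≤ m s) (h0 : ∀ s ∈ A, 0 ≤ τ s)
    (hC : ∀ s ∈ A, τ s + 2 * m s ≤ C) (hw : ∀ s ∈ A, W s ∈ P (Q s 0) (Q s 0) (τ s))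
    (hq : ∀ s ∈ A, ∀ u, m s ≤ u → Q s u = Q s (m s)) :
    ContinuousOn (fun s => mo (cj (m s) (τ s) (Q s) (W s))) A := by
  refine continuousOn_of_eval (t := max 0 C) (le_max_left _ _) (fun s hs => ?_) fun u => ?_
  · exact PP_mono ((hC s hs).trans (le_max_right _ _)) (P_subset_PP (mo_cj_mem_P (hQL s hs)
      (hw s hs).1 (h0 s hs) (hm0 s hs) (eq_left (hw s hs) le_rfl) (eq_right (hw s hs) le_rfl)
      (hq s hs)))
  · refine ContinuousOn.congr (f := fun s => cj (m s) (τ s) (Q s) (W s) u) ?_ fun s hs => ?_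
    · exact continuousOn_cj u hm hτ hQ (fun φ hφ => continuousOn_eval hW hφ) h0
        (fun s hs => eq_left (hw s hs) le_rfl) fun s hs => eq_right (hw s hs) le_rfl
    · exact (lip_cj (hQL s hs) (hw s hs).1 (h0 s hs) (eq_left (hw s hs) le_rfl)
        (eq_right (hw s hs) le_rfl)).mo_apply u

/-! ### Retracts of families -/

section SpRetr

variable {E E' : Type} [PseudoMetricSpace E] [PseudoMetricSpace E']

/-- `A` is a retract of `B` with shift `c`, up to homotopy. -/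
structure SpRetr (A : ℝ → Set E) (B : ℝ → Set E') (c : ℝ) where
  f : ℝ → E → E'
  g : ℝ → E' → E
  f_map : ∀ t, 0 < t → IsMap (tr E) (tr E') (A t) (B (t + c)) (f t)
  g_map : ∀ t, 0 < t → IsMap (tr E') (tr E) (B t) (A (t + c)) (g t)
  f_nat : ∀ s t, 0 < s → s ≤ t → Hp (A s) ∅ (B (t + c)) ∅ (f s) (f t)
  g_nat : ∀ s t, 0 < s → s ≤ t → Hp (B s) ∅ (A (t + c)) ∅ (g s) (g t)
  gf : ∀ t, 0 < t → Hp (A t) ∅ (A (t + c + c)) ∅ id (g (t + c) ∘ f t)

/-- from a full interleaving -/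
def SpRetr.ofIntl {A : ℝ → Set E} {B : ℝ → Set E'} {c : ℝ}
    (S : SpIntl A (fun _ => ∅) B (fun _ => ∅) c) : SpRetr A B c where
  f := S.f
  g := S.g
  f_map := S.f_map
  g_map := S.g_map
  f_nat := S.f_nat
  g_nat := S.g_nat
  gf := S.gf

namespace SpRetr

variable {A : ℝ → Set E} {B : ℝ → Set E'} {c : ℝ} (S : SpRetr A B c)

theorem map_f (hB : MonoP B) (hc : 0 ≤ c) {s t : ℝ} (hs : 0 < s) (h : s + c ≤ t) :
    IsMap (tr E) (tr E') (A s) (B t) (S.f s) :=
  H901.IsMap.toSub (S.f_map s hs) (hB _ _ (by linarith) h)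

theorem map_g (hA : MonoP A) (hc : 0 ≤ c) {s t : ℝ} (hs : 0 < s) (h : s + c ≤ t) :
    IsMap (tr E') (tr E) (B s) (A t) (S.g s) :=
  H901.IsMap.toSub (S.g_map s hs) (hA _ _ (by linarith) h)

/-- the pullback along `f` -/
noncomputable def pf (k : Type) [Field k] (hB : MonoP B) (hc : 0 ≤ c) (q : ℕ) (s t : ℝ)
    (hs : 0 < s) (h : s + c ≤ t) :
    Hr (tr E') (on k) (B t) ∅ q →ₗ[k] Hr (tr E) (on k) (A s) ∅ q :=
  pullR (on k) (S.map_f hB hc hs h) (empty_subset _) (mapsTo_empty _ _) q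

/-- the pullback along `g` -/
noncomputable def pg (k : Type) [Field k] (hA : MonoP A) (hc : 0 ≤ c) (q : ℕ) (s t : ℝ)
    (hs : 0 < s) (h : s + c ≤ t) :
    Hr (tr E) (on k) (A t) ∅ q →ₗ[k] Hr (tr E') (on k) (B s) ∅ q :=
  pullR (on k) (S.map_g hA hc hs h) (empty_subset _) (mapsTo_empty _ _) q

theorem pg_nat {k : Type} [Field k] (hA : MonoP A) (hB : MonoP B) (hc : 0 ≤ c) (q : ℕ)
    (s t s' t' : ℝ) (hs : 0 < s) (ht : 0 < t) (hs' : 0 < s') (h : s + c ≤ t) (h₁ : s' ≤ s)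
    (h₂ : t ≤ t') (h₃ : s' + c ≤ t') (x : Hr (tr E) (on k) (A t') ∅ q) :
    (resR (hB s' s hs' h₁) (subset_refl ∅) q : _ →ₗ[k] _) (S.pg k hA hc q s t hs h
      (resR (hA t t' ht h₂) (subset_refl ∅) q x)) = S.pg k hA hc q s' t' hs' h₃ x := by
  have hmap : IsMap (tr E') (tr E) (B s') (A t') (S.g s) :=
    (S.map_g hA hc hs (h.trans h₂)).mono (hB s' s hs' h₁)
      fun x hx => hA _ _ (by linarith) (h.trans h₂) ((S.g_map s hs).mapsX (hB s' s hs' h₁ hx))
  have e1 : (resR (hB s' s hs' h₁) (subset_refl ∅) q : _ →ₗ[k] _) (S.pg k hA hc q s t hs h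
      (resR (hA t t' ht h₂) (subset_refl ∅) q x)) =
      (pullR (on k) hmap (empty_subset _) (mapsTo_empty _ _) q :
        Hr (tr E) (on k) (A t') ∅ q →ₗ[k] Hr (tr E') (on k) (B s') ∅ q) x := by
    obtain ⟨y, hy, rfl⟩ := H.exists_mk x
    rfl
  rw [e1]
  have H := (S.g_nat s' s hs' h₁).mono le_rfl le_rfl (hA _ _ (by linarith) (h.trans h₂))
    (subset_refl ∅)
  exact (LinearMap.congr_fun (H.pullR_eq (k := k) (empty_subset _) (S.map_g hA hc hs' h₃)
    (mapsTo_empty _ _) hmap (mapsTo_empty _ _) q) x).symm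

theorem pf_nat {k : Type} [Field k] (hA : MonoP A) (hB : MonoP B) (hc : 0 ≤ c) (q : ℕ)
    (s t s' t' : ℝ) (hs : 0 < s) (ht : 0 < t) (hs' : 0 < s') (h : s + c ≤ t) (h₁ : s' ≤ s)
    (h₂ : t ≤ t') (h₃ : s' + c ≤ t') (x : Hr (tr E') (on k) (B t') ∅ q) :
    (resR (hA s' s hs' h₁) (subset_refl ∅) q : _ →ₗ[k] _) (S.pf k hB hc q s t hs h
      (resR (hB t t' ht h₂) (subset_refl ∅) q x)) = S.pf k hB hc q s' t' hs' h₃ x := by
  have hmap : IsMap (tr E) (tr E') (A s') (B t') (S.f s) :=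
    (S.map_f hB hc hs (h.trans h₂)).mono (hA s' s hs' h₁)
      fun x hx => hB _ _ (by linarith) (h.trans h₂) ((S.f_map s hs).mapsX (hA s' s hs' h₁ hx))
  have e1 : (resR (hA s' s hs' h₁) (subset_refl ∅) q : _ →ₗ[k] _) (S.pf k hB hc q s t hs h
      (resR (hB t t' ht h₂) (subset_refl ∅) q x)) =
      (pullR (on k) hmap (empty_subset _) (mapsTo_empty _ _) q :
        Hr (tr E') (on k) (B t') ∅ q →ₗ[k] Hr (tr E) (on k) (A s') ∅ q) x := by
    obtain ⟨y, hy, rfl⟩ := H.exists_mk x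
    rfl
  rw [e1]
  have H := (S.f_nat s' s hs' h₁).mono le_rfl le_rfl (hB _ _ (by linarith) (h.trans h₂))
    (subset_refl ∅)
  exact (LinearMap.congr_fun (H.pullR_eq (k := k) (empty_subset _) (S.map_f hB hc hs' h₃)
    (mapsTo_empty _ _) hmap (mapsTo_empty _ _) q) x).symm

theorem pf_pg {k : Type} [Field k] (hA : MonoP A) (hB : MonoP B) (hc : 0 ≤ c) (q : ℕ)
    (r s t : ℝ) (hr : 0 < r) (hs : 0 < s) (h₁ : r + c ≤ s) (h₂ : s + c ≤ t) (h₃ : r ≤ t)
    (x : Hr (tr E) (on k) (A t) ∅ q) :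
    S.pf k hB hc q r s hr h₁ (S.pg k hA hc q s t hs h₂ x) =
      (resR (hA r t hr h₃) (subset_refl ∅) q : _ →ₗ[k] _) x := by
  have m1 := S.map_f hB hc hr h₁
  have m2 := S.map_g hA hc hs h₂
  have e1 : S.pf k hB hc q r s hr h₁ (S.pg k hA hc q s t hs h₂ x) =
      (pullR (on k) (m2.comp m1) (empty_subset _) (mapsTo_empty _ _) q :
        Hr (tr E) (on k) (A t) ∅ q →ₗ[k] Hr (tr E) (on k) (A r) ∅ q) x := by
    obtain ⟨y, hy, rfl⟩ := H.exists_mk x
    rfl
  rw [e1]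
  have mid : IsMap (tr E) (tr E) (A r) (A t) id := IsMap.id_of_subset (hA r t hr h₃)
  have m3 : IsMap (tr E) (tr E) (A r) (A t) (S.g (r + c) ∘ S.f r) :=
    (S.map_g hA hc (by linarith) (by linarith)).comp (S.f_map r hr)
  have H1 : Hp (A r) ∅ (A t) ∅ id (S.g (r + c) ∘ S.f r) :=
    (S.gf r hr).mono le_rfl le_rfl (hA _ _ (by linarith) (by linarith)) le_rfl
  have H2 : Hp (A r) ∅ (A t) ∅ (S.g (r + c) ∘ S.f r) (S.g s ∘ S.f r) :=
    ((S.g_nat (r + c) s (by linarith) h₁).comp_right (S.f_map r hr) (mapsTo_empty _ _)).mono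
      le_rfl le_rfl (hA _ _ (by linarith) h₂) le_rfl
  have e2 := LinearMap.congr_fun (H1.pullR_eq (k := k) (empty_subset _) mid (mapsTo_empty _ _) m3
    (mapsTo_empty _ _) q) x
  have e3 := LinearMap.congr_fun (H2.pullR_eq (k := k) (empty_subset _) m3 (mapsTo_empty _ _)
    (m2.comp m1) (mapsTo_empty _ _) q) x
  rw [e3] at e2
  exact e2.symm

/-- **The cohomology of a retract.** -/
noncomputable def retr (k : Type) [Field k] (hA : MonoP A) (hB : MonoP B) (hc : 0 ≤ c) (q : ℕ) :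
    Retr (pmX k hA q) (pmX k hB q) c where
  f s t hs h := S.pg k hA hc q s t hs h
  g s t hs h := S.pf k hB hc q s t hs h
  f_nat s t s' t' hs ht hs' h h₁ h₂ h₃ x := S.pg_nat hA hB hc q s t s' t' hs ht hs' h h₁ h₂ h₃ x
  g_nat s t s' t' hs ht hs' h h₁ h₂ h₃ x := S.pf_nat hA hB hc q s t s' t' hs ht hs' h h₁ h₂ h₃ x
  gf r s t hr hs h₁ h₂ h₃ x := S.pf_pg hA hB hc q r s t hr hs h₁ h₂ h₃ x

end SpRetr

end SpRetr

theorem SpRetr.linF {E E' : Type} [MetricSpace E] [MetricSpace E'] {A : ℝ → Set E}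
    {B : ℝ → Set E'} {c : ℝ} (S : SpRetr A B c) {k : Type} [Field k] {hA : MonoP A} {hB : MonoP B}
    {a C : ℝ} (hc : 0 ≤ c) (ha : 0 ≤ a) (hC : 0 < C) (h : LinF k B hB a C) :
    LinF k A hA a (C + 2 * c) := fun q =>
  (S.retr k hA hB hc q).step hc (by positivity) hC (h q)

/-! ### The free loops as a retract of a pulled back family -/

section Dom

variable {Y M : Type} [MetricSpace Y] [MetricSpace M] [CompactSpace M] {K : Set Y} {f : Y → M}
  {g : M → Y} {ℓ t : ℝ} {T : M → ℝ → M}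

omit [MetricSpace Y] in
theorem mem_XY_of_P {y : Y} {w : ℝ →ᵇ M} (hy : y ∈ K) (hw : w ∈ P (f y) (f y) t) :
    (y, w) ∈ XY f t K := ⟨hy, P_subset_FL hw, eq_left hw le_rfl⟩

omit [CompactSpace M] in
theorem P_of_FL {w : ℝ →ᵇ M} (hw : w ∈ FL M t) : w ∈ P (w 0) (w 0) t := hw

theorem monoP_XY (f : Y → M) (L : Set Y) : MonoP fun t => XY f t L := fun _ _ _ h =>
  XY_mono h subset_rfl

/-- compactness, also for negative times -/
theorem isCompact_FLa (M : Type) [MetricSpace M] [CompactSpace M] (t : ℝ) : IsCompact (FL M t) := by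
  rcases le_total 0 t with ht | ht
  · exact MV337.isCompact_FL ht
  · have e : FL M t = FL M 0 := by
      ext w
      refine ⟨fun h => FL_mono ht h, ?_⟩
      rintro ⟨h1, h2, h3⟩
      refine ⟨h1, h2, fun u hu => ?_⟩
      rcases le_total u 0 with h | h
      · exact h2 u h
      · exact h3 u h
    rw [e]
    exact MV337.isCompact_FL le_rfl

theorem monoP_FL : MonoP fun t => FL M t := fun _ _ _ h => FL_mono h

/-- **`FL M` is a retract of `XY f · K`.** -/
noncomputable def domRetr (hK : ∀ t, 0 < t → IsCompact (XY f t K)) (hgc : Continuous g)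
    (hg : ∀ x, g x ∈ K) (h : Tk (univ : Set M) id (fun x => f (g x)) ℓ T) :
    SpRetr (fun t => FL M t) (fun t => XY f t K) (2 * ℓ) where
  f t w := (g (w 0), mo (cj ℓ t (T (w 0)) w))
  g t q := q.2
  f_map t ht := by
    have h0 : ∀ x, T x 0 = x := fun x => h.left x trivial 0 le_rfl
    refine map_of_cont (isCompact_FLa M t) ?_ fun w hw => ?_
    · refine ((hgc.comp_continuousOn (continuousOn_eval continuousOn_id continuousOn_const))).prodMk ?_
      refine continuousOn_conj (C := t + 2 * ℓ) (fun φ hφ => ?_) (fun w _ => h.lip _ trivial)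
        continuousOn_id continuousOn_const continuousOn_const (fun _ _ => h.nonneg)
        (fun _ _ => ht.le) (fun _ _ => le_rfl) (fun w hw => ?_) fun w _ u hu => ?_
      · exact h.cont' (continuousOn_eval continuousOn_id continuousOn_const) (fun _ _ => trivial) hφ
      · rw [h0]; exact P_of_FL hw
      · rw [h.right _ trivial u hu, h.right _ trivial ℓ le_rfl]
    · refine mem_XY_of_P (hg _) (mo_cj_mem_P (h.lip _ trivial) hw.1 ht.le h.nonneg ?_ ?_
        (h.right _ trivial))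
      · rw [h0]
      · rw [h0]; exact hw.2.2 t le_rfl
  g_map t ht := by
    have hn := h.nonneg
    exact map_of_cont (hK t ht) continuousOn_snd fun q hq => FL_mono (by linarith) hq.2.1
  f_nat s t hs hst := by
    have h0 : ∀ x, T x 0 = x := fun x => h.left x trivial 0 le_rfl
    have hn := h.nonneg
    refine hp_of_cont (isCompact_FLa M s)
      (F := fun p : ℝ × (ℝ →ᵇ M) => (g (p.2 0), mo (cj ℓ (s + p.1 * (t - s)) (T (p.2 0)) p.2)))
      ?_ ?_ ?_ ?_ ?_
    · refine ((hgc.comp_continuousOn (continuousOn_eval continuousOn_snd continuousOn_const))).prodMk ?_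
      refine continuousOn_conj (C := t + 2 * ℓ) (fun φ hφ => ?_) (fun w _ => h.lip _ trivial)
        continuousOn_snd continuousOn_const (by fun_prop) (fun _ _ => h.nonneg)
        (fun p hp => ?_) (fun p hp => ?_) (fun p hp => ?_) fun p _ u hu => ?_
      · exact h.cont' (continuousOn_eval continuousOn_snd continuousOn_const) (fun _ _ => trivial) hφ
      · exact hs.le.trans (tm_aux hst hp.1).1
      · linarith [(tm_aux hst hp.1).2]
      · rw [h0]; exact P_of_FL (FL_mono (tm_aux hst hp.1).1 hp.2)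
      · rw [h.right _ trivial u hu, h.right _ trivial ℓ le_rfl]
    · intro σ hσ w hw
      refine mem_XY_of_P (hg _) (P_mono (t := s + σ * (t - s) + 2 * ℓ)
        (by linarith [(tm_aux hst hσ).2]) (mo_cj_mem_P (h.lip _ trivial) hw.1
          (hs.le.trans (tm_aux hst hσ).1) h.nonneg ?_ ?_ (h.right _ trivial)))
      · rw [h0]
      · rw [h0]; exact hw.2.2 _ (tm_aux hst hσ).1
    · intro σ hσ w hw
      exact hw.elim
    · intro w hw
      show (g (w 0), mo (cj ℓ (s + 0 * (t - s)) (T (w 0)) w)) = _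
      rw [zero_mul, add_zero]
    · intro w hw
      show (g (w 0), mo (cj ℓ (s + 1 * (t - s)) (T (w 0)) w)) = _
      rw [one_mul, add_sub_cancel]
  g_nat s t hs hst := by
    have hn := h.nonneg
    refine hp_of_cont (hK s hs) (F := fun p : ℝ × (Y × (ℝ →ᵇ M)) => p.2.2) (by fun_prop) ?_ ?_ ?_ ?_
    · intro σ _ q hq
      exact FL_mono (by linarith) hq.2.1
    · intro σ _ w hw
      exact hw.elim
    · intro w _; rfl
    · intro w _; rfl
  gf t ht := by
    have hn := h.nonneg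
    have h0 : ∀ x, ∀ u ≤ 0, T x u = x := fun x => h.left x trivial
    have hmin : ∀ σ ∈ Icc (0:ℝ) 1, 0 ≤ σ * ℓ ∧ σ * ℓ ≤ ℓ := fun σ hσ =>
      ⟨mul_nonneg hσ.1 hn, by nlinarith [hσ.2]⟩
    have hL : ∀ (x : M) (c : ℝ), Lip fun u => T x (min u c) := fun x c =>
      (h.lip x trivial).comp fun u v => by
        refine (abs_min_sub_min_le_max _ _ _ _).trans (max_le le_rfl ?_)
        simp
    have hT0 : ∀ (x : M) {c : ℝ}, 0 ≤ c → T x (min 0 c) = x := fun x c hc => by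
      rw [min_eq_left hc, h0 x 0 le_rfl]
    have hmem : ∀ σ ∈ Icc (0:ℝ) 1, ∀ w ∈ FL M t,
        mo (cj (σ * ℓ) t (fun u => T (w 0) (min u (σ * ℓ))) w) ∈ FL M (t + 2 * ℓ + 2 * ℓ) := by
      intro σ hσ w hw
      obtain ⟨h1, h2⟩ := hmin σ hσ
      refine FL_mono (t := t + 2 * (σ * ℓ)) (by linarith) (mo_cj_mem (a := T (w 0) (σ * ℓ))
        (hL _ _) hw.1 ht.le h1 ?_ ?_ fun u hu => ?_)
      · exact (hT0 _ h1).symm
      · rw [hT0 _ h1]; exact hw.2.2 t le_rfl
      · rw [min_eq_right hu]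
    refine hp_of_cont (isCompact_FLa M t) (F := fun p : ℝ × (ℝ →ᵇ M) =>
      mo (cj (p.1 * ℓ) t (fun u => T (p.2 0) (min u (p.1 * ℓ))) p.2)) ?_ ?_ ?_ ?_ ?_
    · refine continuousOn_conj (C := t + 2 * ℓ) (fun φ hφ => ?_) (fun p _ => hL _ _)
        continuousOn_snd (by fun_prop) continuousOn_const (fun p hp => (hmin _ hp.1).1)
        (fun _ _ => ht.le) (fun p hp => by linarith [(hmin _ hp.1).2]) (fun p hp => ?_)
        fun p _ u hu => ?_
      · exact h.cont' (continuousOn_eval continuousOn_snd continuousOn_const) (fun _ _ => trivial)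
          (hφ.inf (continuousOn_fst.mul continuousOn_const))
      · show p.2 ∈ P (T (p.2 0) (min 0 (p.1 * ℓ))) (T (p.2 0) (min 0 (p.1 * ℓ))) t
        rw [hT0 _ (hmin _ hp.1).1]; exact P_of_FL hp.2
      · show T (p.2 0) (min u (p.1 * ℓ)) = T (p.2 0) (min (p.1 * ℓ) (p.1 * ℓ))
        rw [min_eq_right hu, min_self]
    · intro σ hσ w hw
      exact hmem σ hσ w hw
    · intro σ hσ w hw
      exact hw.elim
    · intro w hw
      show mo (cj (0 * ℓ) t (fun u => T (w 0) (min u (0 * ℓ))) w) = w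
      rw [zero_mul]
      have e : (fun u => T (w 0) (min u 0)) = fun _ => w 0 := by
        funext u
        exact h0 _ _ (min_le_right _ _)
      rw [e]
      have e2 : cj 0 t (fun _ => w 0) w = fun u => w u := by
        funext u
        rw [cj_const w (w 0) ht.le hw.2.1 hw.2.2, sub_zero]
      rw [e2, mo_self]
    · intro w hw
      show mo (cj (1 * ℓ) t (fun u => T (w 0) (min u (1 * ℓ))) w) = mo (cj ℓ t (T (w 0)) w)
      rw [one_mul]
      have e : (fun u => T (w 0) (min u ℓ)) = T (w 0) := by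
        funext u
        rcases le_total u ℓ with hu | hu
        · rw [min_eq_left hu]
        · rw [min_eq_right hu, h.right _ trivial u hu, h.right _ trivial ℓ le_rfl]
      rw [e]

end Dom

/-! ### Contractible pieces -/

section Con

variable {Y E : Type} [MetricSpace Y] [MetricSpace E] {L : Set Y} {Om : ℝ → Set E} {y₀ : Y}
  {K : Y × ℝ → Y}

/-- `L × Om t ~ Om t` for `L` contractible in itself. -/
def conIntl (hL : IsCompact L) (hO : ∀ t, 0 < t → IsCompact (Om t)) (mO : MonoP Om)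
    (hy : y₀ ∈ L) (hK : ContinuousOn K (L ×ˢ Icc (0:ℝ) 1))
    (hKm : ∀ x ∈ L, ∀ s ∈ Icc (0:ℝ) 1, K (x, s) ∈ L) (hK0 : ∀ x ∈ L, K (x, 0) = x)
    (hK1 : ∀ x ∈ L, K (x, 1) = y₀) :
    SpIntl (fun t => L ×ˢ Om t) (fun _ => ∅) Om (fun _ => ∅) 0 where
  f t p := p.2
  g t v := (y₀, v)
  f_map t ht := map_of_cont (hL.prod (hO t ht)) continuousOn_snd fun p hp =>
    mO t (t + 0) ht (by linarith) hp.2
  f_sub _ _ := mapsTo_empty _ _
  g_map t ht := map_of_cont (hO t ht) (by fun_prop) fun v hv =>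
    ⟨hy, mO t (t + 0) ht (by linarith) hv⟩
  g_sub _ _ := mapsTo_empty _ _
  f_nat s t hs hst := hp_of_cont (hL.prod (hO s hs)) (F := fun p : ℝ × (Y × E) => p.2.2)
    (by fun_prop) (fun _ _ p hp => mO s (t + 0) hs (by linarith) hp.2) (fun _ _ p hp => hp.elim)
    (fun _ _ => rfl) fun _ _ => rfl
  g_nat s t hs hst := by
    refine hp_of_cont (hO s hs) (F := fun p : ℝ × E => (y₀, p.2)) (by fun_prop) ?_ ?_ ?_ ?_
    · exact fun _ _ p hp => ⟨hy, mO s (t + 0) hs (by linarith) hp⟩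
    · exact fun _ _ p hp => hp.elim
    · exact fun _ _ => rfl
    · exact fun _ _ => rfl
  gf t ht := by
    refine hp_of_cont (hL.prod (hO t ht)) (F := fun p : ℝ × (Y × E) => (K (p.2.1, p.1), p.2.2))
      ?_ ?_ ?_ ?_ ?_
    · refine ContinuousOn.prodMk ?_ (by fun_prop)
      exact ContinuousOn.comp (g := K) (t := L ×ˢ Icc (0:ℝ) 1)
        (f := fun p : ℝ × (Y × E) => ((p.2.1, p.1) : Y × ℝ)) hK (by fun_prop)
        fun p hp => ⟨hp.2.1, hp.1⟩
    · exact fun s hs p hp => ⟨hKm _ hp.1 s hs, mO t (t + 0 + 0) ht (by linarith) hp.2⟩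
    · exact fun s hs p hp => hp.elim
    · exact fun p hp => Prod.ext (hK0 _ hp.1) rfl
    · exact fun p hp => Prod.ext (hK1 _ hp.1) rfl
  fg t ht := hp_of_cont (hO t ht) (F := fun p : ℝ × E => p.2) (by fun_prop)
    (fun _ _ p hp => mO t (t + 0 + 0) ht (by linarith) hp) (fun _ _ p hp => hp.elim)
    (fun _ _ => rfl) fun _ _ => rfl

end Con

end Vale.Agent.P216.H550
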