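import Vale.Agent.P216.H550.GenD

/-!
# P216-D, block GEN: from statements at single levels to compatible families
-/

set_option linter.all false

namespace Vale.Agent.P216.H550

open Vale.Agent.P216.H901

variable {k : Type} [Field k]

/-- Any two classes are dependent after the restriction by `C`. -/
def Rk1 (A : PM k) (C : ℝ) : Prop := ∀ t (ht : 0 < t) (h : t ≤ t + C) (x y : A.V (t + C)),
  ∃ a b : k, (a ≠ 0 ∨ b ≠ 0) ∧ a • A.ρ t (t + C) ht h x + b • A.ρ t (t + C) ht h y = 0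

/-- An ephemeral module has no families. -/
theorem fam_zero_of_eph {A : PM k} {C : ℝ} (hC : 0 ≤ C) (h : A.Eph C) (o : A.Fam) (t : ℝ)
    (ht : 0 < t) : o.z t ht = 0 := by
  rw [← o.comp t (t + C) ht (by linarith)]
  exact h t (t + C) ht (by linarith) le_rfl _

/-- Rank one at single levels gives rank one for the families. -/
theorem fam_line_of_rk1 {A : PM k} {C : ℝ} (hC : 0 ≤ C) (h : Rk1 A C) (o o' : A.Fam) :
    ∃ a b : k, (a ≠ 0 ∨ b ≠ 0) ∧ ∀ t (ht : 0 < t), a • o.z t ht + b • o'.z t ht = 0 := by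
  classical
  have lev : ∀ t (ht : 0 < t), ∃ a b : k, (a ≠ 0 ∨ b ≠ 0) ∧ a • o.z t ht + b • o'.z t ht = 0 := by
    intro t ht
    obtain ⟨a, b, hab, e⟩ := h t ht (by linarith) (o.z (t + C) (by linarith))
      (o'.z (t + C) (by linarith))
    rw [o.comp, o'.comp] at e
    exact ⟨a, b, hab, e⟩
  by_cases h0 : ∃ (t : ℝ) (ht : 0 < t), o.z t ht ≠ 0
  · obtain ⟨t₀, ht₀, h1⟩ := h0
    -- `o'.z t = c • o.z t` for `t ≥ t₀`, with the same `c`
    have key : ∀ t (ht : 0 < t), t₀ ≤ t → ∃ c : k, o'.z t ht = c • o.z t ht := by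
      intro t ht htt
      obtain ⟨a, b, hab, e⟩ := lev t ht
      have hb : b ≠ 0 := by
        rintro rfl
        have ha : a ≠ 0 := hab.resolve_right fun h => h rfl
        rw [zero_smul, add_zero] at e
        have e2 := (smul_eq_zero.1 e).resolve_left ha
        apply h1
        rw [← o.comp t₀ t ht₀ htt, e2, map_zero]
      refine ⟨-(b⁻¹ * a), ?_⟩
      have h3 : b • o'.z t ht = -(a • o.z t ht) := eq_neg_of_add_eq_zero_right e
      calc o'.z t ht = b⁻¹ • (b • o'.z t ht) := by rw [smul_smul, inv_mul_cancel₀ hb, one_smul]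
        _ = _ := by rw [h3, smul_neg, smul_smul, neg_smul]
    obtain ⟨c₀, hc₀⟩ := key t₀ ht₀ le_rfl
    refine ⟨c₀, -1, Or.inr (neg_ne_zero.2 one_ne_zero), fun t ht => ?_⟩
    have hm : 0 < max t t₀ := ht.trans_le (le_max_left _ _)
    obtain ⟨c, hc⟩ := key (max t t₀) hm (le_max_right _ _)
    have e1 : o'.z t₀ ht₀ = c • o.z t₀ ht₀ := by
      rw [← o'.comp t₀ (max t t₀) ht₀ (le_max_right _ _), hc, map_smul,
        o.comp t₀ (max t t₀) ht₀ (le_max_right _ _)]
    have e2 : c = c₀ := by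
      rw [hc₀] at e1
      have e3 : (c₀ - c) • o.z t₀ ht₀ = 0 := by rw [sub_smul, e1, sub_self]
      exact (sub_eq_zero.1 ((smul_eq_zero.1 e3).resolve_right h1)).symm
    have e4 : o'.z t ht = c • o.z t ht := by
      rw [← o'.comp t (max t t₀) ht (le_max_left _ _), hc, map_smul,
        o.comp t (max t t₀) ht (le_max_left _ _)]
    rw [e4, e2, neg_smul, one_smul, add_neg_cancel]
  · refine ⟨1, 0, Or.inl one_ne_zero, fun t ht => ?_⟩
    rw [zero_smul, add_zero, one_smul]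
    by_contra h1
    exact h0 ⟨t, ht, h1⟩

/-- **Extension**: `A` a step module, `G` a step module, `r : A → G`; if the values of the family
`α` of `G` are in the image of `r` at some large level, then `α` is the image of a family. -/
theorem fam_lift {A G : PM k} {T T' C C' : ℝ} (hA : A.Step T C) (hG : G.Step T' C') (hT : 0 ≤ T)
    (hC : 0 < C) (hC' : 0 ≤ C') (r : ∀ t, 0 < t → A.V t →ₗ[k] G.V t)
    (rn : ∀ s t (hs : 0 < s) (ht : 0 < t) (h : s ≤ t) x,
      G.ρ s t hs h (r t ht x) = r s hs (A.ρ s t hs h x)) (α : G.Fam)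
    (hα : ∀ t (ht : 0 < t), T + 2 * C ≤ t → T' + C' + C ≤ t → ∃ x, r t ht x = α.z t ht) :
    ∃ o : A.Fam, ∀ t (ht : 0 < t), r t ht (o.z t ht) = α.z t ht := by
  set s := max (T + C) (T' + C') with hs
  have hs1 : T + C ≤ s := le_max_left _ _
  have hs2 : T' + C' ≤ s := le_max_right _ _
  have s0 : 0 < s := by linarith
  have t0 : 0 < s + C := by linarith
  obtain ⟨x, hx⟩ := hα (s + C) t0 (by linarith) (by linarith)
  obtain ⟨o, ho⟩ := hA.exists_fam hT hC s0 (by linarith) hs1 le_rfl x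
  refine ⟨o, fun t ht => ?_⟩
  let β : G.Fam := ⟨fun t ht => r t ht (o.z t ht) - α.z t ht, fun u v hu h => by
    have hv : 0 < v := hu.trans_le h
    rw [map_sub, rn u v hu hv h, o.comp, α.comp]⟩
  have e1 : β.z s s0 = 0 := by
    show r s s0 (o.z s s0) - α.z s s0 = 0
    rw [ho, ← rn s (s + C) s0 t0, hx, α.comp, sub_self]
  have e2 := hG.fam_zero hC' β s0 hs2 e1 t ht
  exact sub_eq_zero.1 e2

/-- **Extension, single level**: only the non-vanishing. -/
theorem fam_ne_of_lift {A G : PM k} {T C : ℝ} (hA : A.Step T C) (hT : 0 ≤ T) (hC : 0 < C)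
    (r : ∀ t, 0 < t → A.V t →ₗ[k] G.V t)
    (rn : ∀ s t (hs : 0 < s) (ht : 0 < t) (h : s ≤ t) x,
      G.ρ s t hs h (r t ht x) = r s hs (A.ρ s t hs h x)) (α : G.Fam) {s : ℝ} (hs : 0 < s)
    (hTs : T + C ≤ s) (hne : α.z s hs ≠ 0)
    (hα : ∀ (ht : 0 < s + C), ∃ x, r (s + C) ht x = α.z (s + C) ht) :
    ∃ (o : A.Fam) (t : ℝ) (ht : 0 < t), o.z t ht ≠ 0 := by
  have t0 : 0 < s + C := by linarith
  obtain ⟨x, hx⟩ := hα t0
  obtain ⟨o, ho⟩ := hA.exists_fam hT hC hs (by linarith) hTs le_rfl x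
  refine ⟨o, s, hs, fun h0 => hne ?_⟩
  have e : r s hs (o.z s hs) = α.z s hs := by
    rw [ho, ← rn s (s + C) hs t0, hx, α.comp]
  rw [← e, h0, map_zero]

end Vale.Agent.P216.H550
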