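import Vale.Agent.P216.H550.OmWall

/-!
# P216-C: the generator of a step module of rank one
-/

set_option linter.all false

namespace Vale.Agent.P216.H901

variable {k : Type} [Field k]

namespace PM

variable {A : PM k} {T C : ℝ}

/-- Two stable classes are dependent. -/
def Rk (A : PM k) (C : ℝ) : Prop := ∀ s t (hs : 0 < s) (h : s ≤ t), s + C ≤ t → ∀ x y : A.V t,
  ∃ a b : k, (a ≠ 0 ∨ b ≠ 0) ∧ a • A.ρ s t hs h x + b • A.ρ s t hs h y = 0

theorem Rk.mono {C' : ℝ} (h : A.Rk C) (hC : C ≤ C') : A.Rk C' := fun s t hs hst h1 x y =>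
  h s t hs hst (by linarith) x y

theorem Eph.fam_zero {B : ℝ} (h : A.Eph B) (hB : 0 ≤ B) (o : A.Fam) (s : ℝ) (hs : 0 < s) :
    o.z s hs = 0 := by
  rw [← o.comp s (s + B) hs (by linarith)]
  exact h s (s + B) hs _ le_rfl _

/-- **The generator.** A step module of rank one is spanned by one compatible family `o`; it is not
zero above the wall as soon as there is some non-zero stable class. -/
theorem Step.exists_line (h : A.Step T C) (hT : 0 ≤ T) (hC : 0 < C) (hr : A.Rk C) :
    ∃ o : A.Fam, A.Line o (3 * C) ∧ (∀ s (hs : 0 < s), s + C ≤ T → o.z s hs = 0) ∧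
      ∀ s t (hs : 0 < s) (hst : s ≤ t) (x : A.V t), s + 3 * C ≤ t → A.ρ s t hs hst x ≠ 0 →
        ∀ r (hr : 0 < r), T + C ≤ r → o.z r hr ≠ 0 := by
  classical
  have p0 : 0 < T + C := by linarith
  by_cases hE : ∃ (t : ℝ) (ht : T + C ≤ t) (x : A.V t), T + C + C ≤ t ∧ A.ρ (T + C) t p0 ht x ≠ 0
  · obtain ⟨t₀, ht₀, x₀, h1, hx₀⟩ := hE
    obtain ⟨o, ho⟩ := h.exists_fam hT hC p0 ht₀ le_rfl h1 x₀
    have ho0 : o.z (T + C) p0 ≠ 0 := by rw [ho]; exact hx₀
    have hone : ∀ r (hr : 0 < r), T + C ≤ r → o.z r hr ≠ 0 := fun r hr hr1 h0 =>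
      ho0 (h.fam_zero hC.le o hr hr1 h0 _ p0)
    refine ⟨o, ?_, fun s hs h2 => h.fam_low hC.le o hs h2, fun _ _ _ _ _ _ _ => hone⟩
    intro s t hs hst h2 x
    rcases le_total (s + C) T with h3 | h3
    · exact ⟨0, by rw [zero_smul]; exact h.low s t hs hst (by linarith) h3 x⟩
    · -- restrict first to `u = max s (T + C)`
      set u := max s (T + C) with hu
      have u1 : s ≤ u := le_max_left _ _
      have u2 : T + C ≤ u := le_max_right _ _
      have u3 : u + C ≤ t := by
        rcases max_choice s (T + C) with h4 | h4 <;> rw [← hu] at h4 <;> rw [h4] <;> linarith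
      have pu : 0 < u := hs.trans_le u1
      have pt : 0 < t := by linarith
      obtain ⟨a, b, hab, h5⟩ := hr u t pu (by linarith) u3 x (o.z t pt)
      rw [o.comp u t pu] at h5
      have ha : a ≠ 0 := by
        intro ha
        rw [ha, zero_smul, zero_add] at h5
        have hb : b ≠ 0 := hab.resolve_left fun h => h ha
        exact hone u pu u2 ((smul_eq_zero.1 h5).resolve_left hb)
      refine ⟨-(a⁻¹ * b), ?_⟩
      have h6 : A.ρ u t pu (by linarith) x = (-(a⁻¹ * b)) • o.z u pu := by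
        have h7 := congrArg (fun z => a⁻¹ • z) h5
        simp only [smul_add, smul_smul, inv_mul_cancel₀ ha, one_smul, smul_zero] at h7
        rw [neg_smul]
        exact eq_neg_of_add_eq_zero_left h7
      rw [← A.ρ_comp s u t hs pu u1 (by linarith) hst, h6, map_smul, o.comp s u hs u1]
  · push Not at hE
    -- every stable class vanishes
    have hz : ∀ s t (hs : 0 < s) (hst : s ≤ t) (x : A.V t), s + 3 * C ≤ t →
        A.ρ s t hs hst x = 0 := by
      intro s t hs hst x h2
      rcases le_total (s + C) T with h3 | h3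
      · exact h.low s t hs hst (by linarith) h3 x
      · rcases le_total (T + C) s with h4 | h4
        · have h5 := hE t (by linarith) x (by linarith)
          exact h.ker (T + C) s t p0 hs (by linarith) hst le_rfl h4 (by linarith) x h5
        · have h5 := hE t (by linarith) x (by linarith)
          rw [← A.ρ_comp s (T + C) t hs p0 h4 (by linarith) hst, h5, map_zero]
    refine ⟨⟨fun _ _ => 0, fun _ _ _ _ => map_zero _⟩, fun s t hs hst h2 x =>
      ⟨0, by rw [zero_smul]; exact hz s t hs hst x h2⟩, fun _ _ _ => rfl,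
      fun s t hs hst x h2 hx => absurd (hz s t hs hst x h2) hx⟩

/-- A natural operator which acts by `ε` on the stable classes acts by `ε` on the families. -/
theorem fam_sign {B : ℝ} (hB : 0 ≤ B) (R : ∀ t, 0 < t → A.V t →ₗ[k] A.V t)
    (nat : ∀ s t (hs : 0 < s) (ht : 0 < t) (h : s ≤ t) x,
      A.ρ s t hs h (R t ht x) = R s hs (A.ρ s t hs h x)) (ε : k)
    (sg : ∀ s t (hs : 0 < s) (ht : 0 < t) (h : s ≤ t), s + B ≤ t → ∀ x,
      A.ρ s t hs h (R t ht x) = ε • A.ρ s t hs h x) (o : A.Fam) (s : ℝ) (hs : 0 < s) :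
    R s hs (o.z s hs) = ε • o.z s hs := by
  have p : 0 < s + B := by linarith
  have h1 := sg s (s + B) hs p (by linarith) le_rfl (o.z (s + B) p)
  rw [nat _ _ hs p, o.comp s (s + B) hs (by linarith)] at h1
  exact h1

end PM

/-! ### All degrees -/

/-- A rank one condition, or an ephemeral module. -/
theorem PM.Eph.rk {A : PM k} {C : ℝ} (h : A.Eph C) : A.Rk C := fun s t hs hst h1 x y =>
  ⟨1, 0, Or.inl one_ne_zero, by rw [h s t hs hst h1, h s t hs hst h1, smul_zero, smul_zero, add_zero]⟩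

/-- **The generators** of a system of modules of rank at most one, with walls of bounded steps. -/
structure GenOut (X : ℕ → PM k) (e : ℕ → ℕ) (B : ℝ) where
  g : ∀ q, (X q).Fam
  line : ∀ q, (X q).Line (g q) B
  birth0 : ∀ t (ht : 0 < t), B ≤ t → (g (e 0)).z t ht ≠ 0
  birth : ∀ i t (ht : 0 < t) (ht' : 0 < t + B), (g (e i)).z t ht ≠ 0 →
    (g (e (i + 1))).z (t + B) ht' ≠ 0

theorem wall_dist {W : ℕ → ℝ} {a : ℝ} (hW : H550.Wall W a) (q : ℕ) :
    ∀ n : ℕ, |W (q + n) - W q| ≤ n * a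
  | 0 => by simp
  | n + 1 => by
    have h1 := wall_dist hW q n
    have h2 := hW.step (q + n)
    have h3 : W (q + (n + 1)) - W q = (W (q + n + 1) - W (q + n)) + (W (q + n) - W q) := by
      rw [← add_assoc]; ring
    rw [h3]
    refine (abs_add_le _ _).trans ?_
    push_cast
    linarith

theorem wall_dist' {W : ℕ → ℝ} {a : ℝ} (hW : H550.Wall W a) {p q n : ℕ} (h1 : p ≤ q)
    (h2 : q ≤ p + n) : W q ≤ W p + n * a := by
  obtain ⟨m, rfl⟩ := Nat.exists_eq_add_of_le h1
  have h3 := (abs_le.1 (wall_dist hW p m)).2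
  have h4 : (m : ℝ) ≤ n := by exact_mod_cast (by omega : m ≤ n)
  have h5 := mul_le_mul_of_nonneg_right h4 hW.a0
  linarith

/-- the constant of `genOut` -/
def genB (a C W0 : ℝ) (D e0 : ℕ) : ℝ := 3 * C + D * a + (W0 + e0 * a)

/-- **From step modules of rank one to the generators.** `e i` are the degrees in which some stable
class is not zero; `W 0 ≤ W0`. -/
theorem genOut {X : ℕ → PM k} {W : ℕ → ℝ} {a C W0 : ℝ} (hW : H550.Wall W a) (hC : 0 < C)
    (h : ∀ q, (X q).Step (W q) C) (hr : ∀ q, (X q).Rk C) {e : ℕ → ℕ} {D : ℕ}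
    (he : ∀ i, e i ≤ e (i + 1)) (he' : ∀ i, e (i + 1) ≤ e i + D) (hW0 : W 0 ≤ W0)
    (hW00 : 0 ≤ W0)
    (hA : ∀ i, ∃ (s t : ℝ) (hs : 0 < s) (hst : s ≤ t) (x : (X (e i)).V t), s + 3 * C ≤ t ∧
      (X (e i)).ρ s t hs hst x ≠ 0) :
    Nonempty (GenOut X e (genB a C W0 D (e 0))) := by
  have ha := hW.a0
  have hB : 3 * C ≤ genB a C W0 D (e 0) := by
    unfold genB
    have : (0 : ℝ) ≤ D * a := by positivity
    have : (0 : ℝ) ≤ (e 0 : ℝ) * a := by positivity
    linarith
  choose g h1 h2 h3 using fun q => (h q).exists_line (hW.nonneg q) hC (hr q)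
  have hone : ∀ i r (hr : 0 < r), W (e i) + C ≤ r → (g (e i)).z r hr ≠ 0 := by
    intro i r hr hr1
    obtain ⟨s, t, hs, hst, x, h4, h5⟩ := hA i
    exact h3 (e i) s t hs hst x h4 h5 r hr hr1
  refine ⟨⟨g, fun q s t hs hst h4 x => h1 q s t hs hst (by linarith) x, fun t ht h4 => ?_,
    fun i t ht ht' h4 => ?_⟩⟩
  · refine hone 0 t ht ?_
    have h5 := wall_dist' hW (Nat.zero_le (e 0)) (by omega : e 0 ≤ 0 + e 0)
    have : (0 : ℝ) ≤ D * a := by positivity
    unfold genB at h4
    linarith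
  · refine hone (i + 1) _ ht' ?_
    have h5 := wall_dist' hW (he i) (he' i)
    have h6 : ¬ t + C ≤ W (e i) := fun h7 => h4 (h2 (e i) t ht h7)
    have h7 : (0 : ℝ) ≤ (e 0 : ℝ) * a := by positivity
    unfold genB
    linarith [not_le.1 h6]

end Vale.Agent.P216.H901
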