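import Vale.Agent.P216.H894.Slots
import Vale.Agent.P216.H892.CellStep
import Vale.Agent.P216.H550.Final

/-!
# P216-C, C07: the generators of the free loops from the based loops and the cells

`GenC`: the persistence form of `XGenC`.  `genC`: from the classes of the based loops
(`OmSlots`, `SgM`) and the cells (`CellAt`, `CellAt.Op`) to `GenC`.
-/

set_option linter.all false

namespace Vale.Agent.P216.H894

open Vale.Agent.P216.H901 Vale.Agent.P216.H754B

variable {k : Type} [Field k]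

namespace CellAt

variable {G X Y : ℕ → PM k} {n : ℕ} {c C a K : ℝ} {T : ℕ → ℝ} (S : CellAt G X Y n c)

include S in
/-- The relative modules are step modules. -/
theorem rel_step (hc : 0 ≤ c) (hW : H550.Wall T a) (hC : 0 < C)
    (hG : ∀ q, (G q).Step (T q) C) (q : ℕ) : (S.Rel q).Step (T q) (C + 2 * c + a * n) := by
  have h3 : 0 ≤ a * n := mul_nonneg hW.a0 (Nat.cast_nonneg _)
  rcases lt_or_ge q n with h | h
  · exact ((S.low q h).step (T q)).mono' (by linarith)
  · obtain ⟨r, rfl⟩ : ∃ r, q = r + n := ⟨q - n, by omega⟩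
    have h1 := (S.i r).step hc (T := T r) (hW.nonneg r) hC (hG r)
    refine h1.mono ?_
    have := wall_add hW.step r n
    linarith

include S in
/-- One cell. -/
theorem step_cell (hc : 0 ≤ c) (hW : H550.Wall T a) (hC : 0 < C) (hG : ∀ q, (G q).Step (T q) C)
    (hK : 0 < K) (hX : ∀ q, (X q).Step (T q) K) (q : ℕ) :
    (Y q).Step (T q) (3 * (K + (C + 2 * c + a * n) + a)) := by
  have h3 : 0 ≤ a * n := mul_nonneg hW.a0 (Nat.cast_nonneg _)
  have ha := hW.a0
  have hR := S.rel_step hc hW hC hG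
  rcases q with _ | q
  · refine S.e0.step (hW.nonneg 0) (by linarith) (PM.step_of_zero S.N0 _)
      ((hR 0).mono' (by linarith)) ((hX 0).mono' (by linarith)) ((hR 1).mono ?_)
    have := hW.step 0
    rw [abs_sub_comm] at this
    linarith
  · have e1 := hW.step q
    have e2 := hW.step (q + 1)
    rw [abs_sub_comm] at e2
    refine (S.e q).step (hW.nonneg _) (by linarith) ((hX q).mono ?_)
      ((hR (q + 1)).mono' (by linarith)) ((hX (q + 1)).mono' (by linarith))
      ((hR (q + 2)).mono ?_)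
    · linarith
    · linarith

end CellAt

open CellAt

section

variable {G : ℕ → PM k} {X : ℕ → ℕ → PM k} {n : ℕ → ℕ} {c C C₀ : ℝ} {J : ℕ}
  (S : ∀ j, j < J → CellAt G (X j) (X (j + 1)) (n j) c)

include S in
/-- **The step property over the cells.** -/
theorem ladder_step (hc : 0 ≤ c) {T : ℕ → ℝ} {a : ℝ} (hW : H550.Wall T a) (hC : 0 < C)
    (h0 : 0 < C₀) (hG : ∀ q, (G q).Step (T q) C) (hX : ∀ q, (X 0 q).Step (T q) C₀) :
    ∀ j, j ≤ J → ∀ q, (X j q).Step (T q) (CellSys.K a C c n j C₀) := by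
  intro j
  induction j with
  | zero => intro _; exact hX
  | succ j ih =>
    intro hj q
    have hj' : j < J := hj
    exact (S j hj').step_cell hc hW hC hG (CellSys.K_pos hW.a0 hC hc h0 j) (ih hj'.le) q

/-- **The generators** of the free loops, with the operator, the degrees `e i` and the births. -/
structure GenC (X : ℕ → PM k) (O : ∀ q, PMOp (X q)) (σ : ℕ → k) (e : ℕ → ℕ) (B : ℝ) where
  g : ∀ q, (X q).Fam
  line : ∀ q, (X q).Line (g q) B
  sign : ∀ q t (ht : 0 < t), (O q).r t ht ((g q).z t ht) = σ q • (g q).z t ht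
  gap : ∀ i t (ht : 0 < t), (g (e i - 1)).z t ht = 0
  birth0 : ∀ t (ht : 0 < t), B ≤ t → (g (e 0)).z t ht ≠ 0
  birth : ∀ i t (ht : 0 < t) (ht' : 0 < t + B), (g (e i)).z t ht ≠ 0 →
    (g (e (i + 1))).z (t + B) ht' ≠ 0

/-- Transport of `GenC` to isomorphic modules. -/
def GenC.iso {X Y : ℕ → PM k} {OX : ∀ q, PMOp (X q)} {OY : ∀ q, PMOp (Y q)} {σ : ℕ → k}
    {e : ℕ → ℕ} {B : ℝ} (Γ : GenC X OX σ e B) (I : ∀ q, PMIso (Y q) (X q))
    (hI : ∀ q, IsoOp (I q) (OY q) (OX q)) : GenC Y OY σ e B where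
  g q := ⟨fun t ht => ((I q).e t ht).symm ((Γ.g q).z t ht), fun s t hs h => by
    apply ((I q).e s hs).injective
    rw [← (I q).nat s t hs (hs.trans_le h) h, LinearEquiv.apply_symm_apply,
      LinearEquiv.apply_symm_apply, (Γ.g q).comp]⟩
  line q s t hs hst h x := by
    obtain ⟨a, ha⟩ := Γ.line q s t hs hst h ((I q).e t (hs.trans_le hst) x)
    refine ⟨a, ((I q).e s hs).injective ?_⟩
    rw [← (I q).nat s t hs (hs.trans_le hst) hst, ha, map_smul, LinearEquiv.apply_symm_apply]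
  sign q t ht := by
    apply ((I q).e t ht).injective
    rw [hI q t ht, LinearEquiv.apply_symm_apply, map_smul, LinearEquiv.apply_symm_apply, Γ.sign]
  gap i t ht := by
    show ((I _).e t ht).symm _ = 0
    rw [Γ.gap, map_zero]
  birth0 t ht h := by
    show ((I _).e t ht).symm _ ≠ 0
    rw [Ne, LinearEquiv.map_eq_zero_iff]
    exact Γ.birth0 t ht h
  birth i t ht ht' h := by
    show ((I _).e _ ht').symm _ ≠ 0
    rw [Ne, LinearEquiv.map_eq_zero_iff]
    refine Γ.birth i t ht ht' fun h0 => h ?_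
    show ((I _).e t ht).symm _ = 0
    rw [h0, map_zero]

/-- A larger constant. -/
def GenC.mono {X : ℕ → PM k} {OX : ∀ q, PMOp (X q)} {σ : ℕ → k}
    {e : ℕ → ℕ} {B B' : ℝ} (Γ : GenC X OX σ e B) (h0 : 0 ≤ B) (hB : B ≤ B') :
    GenC X OX σ e B' where
  g := Γ.g
  line q := (Γ.line q).mono hB
  sign := Γ.sign
  gap := Γ.gap
  birth0 t ht h := Γ.birth0 t ht (hB.trans h)
  birth i t ht ht' h h0' := by
    refine Γ.birth i t ht (by linarith) h ?_
    rw [← (Γ.g _).comp (t + B) (t + B') (by linarith) (by linarith), h0', map_zero]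

variable {OG : ∀ q, PMOp (G q)} {OX : ∀ j q, PMOp (X j q)}
  (O : ∀ j (hj : j < J), (S j hj).Op OG (OX j) (OX (j + 1)))

/-- the constant -/
noncomputable def genK (n : ℕ → ℕ) (J : ℕ) (c B C : ℝ) : ℝ :=
  3 * CellSys.K (2 * B) (3 * B) c n J (3 * B) + (5 * B + 2 * c + J * (C + 2 * c))

include O in
/-- **From the based loops to the free loops.** -/
theorem genC {D e : ℕ} {B : ℝ} (Om : OmSlots G D e B) (hD : e < D) (hB : 0 < B) (hBC : B ≤ C)
    (hJ : 0 < J) (hc : 0 ≤ c) (hX : ∀ q t, 0 < t → ∀ x : (X 0 q).V t, x = 0) {σ : ℕ → k}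
    (hσ : ∀ q, SgM (G q) (OG q) (σ q) C) (hn : ∀ j < J, ∀ q, σ (q + n j) = σ q) (hn0 : n 0 = 0)
    (hu : ∀ q i j, i < j → j < J → Slot (SGs D e) (n i) q → ¬ Slot (SGs D e) (n j) q)
    (hq : ∀ i j, 0 < j → j < J → ¬ Slot (SGs D e) (n j) (i * D + e))
    (hne : ∀ i, σ (i * D + e) ≠ σ (i * D + e + 1))
    (hgap : ∀ i j, j < J → ¬ Slot (SGs D e) (n j) (i * D + e - 1)) :
    Nonempty (GenC (X J) (OX J) σ (fun i => i * D + e) (genK n J c B C)) := by
  have hC : 0 ≤ C := by linarith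
  have hK : 0 < CellSys.K (2 * B) (3 * B) c n J (3 * B) :=
    CellSys.K_pos (by linarith) (by linarith) hc (by linarith) J
  have hW := Om.wall (by omega) hB.le
  have hst : ∀ q, (X J q).Step (Om.T q) (CellSys.K (2 * B) (3 * B) c n J (3 * B)) :=
    ladder_step S hc hW (by linarith) (by linarith)
      (Om.step hD hB) (fun q => PM.step_of_zero (hX q) _) J le_rfl
  have hG : ∀ q, ¬ SGs D e q → (G q).Eph C := fun q hq' =>
    (Om.zero q (fun i hi => hq' ⟨i, Or.inl hi⟩) fun i hi => hq' ⟨i, Or.inr hi⟩).mono hBC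
  have hX0 : ∀ q, (X 0 q).Eph 0 := fun q s t hs _ _ x => hX q s hs _
  have hsg := fun q => ladder_sg S O hc hC le_rfl hG hX0 hσ hn (hu q) J le_rfl
  have hl : 0 ≤ lc 0 (C + 2 * c) J := lc_nonneg le_rfl (by linarith) J
  choose g hg hg' using fun q => (hsg q).exists_gen_step hl (hW.nonneg q) hK (hst q)
  have hJ0 : 0 ≤ (J : ℝ) * (C + 2 * c) := mul_nonneg (Nat.cast_nonneg _) (by linarith)
  have hbir : ∀ i, (∀ s t hs ht, s + (c + 0) ≤ t → (Om.A i).z s hs ≠ 0 →
      (g (i * D + e)).z t ht ≠ 0) ∧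
      (∀ s t hs ht, s + (J * (C + 2 * c) + c) ≤ t → (g (i * D + e)).z s hs ≠ 0 →
        (Om.A i).z t ht ≠ 0) := by
    intro i
    have key : ∀ q', q' = i * D + e + n 0 → ∀ g' : (X J q').Fam,
        (X J q').Line g' (3 * CellSys.K (2 * B) (3 * B) c n J (3 * B)) →
        (∀ s t hs ht, s + (c + 0) ≤ t → (Om.A i).z s hs ≠ 0 → g'.z t ht ≠ 0) ∧
        (∀ s t hs ht, s + (J * (C + 2 * c) + c) ≤ t → g'.z s hs ≠ 0 →
          (Om.A i).z t ht ≠ 0) := by
      intro q' hq' g' hg''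
      subst hq'
      exact ladder_births S O hJ hc hC le_rfl hG hX0 hσ hn (hu _)
        (by rw [hn0]; exact hq i) (by rw [hn0]; exact hne i) hB.le (by linarith)
        (Om.lineA i) hg''
    exact key _ (by rw [hn0]; rfl) (g _) (hg _)
  refine ⟨⟨g, fun q => (hg q).mono (by unfold genK; linarith), hg', fun i t ht => ?_,
    fun t ht h => ?_, fun i t ht ht' h => ?_⟩⟩
  · exact (ladder_eph S hc hC le_rfl hG hX0 J le_rfl (hgap i)).fam_zero hl _ t ht
  · have p1 : 0 < t - c := by unfold genK at h; linarith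
    refine (hbir 0).1 (t - c) t p1 ht (by linarith) ?_
    have p2 : 0 < t - c - B := by unfold genK at h; linarith
    have p3 : 0 < t - c - B - B := by unfold genK at h; linarith
    have h1 := Om.b3 0 (t - c - B - B) p3 (by linarith) (Om.W0 _ p3)
    have h2 := Om.b2 0 (t - c - B - B + B) (by linarith) (by linarith) h1
    intro h3
    apply h2
    rw [← (Om.A 0).comp _ (t - c) (by linarith) (by linarith), h3, map_zero]
  · have p0 : 0 < t + (J * (C + 2 * c) + c) := by linarith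
    have h0 := (hbir i).2 t _ ht p0 le_rfl h
    have h1 := Om.b1 i _ p0 (by linarith) h0
    have h2 := Om.b3 i _ (by linarith) (by linarith) h1
    have h3 := Om.b3 (i + 1) _ (by linarith) (by linarith) h2
    have h4 := Om.b2 (i + 1) _ (by linarith) (by linarith) h3
    refine (hbir (i + 1)).1 _ _ (by linarith) ht' ?_ h4
    unfold genK
    linarith

end

/-- **The final form**: one cell of each of the dimensions `0, d, 2 d, .., h d`, `4 ∣ d`;
`D = d (h + 1) - 2`, `e = d - 1`. -/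
theorem genC_slots {G : ℕ → PM k} {X : ℕ → ℕ → PM k} {d h D e : ℕ} {c B : ℝ}
    {OG : ∀ q, PMOp (G q)} {OX : ∀ j q, PMOp (X j q)}
    (S : ∀ j, j < h + 1 → CellAt G (X j) (X (j + 1)) (d * j) c)
    (O : ∀ j (hj : j < h + 1), (S j hj).Op OG (OX j) (OX (j + 1)))
    (Om : OmSlots G D e B) (hB : 0 < B) (hc : 0 ≤ c) (h2 : (2 : k) ≠ 0)
    (h4 : 4 ∣ d) (hd : 0 < d) (hh : 0 < h) (hD : D + 2 = d * (h + 1)) (he : e + 1 = d)
    (hX : ∀ q t, 0 < t → ∀ x : (X 0 q).V t, x = 0)
    (hW : ∀ i t ht, (OG (i * D)).r t ht ((Om.W i).z t ht) = (-1 : k) ^ i • (Om.W i).z t ht)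
    (hA : ∀ i t ht, (OG (i * D + e)).r t ht ((Om.A i).z t ht) =
      (-1 : k) ^ (i + 1) • (Om.A i).z t ht) :
    Nonempty (GenC (X (h + 1)) (OX (h + 1)) (sgn k) (fun i => i * D + e)
      (genK (fun j => d * j) (h + 1) c B B)) := by
  have hd4 : 4 ≤ d := Nat.le_of_dvd hd h4
  have hdh : d ≤ d * h := Nat.le_mul_of_pos_right d hh
  have hed : e < D := by
    have : d * (h + 1) = d * h + d := by ring
    omega
  exact genC S O Om hed hB le_rfl (Nat.succ_pos h) hc hX (om_sgm h4 hd hD he Om hW hA)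
    (fun j _ q => sgn_add k h4 j q) (Nat.mul_zero d)
    (fun q i j hij hj => slot_unique h4 hd hD he i j hij hj)
    (fun i j h0 hj => slot_bottom h4 hd hD he i j h0 hj)
    (fun i => sgn_ne k h2 h4 hd hD he i)
    (fun i j hj => slot_gap h4 hd hh hD he i j hj)

end Vale.Agent.P216.H894
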