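import Vale.Agent.P216.H550.OmWall

/-!
# P216-D, block GEN: from walls and stable classes to the generators

`Stab Y e`: the compatible families of the step modules `Y n` (all degrees `n`).  `exists_gen`: the
generators, with one constant depending only on the constants of the walls.
-/

set_option linter.all false

namespace Vale.Agent.P216.H550

open Vale.Agent.P216.H901

variable {k : Type} [Field k]

theorem Wall.le {T : ℕ → ℝ} {a : ℝ} (W : Wall T a) (n r : ℕ) : T (n + r) ≤ T n + a * r := by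
  induction r with
  | zero => simp
  | succ r ih =>
    have h := (abs_le.1 (W.step (n + r))).2
    have e : n + (r + 1) = n + r + 1 := rfl
    rw [e]
    push_cast
    linarith

/-- **The stable classes**: compatible families. -/
structure Stab (Y : ℕ → PM k) (e : ℕ → ℕ) : Prop where
  /-- any two families of the same degree are dependent -/
  line : ∀ n (o o' : (Y n).Fam), ∃ a b : k, (a ≠ 0 ∨ b ≠ 0) ∧
    ∀ t (ht : 0 < t), a • o.z t ht + b • o'.z t ht = 0
  gap : ∀ i (o : (Y (e i - 1)).Fam) t (ht : 0 < t), o.z t ht = 0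
  ne : ∀ i, ∃ (o : (Y (e i)).Fam) (t : ℝ) (ht : 0 < t), o.z t ht ≠ 0

/-- The zero family. -/
def zeroFam (A : PM k) : A.Fam := ⟨fun _ _ => 0, fun _ _ _ _ => map_zero _⟩

theorem exists_base {A : PM k} (h : ∀ o o' : A.Fam, ∃ a b : k, (a ≠ 0 ∨ b ≠ 0) ∧
    ∀ t (ht : 0 < t), a • o.z t ht + b • o'.z t ht = 0) :
    ∃ g : A.Fam, (∀ o : A.Fam, ∃ c : k, ∀ t (ht : 0 < t), o.z t ht = c • g.z t ht) := by
  classical
  by_cases h0 : ∃ (o : A.Fam) (t : ℝ) (ht : 0 < t), o.z t ht ≠ 0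
  · obtain ⟨g, t₀, ht₀, hg⟩ := h0
    refine ⟨g, fun o => ?_⟩
    obtain ⟨a, b, hab, h1⟩ := h g o
    have hb : b ≠ 0 := by
      rintro rfl
      have ha : a ≠ 0 := hab.resolve_right fun h => h rfl
      have := h1 t₀ ht₀
      rw [zero_smul, add_zero] at this
      exact hg ((smul_eq_zero.1 this).resolve_left ha)
    refine ⟨-(b⁻¹ * a), fun t ht => ?_⟩
    have h2 := h1 t ht
    have h3 : b • o.z t ht = -(a • g.z t ht) := eq_neg_of_add_eq_zero_right h2
    calc o.z t ht = b⁻¹ • (b • o.z t ht) := by rw [smul_smul, inv_mul_cancel₀ hb, one_smul]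
      _ = _ := by rw [h3, smul_neg, smul_smul, neg_smul]
  · refine ⟨zeroFam A, fun o => ⟨0, fun t ht => ?_⟩⟩
    rw [zero_smul]
    by_contra h1
    exact h0 ⟨o, t, ht, h1⟩

/-- **The generators**, PM level. -/
theorem exists_gen {Y : ℕ → PM k} {e : ℕ → ℕ} (S : Stab Y e) {T : ℕ → ℝ} {a C B : ℝ} {R : ℕ}
    (W : Wall T a) (hC : 0 < C) (h : ∀ n, (Y n).Step (T n) C) (he : ∀ i, e i ≤ e (i + 1))
    (hR : ∀ i, e (i + 1) ≤ e i + R) (hB : 3 * C + a * R + a * e 0 + T 0 ≤ B) :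
    ∃ g : ∀ n, (Y n).Fam,
      (∀ n (o : (Y n).Fam), ∃ c : k, ∀ t (ht : 0 < t), o.z t ht = c • (g n).z t ht) ∧
      (∀ n, (Y n).Line (g n) B) ∧
      (∀ i t (ht : 0 < t), (g (e i - 1)).z t ht = 0) ∧
      (∀ t (ht : 0 < t), B ≤ t → (g (e 0)).z t ht ≠ 0) ∧
      ∀ i t (ht : 0 < t) (ht' : 0 < t + B), (g (e i)).z t ht ≠ 0 →
        (g (e (i + 1))).z (t + B) ht' ≠ 0 := by
  have ha := W.a0
  have h0 := W.nonneg 0
  have hR0 : 0 ≤ a * (R : ℝ) := by positivity
  have he0 : 0 ≤ a * (e 0 : ℝ) := by positivity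
  choose g hg using fun n => exists_base (S.line n)
  have hne : ∀ i, ∃ (t : ℝ) (ht : 0 < t), (g (e i)).z t ht ≠ 0 := by
    intro i
    obtain ⟨o, t, ht, h1⟩ := S.ne i
    obtain ⟨c, hc⟩ := hg _ o
    refine ⟨t, ht, fun h2 => h1 ?_⟩
    rw [hc, h2, smul_zero]
  refine ⟨g, hg, fun n s t hs hst hB' x => ?_, fun i t ht => S.gap i _ t ht, fun t ht hBt h1 => ?_,
    fun i t ht ht' h1 h2 => ?_⟩
  · obtain ⟨o, ho⟩ := (h n).bfb (W.nonneg n) hC s t hs hst (by linarith) x
    obtain ⟨c, hc⟩ := hg n o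
    exact ⟨c, by rw [ho, hc]⟩
  · obtain ⟨r, hr, h3⟩ := hne 0
    have h4 : T (e 0) ≤ T 0 + a * e 0 := by
      have := W.le 0 (e 0)
      rwa [Nat.zero_add] at this
    exact h3 ((h (e 0)).fam_zero hC.le _ ht (by linarith) h1 r hr)
  · obtain ⟨r, hr, h3⟩ := hne (i + 1)
    have h5 : T (e i) < t + C := by
      by_contra h6
      exact h1 ((h (e i)).fam_low hC.le _ ht (by linarith))
    have h4 : T (e (i + 1)) ≤ T (e i) + a * R := by
      obtain ⟨m, hm⟩ := Nat.exists_eq_add_of_le (he i)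
      have h6 := W.le (e i) m
      rw [← hm] at h6
      have h7 : (m : ℝ) ≤ R := by
        have := hR i
        exact_mod_cast (by omega : m ≤ R)
      have h8 := mul_le_mul_of_nonneg_left h7 ha
      linarith
    exact h3 ((h (e (i + 1))).fam_zero hC.le _ ht' (by linarith) h2 r hr)

end Vale.Agent.P216.H550
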