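import Vale.Agent.P216.H550.Dom

/-!
# P216-C: families of spaces with walls

`LinW k A hA T C`: the cohomology `H^q(A t)` of the increasing family `A` is a step module with
the wall `T q`, for all `q`, with the constant `C`.  If consecutive walls differ by at most `a`, the
property passes to unions of closed sets over a base space.
-/

set_option linter.all false

open Set

namespace Vale.Agent.P216.H550

open Vale.Agent.P216.AS Vale.Agent.P216.H901 Vale.Agent.P216.H83

/-- walls: nonnegative, with bounded steps -/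
structure Wall (T : ℕ → ℝ) (a : ℝ) : Prop where
  a0 : 0 ≤ a
  nonneg : ∀ q, 0 ≤ T q
  step : ∀ q, |T (q + 1) - T q| ≤ a

theorem wall_mul {a : ℝ} (ha : 0 ≤ a) : Wall (fun q : ℕ => a * q) a where
  a0 := ha
  nonneg q := by positivity
  step q := by
    push_cast
    rw [mul_add, mul_one, add_sub_cancel_left, abs_of_nonneg ha]

section LinW

variable {E : Type} [MetricSpace E] (k : Type) [Field k]

/-- `H^q(A t)` is a step module with the wall `T q`, for all `q`. -/
def LinW (A : ℝ → Set E) (hA : MonoP A) (T : ℕ → ℝ) (C : ℝ) : Prop :=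
  ∀ q : ℕ, (pmX k hA q).Step (T q) C

/-- The same for a family of pairs. -/
def LinWR (A B : ℝ → Set E) (hA : MonoP A) (hB : MonoP B) (T : ℕ → ℝ) (C : ℝ) : Prop :=
  ∀ q : ℕ, (pmP k hA hB q).Step (T q) C

variable {k} {X A B : ℝ → Set E} {hX : MonoP X} {hA : MonoP A} {hB : MonoP B} {T : ℕ → ℝ}
  {a C C' : ℝ}

theorem LinW.mono (h : LinW k A hA T C) (hC : C ≤ C') : LinW k A hA T C' :=
  fun q => (h q).mono' hC

theorem LinWR.mono (h : LinWR k A B hA hB T C) (hC : C ≤ C') : LinWR k A B hA hB T C' :=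
  fun q => (h q).mono' hC

theorem LinW.congr (h : LinW k A hA T C) (hAB : ∀ t, A t = B t) : LinW k B hB T C := by
  obtain rfl : A = B := funext hAB
  exact h

theorem LinF.linW (h : LinF k A hA a C) : LinW k A hA (fun q : ℕ => a * q) C := h

/-- absolute ⟹ relative -/
theorem LinW.rel (W : Wall T a) (hC : 0 < C) (hAX : ∀ t, 0 < t → A t ⊆ X t)
    (h1 : LinW k X hX T C) (h2 : LinW k A hA T C) : LinWR k X A hX hA T (3 * (C + a)) := by
  have ha := W.a0
  intro q
  cases q with
  | zero =>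
    have h1' := (h1 0).mono' (show C ≤ C + a by linarith)
    have h2' := (h2 0).mono' (show C ≤ C + a by linarith)
    exact (ex5_rel0 k hX hA hAX).step (W.nonneg 0) (by linarith) (zeroPM_step k _ _)
      (zeroPM_step k _ _) h1' h2'
  | succ q =>
    refine (ex5_rel k hX hA hAX q).step (W.nonneg _) (by linarith) ?_ ?_ ?_ ?_
    · exact (h1 q).mono (by linarith [W.step q])
    · exact (h2 q).mono (by linarith [W.step q])
    · exact (h1 (q + 1)).mono' (by linarith)
    · exact (h2 (q + 1)).mono' (by linarith)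

/-- relative ⟹ absolute -/
theorem LinWR.abs (W : Wall T a) (hC : 0 < C) (hAX : ∀ t, 0 < t → A t ⊆ X t)
    (h1 : LinWR k X A hX hA T C) (h2 : LinW k A hA T C) : LinW k X hX T (3 * (C + a)) := by
  have ha := W.a0
  intro q
  cases q with
  | zero =>
    refine (ex5_abs0 k hX hA hAX).step (W.nonneg 0) (by linarith) (zeroPM_step k _ _) ?_ ?_ ?_
    · exact (h1 0).mono' (by linarith)
    · exact (h2 0).mono' (by linarith)
    · exact (h1 (0 + 1)).mono (by rw [abs_sub_comm]; linarith [W.step 0])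
  | succ q =>
    refine (ex5_abs k hX hA hAX q).step (W.nonneg _) (by linarith) ?_ ?_ ?_ ?_
    · exact (h2 q).mono (by linarith [W.step q])
    · exact (h1 (q + 1)).mono' (by linarith)
    · exact (h2 (q + 1)).mono' (by linarith)
    · exact (h1 (q + 1 + 1)).mono (by rw [abs_sub_comm]; linarith [W.step (q + 1)])

/-- **Unions.** -/
theorem LinW.union (h2 : (2 : k) ≠ 0) (W : Wall T a) (hC : 0 < C)
    (cA : ∀ t, 0 < t → IsCompact (A t)) (cB : ∀ t, 0 < t → IsCompact (B t))
    {hI : MonoP fun t => A t ∩ B t} {hU : MonoP fun t => A t ∪ B t}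
    (h1 : LinW k A hA T C) (h2' : LinW k B hB T C) (h3 : LinW k _ hI T C) :
    LinW k _ hU T (9 * C + 12 * a) := by
  have ha := W.a0
  have e1 : LinWR k B (fun t => A t ∩ B t) hB hI T (3 * (C + a)) :=
    LinW.rel W hC (fun _ _ => inter_subset_right) h2' h3
  have e2 : LinWR k (fun t => A t ∪ B t) A hU hA T (3 * (C + a)) := fun q =>
    pmIso_step (isoExcF h2 cA cB hI hU q) (e1 q)
  have e3 := LinWR.abs W (by linarith) (fun _ _ => subset_union_left) e2
    (h1.mono (by linarith : C ≤ 3 * (C + a)))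
  exact e3.mono (by linarith)

/-- The empty family. -/
theorem linW_empty (h : MonoP fun _ => (∅ : Set E)) (T : ℕ → ℝ) (C : ℝ) :
    LinW k (fun _ => (∅ : Set E)) h T C := by
  intro q
  refine PM.step_of_zero (fun t ht x => ?_) _
  obtain ⟨x, hx, rfl⟩ := H.exists_mk x
  exact H.mk_eq_zero.2
    (T_le_Bc _ _ _ ⟨hx.1.1, 1, one_pos, fun y hy => absurd (hy.1 0) (Set.notMem_empty _)⟩)

end LinW

theorem SpRetr.linW {E E' : Type} [MetricSpace E] [MetricSpace E'] {A : ℝ → Set E}
    {B : ℝ → Set E'} {c : ℝ} (S : SpRetr A B c) {k : Type} [Field k] {hA : MonoP A} {hB : MonoP B}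
    {T : ℕ → ℝ} {C : ℝ} (hc : 0 ≤ c) (hT : ∀ q, 0 ≤ T q) (hC : 0 < C) (h : LinW k B hB T C) :
    LinW k A hA T (C + 2 * c) := fun q =>
  (S.retr k hA hB hc q).step hc (hT q) hC (h q)

section Engine

variable {E Y : Type} [MetricSpace E] [TopologicalSpace Y] {k : Type} [Field k]

/-- **Finite unions of closed sets from a class closed under intersections.** -/
theorem linW_lU (h2 : (2 : k) ≠ 0) {ev : E → Y} (hev : Continuous ev) {Z : ℝ → Set E}
    (hZ : MonoP Z) (cZ : ∀ t, 0 < t → IsCompact (Z t)) {𝒟 : Set (Set Y)}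
    (hcl : ∀ D ∈ 𝒟, IsClosed D) (hint : ∀ D ∈ 𝒟, ∀ D' ∈ 𝒟, D ∩ D' ∈ 𝒟) {T : ℕ → ℝ} {a C : ℝ}
    (W : Wall T a) (hC : 0 < C) (h : ∀ D ∈ 𝒟, LinW k (ovr ev Z D) (ovr_mp hZ D) T C) :
    ∀ (m : ℕ) (l : List (Set Y)), l.length = m → (∀ D ∈ l, D ∈ 𝒟) →
      LinW k (ovr ev Z (lU l)) (ovr_mp hZ _) T (linC a m C) := by
  have ha := W.a0
  intro m
  induction m with
  | zero =>
    intro l hl _
    obtain rfl := List.length_eq_zero_iff.1 hl
    refine LinW.congr (linW_empty monoP_empty T C) fun t => ?_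
    ext w
    exact ⟨fun h => absurd h (notMem_empty _), fun h => absurd h.2 (notMem_empty _)⟩
  | succ m ih =>
    intro l hl hlD
    obtain ⟨D, l, rfl⟩ : ∃ D l', l = D :: l' := by
      cases l with
      | nil => simp at hl
      | cons D l => exact ⟨D, l, rfl⟩
    have hl' : l.length = m := by simpa using hl
    have hD : D ∈ 𝒟 := hlD D List.mem_cons_self
    have hlD' : ∀ D' ∈ l, D' ∈ 𝒟 := fun D' h' => hlD D' (List.mem_cons_of_mem _ h')
    have i1 := ih l hl' hlD'
    have i2 := (h D hD).mono (le_linC ha hC m)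
    have i3 := ih (l.map (D ∩ ·)) (by rw [List.length_map, hl']) fun D' h' => by
      obtain ⟨D'', h1, rfl⟩ := List.mem_map.1 h'
      exact hint D hD D'' (hlD' D'' h1)
    have cl := isClosed_lU fun D' h' => hcl D' (hlD' D' h')
    have mI : MonoP fun t => ovr ev Z (lU l) t ∩ ovr ev Z D t := fun s t hs hst =>
      inter_subset_inter (ovr_mp hZ _ s t hs hst) (ovr_mp hZ _ s t hs hst)
    have mU : MonoP fun t => ovr ev Z (lU l) t ∪ ovr ev Z D t := fun s t hs hst =>
      union_subset_union (ovr_mp hZ _ s t hs hst) (ovr_mp hZ _ s t hs hst)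
    have i3' : LinW k (fun t => ovr ev Z (lU l) t ∩ ovr ev Z D t) mI T (linC a m C) := by
      refine LinW.congr i3 fun t => ?_
      rw [← inter_lU]
      ext w
      exact ⟨fun h => ⟨⟨h.1, h.2.2⟩, h.1, h.2.1⟩, fun h => ⟨h.1.1, h.2.2, h.1.2⟩⟩
    have := LinW.union (hU := mU) h2 W (linC_pos ha hC m)
      (fun t ht => ovr_compact hev cl (cZ t ht)) (fun t ht => ovr_compact hev (hcl D hD) (cZ t ht))
      i1 i2 i3'
    refine LinW.congr this fun t => ?_
    ext w
    constructor
    · rintro (h | h)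
      · exact ⟨h.1, Or.inr h.2⟩
      · exact ⟨h.1, Or.inl h.2⟩
    · rintro ⟨h1, h2 | h2⟩
      · exact Or.inr ⟨h1, h2⟩
      · exact Or.inl ⟨h1, h2⟩

end Engine

end Vale.Agent.P216.H550
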