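import Vale.Agent.P216.C337.Sys
import Vale.Agent.P216.H550.LinW
import Mathlib.Analysis.Convex.SimplicialComplex.Basic
import Mathlib.Analysis.Convex.Topology

/-!
# P216-C, (1) of note 12516: from the based loops to the free loops

If the cohomology of the based Moore loops consists of step modules (degree `q` is born near the
level `T q` and has bounded bars; consecutive walls differ by at most `a`), so does the cohomology
of the free Moore loops, for every compact space with unique short segments which is dominated by a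
finite simplicial complex.
-/

set_option linter.all false

namespace Vale.Agent.P216.H550

open Set Filter Topology BoundedContinuousFunction
open Vale.Agent.P216.PS Vale.Agent.P216.MV337
open Vale.Agent.P216.AS
open Vale.Agent.P216.H901 (Hp SpIntl tr on PM Retr ovr)
open Vale.Agent.P216.H83 (MonoP pmX monoP_empty)
open Vale.Agent.P216.C313
open Vale.Agent.P216.C337

theorem monoP_P {M : Type} [MetricSpace M] (a b : M) : MonoP fun t => P a b t :=
  fun _ _ _ h => P_mono h

/-! ### Nullhomotopies over a contractible piece -/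

section Null

variable {Y M : Type} [MetricSpace Y] [MetricSpace M] [CompactSpace M] {L : Set Y} {f : Y → M}
  {x₀ : M} {y₀ : Y} {K : Y × ℝ → Y}

theorem exists_null_of_con [PathConnectedSpace M] {ρ : ℝ} (hρ : 0 < ρ) (hU : LS.UniqSeg M ρ)
    (hL : IsCompact L) (hf : ContinuousOn f L) (hK : ContinuousOn K (L ×ˢ Icc (0:ℝ) 1))
    (hKm : ∀ x ∈ L, ∀ s ∈ Icc (0:ℝ) 1, K (x, s) ∈ L) (hK0 : ∀ x ∈ L, K (x, 0) = x)
    (hK1 : ∀ x ∈ L, K (x, 1) = y₀) (x₀ : M) : ∃ ℓ T, TrY L f (fun _ => x₀) ℓ T := by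
  let γ : ℝ → M := (PathConnectedSpace.somePath (f y₀) x₀).extend
  have hγ : Continuous γ := (PathConnectedSpace.somePath (f y₀) x₀).continuous_extend
  have hγ0 : γ 0 = f y₀ := (PathConnectedSpace.somePath (f y₀) x₀).extend_zero
  have hγ1 : γ 1 = x₀ := (PathConnectedSpace.somePath (f y₀) x₀).extend_one
  refine exists_null hρ hU hL
    (H := fun p : Y × ℝ => if 2 * p.2 ≤ 1 then f (K (p.1, min 1 (2 * p.2)))
      else γ (max 0 (2 * p.2 - 1))) ?_ ?_ ?_
  · refine PS.ContinuousOn.if_le' ?_ ?_ (by fun_prop) (by fun_prop) fun p hp he => ?_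
    · have h1 : ContinuousOn (fun p : Y × ℝ => K (p.1, min 1 (2 * p.2))) (L ×ˢ Icc (0:ℝ) 1) :=
        ContinuousOn.comp (g := K) (t := L ×ˢ Icc (0:ℝ) 1)
          (f := fun p : Y × ℝ => ((p.1, min 1 (2 * p.2)) : Y × ℝ)) hK (by fun_prop)
          fun p hp => ⟨hp.1, le_min zero_le_one (by linarith [hp.2.1]), min_le_left _ _⟩
      exact hf.comp h1 fun p hp =>
        hKm _ hp.1 _ ⟨le_min zero_le_one (by linarith [hp.2.1]), min_le_left _ _⟩
    · exact hγ.comp_continuousOn (by fun_prop)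
    · rw [he, min_self, sub_self, max_self, hγ0, hK1 _ hp.1]
  · intro x hx
    show (if 2 * (0:ℝ) ≤ 1 then f (K (x, min 1 (2 * 0))) else γ (max 0 (2 * 0 - 1))) = f x
    rw [if_pos (by norm_num), mul_zero, min_eq_right zero_le_one, hK0 x hx]
  · intro x hx
    show (if 2 * (1:ℝ) ≤ 1 then f (K (x, min 1 (2 * 1))) else γ (max 0 (2 * 1 - 1))) = x₀
    rw [if_neg (by norm_num), show max 0 (2 * (1:ℝ) - 1) = 1 by norm_num, hγ1]

/-- **A contractible piece is linear.** -/
theorem linW_XY_of_con {ℓ : ℝ} {T : Y → ℝ → M} (hL : IsCompact L) (hf : ContinuousOn f L)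
    (hy : y₀ ∈ L) (hK : ContinuousOn K (L ×ˢ Icc (0:ℝ) 1))
    (hKm : ∀ x ∈ L, ∀ s ∈ Icc (0:ℝ) 1, K (x, s) ∈ L) (hK0 : ∀ x ∈ L, K (x, 0) = x)
    (hK1 : ∀ x ∈ L, K (x, 1) = y₀) (hT : TrY L f (fun _ => x₀) ℓ T) {k : Type} [Field k]
    {W : ℕ → ℝ} {C : ℝ} (hW : ∀ q, 0 ≤ W q) (hC : 0 < C)
    (h : LinW k (fun t => P x₀ x₀ t) (monoP_P x₀ x₀) W C) :
    LinW k (fun t => XY f t L) (monoP_XY f L) W (C + 4 * ℓ) := by
  have mO : MonoP fun t => L ×ˢ P x₀ x₀ t := fun s t hs hst => prod_mono le_rfl (P_mono hst)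
  have h1 : LinW k (fun t => L ×ˢ P x₀ x₀ t) mO W (C + 2 * 0) :=
    (SpRetr.ofIntl (conIntl hL (fun t _ => isCompact_P x₀ x₀ t) (monoP_P x₀ x₀) hy hK hKm hK0
      hK1)).linW le_rfl hW hC h
  have e : ∀ t, XY f t (∅ : Set Y) = ∅ := fun t => by
    ext q
    exact ⟨fun h => h.1.elim, fun h => h.elim⟩
  have e' : ∀ t, (∅ : Set Y) ×ˢ P x₀ x₀ t = ∅ := fun t => empty_prod
  have I : SpIntl (fun t => XY f t L) (fun _ => ∅) (fun t => L ×ˢ P x₀ x₀ t) (fun _ => ∅) (2 * ℓ) :=
    spEq (spXY hL hf (empty_subset L) hT) rfl (fun _ => rfl) (fun t => (e t).symm) (fun _ => rfl)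
      fun t => (e' t).symm
  have hn := hT.nonneg
  have h2 := (SpRetr.ofIntl I).linW (hA := monoP_XY f L) (by linarith) hW (by linarith) h1
  exact h2.mono (by linarith)

end Null

/-! ### Finite simplicial complexes -/

section Main

variable {M : Type} [MetricSpace M] [CompactSpace M]

/-- the contraction of a convex set -/
def conv {V : Type} [AddCommGroup V] [Module ℝ V] (y₀ : V) (p : V × ℝ) : V :=
  (1 - p.2) • p.1 + p.2 • y₀

theorem lin_pulled {V : Type} [NormedAddCommGroup V] [NormedSpace ℝ V] [PathConnectedSpace M]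
    {ρ : ℝ} (hρ : 0 < ρ) (hU : LS.UniqSeg M ρ) (T : Geometry.SimplicialComplex ℝ V)
    (hT : T.faces.Finite) {f : V → M} (hf : ContinuousOn f T.space) (x₀ : M) {a : ℝ}
    (ha : 0 ≤ a) {C : ℝ} (hC : 0 < C) : ∃ C', C ≤ C' ∧ ∀ (k : Type) [Field k], (2 : k) ≠ 0 →
    ∀ W : ℕ → ℝ, Wall W a → LinW k (fun t => P x₀ x₀ t) (monoP_P x₀ x₀) W C →
      LinW k (fun t => XY f t T.space) (monoP_XY f T.space) W C' := by
  classical
  -- the closed simplices
  have hcpt : ∀ s : Finset V, IsCompact (convexHull ℝ (s : Set V)) := fun s =>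
    s.finite_toSet.isCompact_convexHull ℝ
  have hne : ∀ s ∈ T.faces, ∃ y₀, y₀ ∈ convexHull ℝ (s : Set V) := fun s hs => by
    obtain ⟨y, hy⟩ := T.nonempty_of_mem_faces hs
    exact ⟨y, subset_convexHull ℝ _ hy⟩
  have hKc : ∀ (s : Finset V) (y₀ : V), ContinuousOn (conv y₀)
      (convexHull ℝ (s : Set V) ×ˢ Icc (0:ℝ) 1) := fun s y₀ => by
    unfold conv
    fun_prop
  have hKm : ∀ (s : Finset V) (y₀ : V), y₀ ∈ convexHull ℝ (s : Set V) →
      ∀ x ∈ convexHull ℝ (s : Set V), ∀ σ ∈ Icc (0:ℝ) 1,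
        conv y₀ (x, σ) ∈ convexHull ℝ (s : Set V) := fun s y₀ hy x hx σ hσ =>
    convex_convexHull ℝ _ hx hy (by linarith [hσ.2]) hσ.1 (by ring)
  have hK0 : ∀ (y₀ x : V), conv y₀ (x, 0) = x := fun y₀ x => by
    show (1 - (0:ℝ)) • x + (0:ℝ) • y₀ = x
    rw [sub_zero, one_smul, zero_smul, add_zero]
  have hK1 : ∀ (y₀ x : V), conv y₀ (x, 1) = y₀ := fun y₀ x => by
    show (1 - (1:ℝ)) • x + (1:ℝ) • y₀ = y₀
    rw [sub_self, zero_smul, one_smul, zero_add]
  -- the tracks
  have key : ∀ s ∈ T.faces, ∃ y₀ ℓ, ∃ S : V → ℝ → M, y₀ ∈ convexHull ℝ (s : Set V) ∧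
      TrY (convexHull ℝ (s : Set V)) f (fun _ => x₀) ℓ S := by
    intro s hs
    obtain ⟨y₀, hy⟩ := hne s hs
    obtain ⟨ℓ, S, h⟩ := exists_null_of_con hρ hU (hcpt s)
      (hf.mono (T.convexHull_subset_space hs)) (hKc s y₀) (hKm s y₀ hy) (fun x _ => hK0 y₀ x)
      (fun x _ => hK1 y₀ x) x₀
    exact ⟨y₀, ℓ, S, hy, h⟩
  choose! y₀ ℓ S hy hS using key
  obtain ⟨ℓ', hℓ'⟩ : ∃ ℓ', ∀ s ∈ T.faces, ℓ s ≤ ℓ' := by
    obtain ⟨ℓ', h⟩ := (hT.image ℓ).bddAbove
    exact ⟨ℓ', fun s hs => h ⟨s, hs, rfl⟩⟩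
  set ℓm := max 0 ℓ' with hℓm
  have hℓ0 : 0 ≤ ℓm := le_max_left _ _
  have hℓ1 : ∀ s ∈ T.faces, ℓ s ≤ ℓm := fun s hs => (hℓ' s hs).trans (le_max_right _ _)
  have hC1 : 0 < C + 4 * ℓm := by linarith
  -- the class of closed sets
  let 𝒟 : Set (Set V) := {D | D = ∅ ∨ ∃ s ∈ T.faces, D = convexHull ℝ (s : Set V)}
  have hcl : ∀ D ∈ 𝒟, IsClosed D := by
    rintro D (rfl | ⟨s, hs, rfl⟩)
    · exact isClosed_empty
    · exact (hcpt s).isClosed
  have hint : ∀ D ∈ 𝒟, ∀ D' ∈ 𝒟, D ∩ D' ∈ 𝒟 := by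
    rintro D (rfl | ⟨s, hs, rfl⟩) D' (rfl | ⟨t, ht, rfl⟩)
    · exact Or.inl (empty_inter _)
    · exact Or.inl (empty_inter _)
    · exact Or.inl (inter_empty _)
    · rw [T.convexHull_inter_convexHull hs ht]
      rcases (s ∩ t).eq_empty_or_nonempty with h | h
      · left
        have : (s : Set V) ∩ t = ∅ := by rw [← Finset.coe_inter, h, Finset.coe_empty]
        rw [this, convexHull_empty]
      · right
        exact ⟨s ∩ t, T.down_closed hs Finset.inter_subset_left h, by rw [Finset.coe_inter]⟩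
  -- the list of all simplices
  let l : List (Set V) := (hT.toFinset.toList).map fun s : Finset V => convexHull ℝ (s : Set V)
  have hl : ∀ D ∈ l, D ∈ 𝒟 := by
    intro D hD
    obtain ⟨s, hs, rfl⟩ := List.mem_map.1 hD
    rw [Finset.mem_toList, Set.Finite.mem_toFinset] at hs
    exact Or.inr ⟨s, hs, rfl⟩
  have hlU : lU l = T.space := by
    ext x
    rw [mem_lU, Geometry.SimplicialComplex.mem_space_iff]
    constructor
    · rintro ⟨D, hD, hx⟩
      obtain ⟨s, hs, rfl⟩ := List.mem_map.1 hD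
      rw [Finset.mem_toList, Set.Finite.mem_toFinset] at hs
      exact ⟨s, hs, hx⟩
    · rintro ⟨s, hs, hx⟩
      refine ⟨_, List.mem_map.2 ⟨s, ?_, rfl⟩, hx⟩
      rw [Finset.mem_toList, Set.Finite.mem_toFinset]
      exact hs
  have hcs : IsCompact T.space := by
    have e : T.space = ⋃ s ∈ hT.toFinset, convexHull ℝ (s : Set V) := by
      ext x
      rw [Geometry.SimplicialComplex.mem_space_iff, mem_iUnion₂]
      constructor
      · rintro ⟨s, hs, hx⟩
        exact ⟨s, by rwa [Set.Finite.mem_toFinset], hx⟩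
      · rintro ⟨s, hs, hx⟩
        exact ⟨s, by rwa [Set.Finite.mem_toFinset] at hs, hx⟩
    rw [e]
    exact hT.toFinset.isCompact_biUnion fun s _ => hcpt s
  refine ⟨linC a l.length (C + 4 * ℓm), (by linarith : C ≤ C + 4 * ℓm).trans (le_linC ha hC1 _),
    fun k _ h2 W hW h => ?_⟩
  have hD : ∀ D ∈ 𝒟, LinW k (ovr Prod.fst (fun t => XY f t T.space) D)
      (ovr_mp (monoP_XY f T.space) D) W (C + 4 * ℓm) := by
    rintro D (rfl | ⟨s, hs, rfl⟩)
    · refine LinW.congr (linW_empty monoP_empty W _) fun t => ?_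
      ext w
      exact ⟨fun h => absurd h (notMem_empty _), fun h => absurd h.2 (notMem_empty _)⟩
    · have h1 := linW_XY_of_con (hcpt s) (hf.mono (T.convexHull_subset_space hs)) (hy s hs)
        (hKc s (y₀ s)) (hKm s (y₀ s) (hy s hs)) (fun x _ => hK0 (y₀ s) x)
        (fun x _ => hK1 (y₀ s) x) (hS s hs) hW.nonneg hC h
      refine LinW.congr (h1.mono (by linarith [hℓ1 s hs])) fun t => ?_
      ext w
      exact ⟨fun h => ⟨⟨T.convexHull_subset_space hs h.1, h.2⟩, h.1⟩, fun h => ⟨h.2, h.1.2⟩⟩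
  have := linW_lU h2 continuous_fst (monoP_XY f T.space)
    (fun t ht => isCompact_XY hcs hf ht.le) hcl hint hW hC1 hD l.length l rfl hl
  rw [hlU] at this
  refine LinW.congr this fun t => ?_
  ext w
  exact ⟨fun h => h.1, fun h => ⟨h, h.1⟩⟩

/-- **From the based loops to the free loops.** `M` is dominated by the finite simplicial complex
`T` (for instance homotopy equivalent to it); the constant depends neither on the field nor on
the walls. -/
theorem lin_loops {V : Type} [NormedAddCommGroup V] [NormedSpace ℝ V] [PathConnectedSpace M]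
    {ρ : ℝ} (hρ : 0 < ρ) (hU : LS.UniqSeg M ρ) (T : Geometry.SimplicialComplex ℝ V)
    (hT : T.faces.Finite) (i : C(M, T.space)) (r : C(T.space, M))
    (hri : (ContinuousMap.id M).Homotopic (r.comp i)) (x₀ : M) {a : ℝ} (ha : 0 ≤ a) {C : ℝ}
    (hC : 0 < C) : ∃ C', C ≤ C' ∧ ∀ (k : Type) [Field k], (2 : k) ≠ 0 →
    ∀ W : ℕ → ℝ, Wall W a → LinW k (fun t => P x₀ x₀ t) (monoP_P x₀ x₀) W C →
      LinW k (fun t => FL M t) monoP_FL W C' := by
  classical
  let f : V → M := fun y => if h : y ∈ T.space then r ⟨y, h⟩ else x₀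
  have hfX : ∀ (y : V) (h : y ∈ T.space), f y = r ⟨y, h⟩ := fun y h => dif_pos h
  have hf : ContinuousOn f T.space := by
    rw [continuousOn_iff_continuous_domRestrict]
    have : T.space.domRestrict f = r := by
      funext y
      exact hfX y.1 y.2
    rw [this]
    exact r.continuous
  let g : M → V := fun x => (i x : V)
  have hgc : Continuous g := continuous_subtype_val.comp i.continuous
  have hg : ∀ x, g x ∈ T.space := fun x => (i x).2
  have hfg : ∀ x, f (g x) = r (i x) := fun x => hfX _ (i x).2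
  obtain ⟨C₁, hC₁, h₁⟩ := lin_pulled hρ hU T hT hf x₀ ha hC
  -- the tracks of the homotopy
  obtain ⟨F⟩ := hri
  let H : M × ℝ → M := fun p => F (projIcc 0 1 zero_le_one p.2, p.1)
  have hH : Continuous H := F.continuous.comp
    ((continuous_projIcc.comp continuous_snd).prodMk continuous_fst)
  obtain ⟨ℓ, S, hS⟩ := exists_tk hρ hU (isCompact_univ (X := M)) (H := H) hH.continuousOn
  have e0 : (fun x => H (x, 0)) = id := by
    funext x
    show F (projIcc 0 1 zero_le_one 0, x) = x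
    rw [projIcc_left]
    exact F.apply_zero x
  have e1 : (fun x => H (x, 1)) = fun x => f (g x) := by
    funext x
    show F (projIcc 0 1 zero_le_one 1, x) = f (g x)
    rw [projIcc_right, hfg]
    exact F.apply_one x
  rw [e0, e1] at hS
  have hcs : ∀ t, 0 < t → IsCompact (XY f t T.space) := by
    have hcpt : IsCompact T.space := by
      have e : T.space = ⋃ s ∈ hT.toFinset, convexHull ℝ (s : Set V) := by
        ext x
        rw [Geometry.SimplicialComplex.mem_space_iff, mem_iUnion₂]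
        constructor
        · rintro ⟨s, hs, hx⟩
          exact ⟨s, by rwa [Set.Finite.mem_toFinset], hx⟩
        · rintro ⟨s, hs, hx⟩
          exact ⟨s, by rwa [Set.Finite.mem_toFinset] at hs, hx⟩
      rw [e]
      exact hT.toFinset.isCompact_biUnion fun s _ => s.finite_toSet.isCompact_convexHull ℝ
    exact fun t ht => isCompact_XY hcpt hf ht.le
  have hn := hS.nonneg
  refine ⟨C₁ + 2 * (2 * ℓ), by linarith, fun k _ h2 W hW h => ?_⟩
  exact (domRetr hcs hgc hg hS).linW (by linarith) hW.nonneg (by linarith) (h₁ k h2 W hW h)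

end Main

end Vale.Agent.P216.H550
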