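import Vale.Agent.P216.H550.ToFL
import Vale.Agent.P216.H550.CuMap
import Vale.Agent.P216.H550.LinLoops

/-!
# P216-D: the pulled back free loops over the handles of another space

`Q` is a compact space with a handle decomposition `C : CellDec Q d h`, `g : Q → M` is continuous.
The family `XY g · univ` of the pairs `(y, w)`, `w` a Moore loop at `g y`, has the handles
`(I^{dj}, ∂I^{dj}) × P x₀ x₀`, with the reversal.
-/

set_option linter.all false

open Set Filter Topology BoundedContinuousFunction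

namespace Vale.Agent.P216.H550

open Vale.Agent.P216.AS Vale.Agent.P216.H901 Vale.Agent.P216.PS Vale.Agent.P216.MV337
open Vale.Agent.P216.H754B Vale.Agent.P216.H894 Vale.Agent.P216.H83 Vale.Agent.P216.B64
open Vale.Agent.P216.H285 Vale.Agent.P216.H774 Vale.Agent.P216.H133C
open Vale.Agent.P216.C313 (XY XY_mono)
open Vale.Agent.P216.C337 (TrY spXY isCompact_XY tw c2)

/-! ### `(D, S) × Om` in the coordinates of the cube -/

section Cube

variable {Q E : Type} [MetricSpace Q] [MetricSpace E] {n : ℕ} {D S : Set Q} {Om : ℝ → Set E}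

/-- `(D, S) × Om t ~ (I^n, ∂I^n) × Om t`. -/
def spCube (C : Cell Q n D S) (hD : IsCompact D) (hS : S ⊆ D)
    (hO : ∀ t, 0 < t → IsCompact (Om t)) (mO : MonoP Om) :
    SpIntl (fun t => D ×ˢ Om t) (fun t => S ×ˢ Om t) (fun t => H901.cub n (Om t))
      (fun t => H901.bdc n (Om t)) 0 where
  f _ q := enc n q.2 (C.φ q.1)
  g _ z := (C.ψ (dec2 n z), dec1 n z)
  f_map t ht := by
    refine MV337.map_of_cont (hD.prod (hO t ht)) (enc_cont n continuousOn_snd
      (C.φ_cont.comp continuousOn_fst fun q hq => hq.1)) fun q hq => ?_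
    rw [MV337.mem_cub, dec1_enc, dec2_enc]
    exact ⟨mO t (t + 0) ht (by linarith) hq.2, C.φ_mem _ hq.1⟩
  f_sub t ht := by
    intro q hq
    rw [MV337.mem_bdc, MV337.mem_cub, dec1_enc, dec2_enc]
    exact ⟨⟨mO t (t + 0) ht (by linarith) hq.2, C.φ_mem _ (hS hq.1)⟩, C.φ_bd _ hq.1⟩
  g_map t ht := by
    refine MV337.map_of_cont (MV337.isCompact_cub n (hO t ht)) ((C.ψ_cont.comp
      (dec2_cont n).continuousOn fun z hz => ((MV337.mem_cub n).1 hz).2).prodMk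
      (dec1_cont n).continuousOn) fun z hz => ?_
    exact ⟨C.ψ_mem _ ((MV337.mem_cub n).1 hz).2,
      mO t (t + 0) ht (by linarith) ((MV337.mem_cub n).1 hz).1⟩
  g_sub t ht := by
    intro z hz
    obtain ⟨h1, h2⟩ := (MV337.mem_bdc n).1 hz
    exact ⟨C.ψ_bd _ ((MV337.mem_cub n).1 h1).2 h2,
      mO t (t + 0) ht (by linarith) ((MV337.mem_cub n).1 h1).1⟩
  f_nat s t hs hst := by
    refine MV337.hp_of_cont (hD.prod (hO s hs)) (F := fun p : ℝ × (Q × E) =>
      enc n p.2.2 (C.φ p.2.1)) (enc_cont n (by fun_prop)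
      (C.φ_cont.comp (by fun_prop) fun q hq => hq.2.1)) ?_ ?_ (fun _ _ => rfl) (fun _ _ => rfl)
    · intro σ _ q hq
      rw [MV337.mem_cub, dec1_enc, dec2_enc]
      exact ⟨mO s (t + 0) hs (by linarith) hq.2, C.φ_mem _ hq.1⟩
    · intro σ _ q hq
      rw [MV337.mem_bdc, MV337.mem_cub, dec1_enc, dec2_enc]
      exact ⟨⟨mO s (t + 0) hs (by linarith) hq.2, C.φ_mem _ (hS hq.1)⟩, C.φ_bd _ hq.1⟩
  g_nat s t hs hst := by
    refine MV337.hp_of_cont (MV337.isCompact_cub n (hO s hs)) (F := fun p : ℝ × Cu E n =>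
      (C.ψ (dec2 n p.2), dec1 n p.2)) ((C.ψ_cont.comp
      ((dec2_cont n).comp_continuousOn continuousOn_snd)
        fun z hz => ((MV337.mem_cub n).1 hz.2).2).prodMk
      ((dec1_cont n).comp_continuousOn continuousOn_snd)) ?_ ?_ (fun _ _ => rfl) (fun _ _ => rfl)
    · intro σ _ z hz
      exact ⟨C.ψ_mem _ ((MV337.mem_cub n).1 hz).2,
        mO s (t + 0) hs (by linarith) ((MV337.mem_cub n).1 hz).1⟩
    · intro σ _ z hz
      obtain ⟨h1, h2⟩ := (MV337.mem_bdc n).1 hz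
      exact ⟨C.ψ_bd _ ((MV337.mem_cub n).1 h1).2 h2,
        mO s (t + 0) hs (by linarith) ((MV337.mem_cub n).1 h1).1⟩
  gf t ht := by
    refine MV337.hp_of_cont (hD.prod (hO t ht)) (F := fun p : ℝ × (Q × E) =>
      (C.K (p.2.1, p.1), p.2.2)) ?_ ?_ ?_ ?_ ?_
    · refine ContinuousOn.prodMk ?_ (by fun_prop)
      exact ContinuousOn.comp (g := C.K) (t := D ×ˢ Icc (0:ℝ) 1)
        (f := fun p : ℝ × (Q × E) => ((p.2.1, p.1) : Q × ℝ)) C.K_cont (by fun_prop)
        fun p hp => ⟨hp.2.1, hp.1⟩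
    · exact fun σ hσ q hq => ⟨C.K_mem _ hq.1 _ hσ, mO t (t + 0 + 0) ht (by linarith) hq.2⟩
    · exact fun σ hσ q hq => ⟨C.K_bd _ hq.1 _ hσ, mO t (t + 0 + 0) ht (by linarith) hq.2⟩
    · exact fun q hq => Prod.ext (C.K_zero _ hq.1) rfl
    · intro q hq
      show (C.K (q.1, 1), q.2) = (C.ψ (dec2 n (enc n q.2 (C.φ q.1))), dec1 n (enc n q.2 (C.φ q.1)))
      rw [dec1_enc, dec2_enc, C.K_one _ hq.1]
  fg t ht := by
    refine MV337.hp_of_cont (MV337.isCompact_cub n (hO t ht)) (F := fun p : ℝ × Cu E n => p.2)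
      (by fun_prop) ?_ ?_ (fun _ _ => rfl) ?_
    · intro σ _ z hz
      rw [MV337.mem_cub] at hz ⊢
      exact ⟨mO t (t + 0 + 0) ht (by linarith) hz.1, hz.2⟩
    · intro σ _ z hz
      rw [MV337.mem_bdc, MV337.mem_cub] at hz ⊢
      exact ⟨⟨mO t (t + 0 + 0) ht (by linarith) hz.1.1, hz.1.2⟩, hz.2⟩
    · intro z hz
      have h4 := ((MV337.mem_cub n).1 hz).2
      show z = enc n (dec1 n z) (C.φ (C.ψ (dec2 n z)))
      rw [C.φψ _ h4, enc_dec]

end Cube

/-! ### The family over `Q` -/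

section XQ

variable {Q M : Type} [MetricSpace Q] [MetricSpace M] {g : Q → M} {x₀ : M}

/-- the pairs `(y, w)`, `w` a Moore loop at `g y` -/
abbrev XQ (g : Q → M) (t : ℝ) : Set (Q × (ℝ →ᵇ M)) := XY g t univ

theorem ovr_XQ (D : Set Q) (t : ℝ) :
    ovr (Prod.fst : Q × (ℝ →ᵇ M) → Q) (XQ g) D t = XY g t D := by
  ext q
  exact ⟨fun h => ⟨h.2, h.1.2⟩, fun h => ⟨⟨trivial, h.2⟩, h.1⟩⟩

theorem mono_XQ (g : Q → M) : Mono fun t => XQ g t := fun _ _ _ h => XY_mono h subset_rfl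

theorem rv_mem_XQ {s t : ℝ} {q : Q × (ℝ →ᵇ M)} (hq : q ∈ XQ g s) (hst : s ≤ t) :
    (q.1, rv t q.2) ∈ XQ g t :=
  ⟨trivial, rv_mem_FL hq.2.1 hst, by
    show rv t q.2 0 = g q.1
    rw [rv_zero hq.2.1 hst]
    exact hq.2.2⟩

/-- **Reversal** of the pulled back loops. -/
noncomputable def evOpQ (g : Q → M) : EvOp (Prod.fst : Q × (ℝ →ᵇ M) → Q) (fun t => XQ g t) where
  r t q := (q.1, rv t q.2)
  map t _ := ⟨fun q hq => rv_mem_XQ hq le_rfl, fun i => i.elim, fun ε hε =>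
    ⟨ε, hε, fun q _ q' _ h => max_lt ((le_max_left _ _).trans_lt h)
      ((dist_rv_le t q.2 q'.2).trans_lt ((le_max_right _ _).trans_lt h))⟩⟩
  ev_r _ _ _ _ := rfl
  nat s t hs hst := by
    refine ⟨fun l q => (q.1, rv (s + l * (t - s)) q.2), ⟨fun l hl q hq =>
      XY_mono (MV337.tm_aux hst hl).2 subset_rfl (rv_mem_XQ hq (MV337.tm_aux hst hl).1),
      fun _ _ i => i.elim, fun ε hε => ?_⟩, fun _ _ _ _ => rfl, fun q _ => ?_, fun q _ => ?_⟩
    · obtain ⟨δ, hδ, h⟩ := (htpy_rv (M := M) (A := FL M s) (B := FL M t) hst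
        (fun _ hw => hw.1) (fun _ h1 h2 _ hw => FL_mono h2 (rv_mem_FL hw h1))).uc ε hε
      refine ⟨min δ ε, lt_min hδ hε, fun l hl l' hl' q hq q' hq' h1 h2 => ?_⟩
      exact max_lt ((le_max_left _ _).trans_lt (h2.trans_le (min_le_right _ _)))
        (h l hl l' hl' q.2 hq.2.1 q'.2 hq'.2.1 (h1.trans_le (min_le_left _ _))
          (((le_max_right _ _).trans_lt h2).trans_le (min_le_left _ _)))
    · show (q.1, rv (s + 0 * (t - s)) q.2) = (q.1, rv s q.2)
      rw [htpy_rv_zero]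
    · show (q.1, rv (s + 1 * (t - s)) q.2) = (q.1, rv t q.2)
      rw [htpy_rv_one]

variable [CompactSpace M]

theorem isCompact_XQ [CompactSpace Q] (hg : Continuous g) {t : ℝ} (ht : 0 < t) :
    IsCompact (XQ g t) := isCompact_XY isCompact_univ hg.continuousOn ht.le

/-- **Transport commutes with the reversal.** -/
theorem c2_rv {ℓ t : ℝ} (hℓ : 0 ≤ ℓ) (ht : 0 ≤ t) {p : ℝ → M} {w : ℝ →ᵇ M} (hp : Lip p)
    (hw : Lip w) (h0 : w 0 = p 0) (h1 : w t = p 0) :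
    rv (t + 2 * ℓ) (mo (c2 ℓ t p p w)) = mo (c2 ℓ t p p (rv t w)) := by
  have f0 : rv t w 0 = p 0 := by rw [rv_apply, sub_zero]; exact h1
  have f1 : rv t w t = p 0 := by rw [rv_apply, sub_self]; exact h0
  have l1 : Lip (c2 ℓ t p p w) := C337.lip_c2 hp hp hw ht h0 h1
  have l2 : Lip (c2 ℓ t p p (rv t w)) := C337.lip_c2 hp hp (lip_rv hw t) ht f0 f1
  ext u
  rw [rv_apply, l1.mo_apply, l2.mo_apply]
  rcases le_total u ℓ with h3 | h3
  · rw [C337.c2_three h0 ht h1 (by linarith), C337.c2_one h3]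
    congr 1
    ring
  rcases le_total u (ℓ + t) with h4 | h4
  · rw [C337.c2_two h0 (by linarith) (by linarith), C337.c2_two f0 h3 h4, rv_apply]
    congr 1
    ring
  · rw [C337.c2_one (by linarith), C337.c2_three f0 ht f1 h4]
    congr 1
    ring

variable [CompactSpace Q] {n : ℕ} {D S : Set Q} {ℓ : ℝ} {T : Q → ℝ → M}

/-- **The pulled back loops over a handle.** -/
noncomputable def cellXY (C : Cell Q n D S) (hD : IsClosed D) (hS : S ⊆ D) (hg : Continuous g)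
    (hT : TrY D g (fun _ => x₀) ℓ T) :
    SpIntl (ovr (Prod.fst : Q × (ℝ →ᵇ M) → Q) (fun t => XQ g t) D)
      (ovr (Prod.fst : Q × (ℝ →ᵇ M) → Q) (fun t => XQ g t) S)
      (fun t => H901.cub n (P x₀ x₀ t)) (fun t => H901.bdc n (P x₀ x₀ t)) (2 * ℓ) :=
  C337.spEq (spComp (spXY hD.isCompact hg.continuousOn hS hT)
    (spCube C hD.isCompact hS (fun t _ => isCompact_P x₀ x₀ t) (monoP_P x₀ x₀))
    (mul_nonneg zero_le_two hT.nonneg) le_rfl
    (fun s t _ h => XY_mono h subset_rfl) (fun s t _ h => XY_mono h subset_rfl)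
    (fun s t hs h => H901.mono_cub n (mono_P x₀) s t hs h)
    (fun s t hs h => H901.mono_bdc n (mono_P x₀) s t hs h)) (add_zero _).symm
    (fun t => ovr_XQ D t) (fun t => ovr_XQ S t) (fun t => rfl) (fun t => rfl)

/-- The reversal commutes with the trivialisation over a handle. -/
theorem cellXY_comm (C : Cell Q n D S) (hD : IsClosed D) (hS : S ⊆ D) (hg : Continuous g)
    (hT : TrY D g (fun _ => x₀) ℓ T) (t : ℝ) (ht : 0 < t) (q : Q × (ℝ →ᵇ M))
    (hq : q ∈ ovr (Prod.fst : Q × (ℝ →ᵇ M) → Q) (fun t => XQ g t) D t) :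
    cuM ((opP x₀).r (t + 2 * ℓ)) n ((cellXY C hD hS hg hT).f t q) =
      (cellXY C hD hS hg hT).f t ((evOpQ g).r t q) := by
  have h0 : q.2 0 = T q.1 0 := hq.1.2.2.trans (hT.left _ hq.2 0 le_rfl).symm
  have h1 : q.2 t = T q.1 0 := (hq.1.2.1.2.2 t le_rfl).trans h0
  change cuM (rv (t + 2 * ℓ)) n (enc n (mo (c2 ℓ t (T q.1) (T q.1) q.2)) (C.φ q.1)) =
    enc n (mo (c2 ℓ t (T q.1) (T q.1) (rv t q.2))) (C.φ q.1)
  rw [cuM_enc, c2_rv hT.nonneg ht.le (hT.lip _ hq.2) hq.1.2.1.1 h0 h1]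

end XQ

end Vale.Agent.P216.H550
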