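import Vale.Agent.P216.H550.HEq1

/-!
# P216-D: the pulled back free loops over a handle decomposition

`exists_cellXY`: the ladder data (`CellAt`, `CellAt.Op`) for the family `XQ g` over the handles of
`Q`, one constant for all fields.  `exists_genXQ`: the generators of `H^*(XQ g)`.
-/

set_option linter.all false

open Set Filter Topology BoundedContinuousFunction

namespace Vale.Agent.P216.H550

open Vale.Agent.P216.AS Vale.Agent.P216.H901 Vale.Agent.P216.PS Vale.Agent.P216.MV337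
open Vale.Agent.P216.H754B Vale.Agent.P216.H894 Vale.Agent.P216.H83 Vale.Agent.P216.B64
open Vale.Agent.P216.H285 Vale.Agent.P216.H774 Vale.Agent.P216.H133C
open Vale.Agent.P216.C313 (XY XY_mono)
open Vale.Agent.P216.C337 (TrY spXY isCompact_XY tw c2)

section Null

variable {Q M : Type} [MetricSpace Q] [MetricSpace M] [CompactSpace M] {L : Set Q} {g : Q → M}

/-- Tracks to `x₀` over a piece which is contractible in `Q`. -/
theorem exists_null_of_null [PathConnectedSpace M] {ρ : ℝ} (hρ : 0 < ρ) (hU : LS.UniqSeg M ρ)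
    (hL : IsCompact L) (hg : Continuous g) {K : Q × ℝ → Q} {y₀ : Q}
    (hK : ContinuousOn K (L ×ˢ Icc (0:ℝ) 1)) (hK0 : ∀ x ∈ L, K (x, 0) = x)
    (hK1 : ∀ x ∈ L, K (x, 1) = y₀) (x₀ : M) : ∃ ℓ T, TrY L g (fun _ => x₀) ℓ T := by
  let γ : ℝ → M := (PathConnectedSpace.somePath (g y₀) x₀).extend
  have hγ : Continuous γ := (PathConnectedSpace.somePath (g y₀) x₀).continuous_extend
  have hγ0 : γ 0 = g y₀ := (PathConnectedSpace.somePath (g y₀) x₀).extend_zero
  have hγ1 : γ 1 = x₀ := (PathConnectedSpace.somePath (g y₀) x₀).extend_one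
  refine C337.exists_null hρ hU hL
    (H := fun p : Q × ℝ => if 2 * p.2 ≤ 1 then g (K (p.1, min 1 (2 * p.2)))
      else γ (max 0 (2 * p.2 - 1))) ?_ ?_ ?_
  · refine PS.ContinuousOn.if_le' ?_ ?_ (by fun_prop) (by fun_prop) fun p hp he => ?_
    · have h1 : ContinuousOn (fun p : Q × ℝ => K (p.1, min 1 (2 * p.2))) (L ×ˢ Icc (0:ℝ) 1) :=
        ContinuousOn.comp (g := K) (t := L ×ˢ Icc (0:ℝ) 1)
          (f := fun p : Q × ℝ => ((p.1, min 1 (2 * p.2)) : Q × ℝ)) hK (by fun_prop)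
          fun p hp => ⟨hp.1, le_min zero_le_one (by linarith [hp.2.1]), min_le_left _ _⟩
      exact hg.comp_continuousOn h1
    · exact hγ.comp_continuousOn (by fun_prop)
    · rw [he, min_self, sub_self, max_self, hγ0, hK1 _ hp.1]
  · intro x hx
    show (if 2 * (0:ℝ) ≤ 1 then g (K (x, min 1 (2 * 0))) else γ (max 0 (2 * 0 - 1))) = g x
    rw [if_pos (by norm_num), mul_zero, min_eq_right zero_le_one, hK0 x hx]
  · intro x hx
    show (if 2 * (1:ℝ) ≤ 1 then g (K (x, min 1 (2 * 1))) else γ (max 0 (2 * 1 - 1))) = x₀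
    rw [if_neg (by norm_num), show max 0 (2 * (1:ℝ) - 1) = 1 by norm_num, hγ1]

/-- tracks over a handle -/
theorem exists_trYC [PathConnectedSpace M] [PathConnectedSpace Q] {n : ℕ} {D S : Set Q}
    (C : Cell Q n D S) (hD : IsCompact D) (hg : Continuous g) (x₀ : M) {ρ : ℝ} (hρ : 0 < ρ)
    (hU : LS.UniqSeg M ρ) : ∃ ℓ T, TrY D g (fun _ => x₀) ℓ T := by
  obtain ⟨y₀⟩ : Nonempty Q := inferInstance
  obtain ⟨H, hc, h0, h1⟩ := C.exists_null y₀
  exact exists_null_of_null hρ hU hD hg hc h0 h1 x₀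

/-- tracks of the same time over all handles -/
theorem exists_trYD [CompactSpace Q] [PathConnectedSpace M] [PathConnectedSpace Q] {d h : ℕ}
    (C : CellDec Q d h) (hg : Continuous g) (x₀ : M) {ρ : ℝ} (hρ : 0 < ρ)
    (hU : LS.UniqSeg M ρ) :
    ∃ ℓ, 0 ≤ ℓ ∧ ∀ j, j ≤ h → ∃ T, TrY (C.D j) g (fun _ => x₀) ℓ T := by
  have key : ∀ m : ℕ, ∃ ℓ, 0 ≤ ℓ ∧ ∀ j, j ≤ h → j < m →
      ∃ T, TrY (C.D j) g (fun _ => x₀) ℓ T := by
    intro m
    induction m with
    | zero => exact ⟨0, le_rfl, fun j _ hj => absurd hj (Nat.not_lt_zero _)⟩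
    | succ m ih =>
      obtain ⟨ℓ, h0, ih⟩ := ih
      by_cases hm : m ≤ h
      · obtain ⟨ℓ', T, hT⟩ := exists_trYC (C.cell m hm) (C.closed m).isCompact hg x₀ hρ hU
        refine ⟨max ℓ ℓ', h0.trans (le_max_left _ _), fun j hj hjm => ?_⟩
        rcases Nat.lt_succ_iff_lt_or_eq.1 hjm with h' | rfl
        · obtain ⟨T', hT'⟩ := ih j hj h'
          exact ⟨T', hT'.le (le_max_left _ _)⟩
        · exact ⟨T, hT.le (le_max_right _ _)⟩
      · exact ⟨ℓ, h0, fun j hj hjm => ih j hj (by omega)⟩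
  obtain ⟨ℓ, h0, hk⟩ := key (h + 1)
  exact ⟨ℓ, h0, fun j hj => hk j hj (by omega)⟩

end Null

section Cells

variable {Q M : Type} [MetricSpace Q] [CompactSpace Q] [MetricSpace M] [CompactSpace M]
  {d h : ℕ} {g : Q → M} {x₀ : M}

/-- **The pulled back loops over the handles, with the reversal**: one constant for all fields. -/
theorem exists_cellXY [PathConnectedSpace M] [PathConnectedSpace Q] (C : CellDec Q d h)
    (hg : Continuous g) {ρ : ℝ} (hρ : 0 < ρ) (hU : LS.UniqSeg M ρ) (x₀ : M) :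
    ∃ c : ℝ, 0 ≤ c ∧ ∀ (k : Type) [Field k], (2 : k) ≠ 0 → ∀ j ≤ h,
      ∃ S : CellAt (fun q => pmX k (mono_P x₀) q) (fun q => XD k (mono_XQ g) Prod.fst (C.L j) q)
        (fun q => XD k (mono_XQ g) Prod.fst (C.L (j + 1)) q) (d * j) c,
        Nonempty (S.Op (fun q => opOm (opP x₀) k (mono_P x₀) q)
          (fun q => opXD (evOpQ g) k (mono_XQ g) (C.L j) q)
          (fun q => opXD (evOpQ g) k (mono_XQ g) (C.L (j + 1)) q)) := by
  obtain ⟨ℓ, h0, hT⟩ := exists_trYD C hg x₀ hρ hU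
  refine ⟨2 * ℓ, mul_nonneg zero_le_two h0, fun k _ h2 j hj => ?_⟩
  obtain ⟨T, hT⟩ := hT j hj
  have hc : 0 ≤ 2 * ℓ := mul_nonneg zero_le_two h0
  exact ⟨cellAt (mono_XQ g) (mono_P x₀) continuous_fst (fun t ht => isCompact_XQ hg ht)
    (C.isClosed_L j) (C.closed j) (C.L_succ j) rfl
    (cellXY (C.cellL hj) (C.closed j) inter_subset_left hg hT)
    hc h2 (D_sub C) inter_subset_right (C.L_mono (Nat.le_succ j))
    inter_subset_left, ⟨cellOp (mono_XQ g) (mono_P x₀) continuous_fst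
      (fun t ht => isCompact_XQ hg ht) (C.isClosed_L j) (C.closed j) (C.L_succ j) rfl
      (cellXY (C.cellL hj) (C.closed j) inter_subset_left hg hT)
      hc h2 (D_sub C) inter_subset_right (C.L_mono (Nat.le_succ j))
      inter_subset_left (evOpQ g) (opP x₀)
      (cellXY_comm (C.cellL hj) (C.closed j) inter_subset_left hg hT)⟩⟩

/-- The reversal on the cohomology of the pulled back loops. -/
noncomputable abbrev opXQ (k : Type) [Field k] (g : Q → M) (q : ℕ) :
    PMOp (pmX k (mono_XQ g) q) :=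
  ((evOpQ g).sp sb_self sb_empty fun _ => empty_subset _).op k (mono_XQ g) mono_empty
    (fun _ => empty_subset _) q

theorem topQ_sub (C : CellDec Q d h) (t : ℝ) :
    ovr (Prod.fst : Q × (ℝ →ᵇ M) → Q) (fun t => XQ g t) (C.L (h + 1)) t ⊆ XQ g t := fun _ h => h.1

theorem sub_topQ (C : CellDec Q d h) (t : ℝ) :
    XQ g t ⊆ ovr (Prod.fst : Q × (ℝ →ᵇ M) → Q) (fun t => XQ g t) (C.L (h + 1)) t := fun w hw =>
  ⟨hw, by
    show w.1 ∈ C.L (h + 1)
    rw [C.L_top]
    exact mem_univ _⟩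

/-- restriction to an equal set, relative form -/
noncomputable def resREquiv {E : Type} [PseudoMetricSpace E] {k : Type} [Field k] {X Y : Set E}
    (h1 : Y ⊆ X) (h2 : X ⊆ Y) (q : ℕ) :
    Hr (tr E) (on k) X ∅ q ≃ₗ[k] Hr (tr E) (on k) Y ∅ q :=
  LinearEquiv.ofLinear (resR h1 (subset_refl ∅) q) (resR h2 (subset_refl ∅) q)
    (LinearMap.ext fun x => by obtain ⟨y, hy, rfl⟩ := H.exists_mk x; rfl)
    (LinearMap.ext fun x => by obtain ⟨y, hy, rfl⟩ := H.exists_mk x; rfl)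

/-- The pulled back loops over the last member of the filtration. -/
noncomputable def isoTopQ (k : Type) [Field k] (g : Q → M) (C : CellDec Q d h) (q : ℕ) :
    PMIso (pmX k (mono_XQ g) q) (XD k (mono_XQ g) Prod.fst (C.L (h + 1)) q) where
  e t ht := resREquiv (topQ_sub C t) (sub_topQ C t) q
  nat s t hs ht h x := by
    obtain ⟨y, hy, rfl⟩ := H.exists_mk x
    rfl

theorem isoTopQ_op (k : Type) [Field k] (g : Q → M) (C : CellDec Q d h) (q : ℕ) :
    IsoOp (isoTopQ k g C q) (opXQ k g q) (opXD (evOpQ g) k (mono_XQ g) (C.L (h + 1)) q) := by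
  intro t ht x
  obtain ⟨y, hy, rfl⟩ := H.exists_mk x
  rfl

/-- nothing over the empty set -/
theorem XDQ_zero (k : Type) [Field k] (g : Q → M) (C : CellDec Q d h) (q : ℕ) :
    ∀ t, 0 < t → ∀ x : (XD k (mono_XQ g) Prod.fst (C.L 0) q).V t, x = 0 := by
  intro t ht x
  obtain ⟨x, hx, rfl⟩ := H.exists_mk x
  refine H.mk_eq_zero.2 (T_le_Bc _ _ _ ⟨hx.1.1, 1, one_pos, fun y hy => ?_⟩)
  have := (hy.1 0).2
  rw [C.L_zero] at this
  exact absurd this (notMem_empty _)

/-- **The generators of the pulled back loops**: one constant for all fields. -/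
theorem exists_genXQ [PathConnectedSpace M] [PathConnectedSpace Q] (C : CellDec Q d h)
    (hg : Continuous g) {ρ : ℝ} (hρ : 0 < ρ) (hU : LS.UniqSeg M ρ) (x₀ : M) {q N : ℕ}
    (h4 : 4 ∣ d) (hd : 0 < d) (hh : 0 < h)
    (hD : N + 2 = d * (h + 1)) (he : q + 1 = d) {B : ℝ} (hB : 0 < B)
    (hO : ∀ (k : Type) [Field k], (2 : k) ≠ 0 → ∃ O : OmegaOutC M q N x₀ B k, OmegaSignC O) :
    ∃ B' : ℝ, 0 < B' ∧ ∀ (k : Type) [Field k], (2 : k) ≠ 0 →
      Nonempty (GenC (fun r => pmX k (mono_XQ g) r) (fun r => opXQ k g r) (sgn k)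
        (fun i => i * N + q) B') := by
  obtain ⟨c, hc, hS⟩ := exists_cellXY C hg hρ hU x₀
  have hK : 0 < CellSys.K (2 * B) (3 * B) c (fun j => d * j) (h + 1) (3 * B) :=
    CellSys.K_pos (by linarith) (by linarith) hc (by linarith) _
  have hJ0 : 0 ≤ ((h + 1 : ℕ) : ℝ) * (B + 2 * c) := mul_nonneg (Nat.cast_nonneg _) (by linarith)
  have hB' : 0 < genK (fun j => d * j) (h + 1) c B B := by
    unfold genK
    linarith
  refine ⟨_, hB', fun k _ h2 => ?_⟩
  obtain ⟨O, hs⟩ := hO k h2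
  choose S Op using fun j (hj : j < h + 1) => hS k h2 j (Nat.lt_succ_iff.1 hj)
  obtain ⟨Γ⟩ := genC_slots (X := fun j q => XD k (mono_XQ g) Prod.fst (C.L j) q) S
    (fun j hj => (Op j hj).some) (slotsOf O hB.le) hB hc h2 h4 hd hh hD he
    (fun q => XDQ_zero k g C q) (sign_W O hB.le hs) (sign_A O hB.le hs)
  exact ⟨Γ.iso (fun q => isoTopQ k g C q) fun q => isoTopQ_op k g C q⟩

end Cells

end Vale.Agent.P216.H550
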