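import Vale.Agent.P216.H550.HEq2

/-!
# P216-D: transfer of the generators to a retract

`GenC.retr`: if `X` is a retract of `Y` with a bounded shift, and the restriction `Y → X` is
injective up to a shift and commutes with the operators, the generators of `Y` give generators of
`X`.
-/

set_option linter.all false

open Set Filter Topology BoundedContinuousFunction

namespace Vale.Agent.P216.H894

open Vale.Agent.P216.H901 Vale.Agent.P216.H754B

variable {k : Type} [Field k]

section Retr

variable {A B : PM k} {c c' : ℝ}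

/-- The map `B → A` of a retract is injective up to the shift `c'`. -/
def RInj (R : Retr A B c) (c' : ℝ) : Prop := ∀ r s t (hr : 0 < r) (hs : 0 < s) (h1 : r + c' ≤ s)
  (h2 : s + c ≤ t) (h3 : r ≤ t) (y : B.V t), R.g s t hs h2 y = 0 → B.ρ r t hr h3 y = 0

/-- The map `B → A` of a retract commutes with the operators. -/
def RComm (R : Retr A B c) (OA : PMOp A) (OB : PMOp B) : Prop :=
  ∀ s t (hs : 0 < s) (ht : 0 < t) (h : s + c ≤ t) (y : B.V t),
    R.g s t hs h (OB.r t ht y) = OA.r s hs (R.g s t hs h y)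

/-- It is enough to check the levels `s`, `s + c`. -/
theorem RComm.of {R : Retr A B c} (hc : 0 ≤ c) {OA : PMOp A} {OB : PMOp B}
    (h : ∀ s (hs : 0 < s) (ht : 0 < s + c) y,
      R.g s (s + c) hs le_rfl (OB.r (s + c) ht y) = OA.r s hs (R.g s (s + c) hs le_rfl y)) :
    RComm R OA OB := by
  intro s t hs ht hst y
  have hs' : 0 < s + c := by linarith
  have key : ∀ z : B.V t, R.g s t hs hst z = R.g s (s + c) hs le_rfl (B.ρ (s + c) t hs' hst z) := by
    intro z
    rw [← R.g_nat s (s + c) s t hs hs' hs le_rfl le_rfl hst hst, A.ρ_refl]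
  rw [key, key, OB.nat, h]

theorem Retr.g_fam (R : Retr A B c) (hc : 0 ≤ c) (o : B.Fam) {s t : ℝ} (hs : 0 < s)
    (hs' : 0 < s + c) (ht : 0 < t) (h : s + c ≤ t) :
    R.g s t hs h (o.z t ht) = R.g s (s + c) hs le_rfl (o.z (s + c) hs') := by
  rw [← R.g_nat s (s + c) s t hs hs' hs le_rfl le_rfl h h, A.ρ_refl, o.comp (s + c) t hs' h]

/-- The image of a family. -/
def Retr.fam (R : Retr A B c) (hc : 0 ≤ c) (o : B.Fam) : A.Fam where
  z t ht := R.g t (t + c) ht le_rfl (o.z (t + c) (by linarith))
  comp s t hs h := by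
    have ht : 0 < t := hs.trans_le h
    have hs' : 0 < s + c := by linarith
    have ht' : 0 < t + c := by linarith
    rw [← Retr.g_fam R hc o hs hs' ht' (by linarith)]
    have e := R.g_nat t (t + c) s (t + c) ht ht' hs le_rfl h le_rfl (by linarith)
      (o.z (t + c) ht')
    rw [B.ρ_refl] at e
    exact e

end Retr

/-- **Generators of a retract.** -/
noncomputable def GenC.retr {X Y : ℕ → PM k} {OX : ∀ q, PMOp (X q)} {OY : ∀ q, PMOp (Y q)}
    {σ : ℕ → k} {e : ℕ → ℕ} {B c c' : ℝ} (Γ : GenC Y OY σ e B) (hB : 0 < B) (hc : 0 ≤ c)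
    (hc' : 0 ≤ c') (R : ∀ q, Retr (X q) (Y q) c) (hR : ∀ q, RComm (R q) (OX q) (OY q))
    (hi : ∀ q, RInj (R q) c') : GenC X OX σ e (B + 2 * c + c') where
  g q := Retr.fam (R q) hc (Γ.g q)
  line q s t hs hst h x := by
    have p1 : 0 < s + c := by linarith
    have p2 : 0 < t - c := by linarith
    obtain ⟨a, ha⟩ := Γ.line q (s + c) (t - c) p1 (by linarith) (by linarith)
      ((R q).f (t - c) t p2 (by linarith) x)
    refine ⟨a, ?_⟩
    have e1 := (R q).gf s (t - c) t hs p2 (by linarith) (by linarith) hst x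
    have e2 := (R q).g_nat s (s + c) s (t - c) hs p1 hs le_rfl le_rfl (by linarith) (by linarith)
      ((R q).f (t - c) t p2 (by linarith) x)
    rw [(X q).ρ_refl, ha, map_smul, e1] at e2
    exact e2.symm
  sign q t ht := by
    have p1 : 0 < t + c := by linarith
    show (OX q).r t ht ((R q).g t (t + c) ht le_rfl ((Γ.g q).z (t + c) p1)) = _
    rw [← hR q t (t + c) ht p1 le_rfl, Γ.sign, map_smul]
    rfl
  gap i t ht := by
    show (R _).g t (t + c) ht le_rfl ((Γ.g _).z (t + c) _) = 0
    rw [Γ.gap, map_zero]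
  birth0 t ht h h0 := by
    have p1 : 0 < t - c' := by linarith
    have e1 := hi _ (t - c') t (t + c) p1 ht (by linarith) le_rfl (by linarith) _ h0
    rw [(Γ.g _).comp] at e1
    exact Γ.birth0 _ p1 (by linarith) e1
  birth i t ht ht' h h0 := by
    have p1 : 0 < t + c := by linarith
    have p2 : 0 < t + c + B := by linarith
    have h1 : (Γ.g (e i)).z (t + c) p1 ≠ 0 := fun h2 => h (by
      show (R _).g t (t + c) ht le_rfl ((Γ.g _).z (t + c) _) = 0
      rw [h2, map_zero])
    have h2 := Γ.birth i (t + c) p1 p2 h1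
    apply h2
    have e1 := hi _ (t + c + B) (t + (B + 2 * c + c')) (t + (B + 2 * c + c') + c) p2 ht'
      (by linarith) le_rfl (by linarith) _ h0
    rw [(Γ.g _).comp] at e1
    exact e1

end Vale.Agent.P216.H894
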