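import Vale.Agent.P216.H550.HEq3

/-!
# P216-D: the free loops of a space homotopy equivalent to `Q`

`f : M → Q`, `g : Q → M` with `g ∘ f ~ id`, `f ∘ g ~ id`.  `H^*(FL M)` is a retract of `H^*(XQ g)`
(`F^* G^* = res`), and `F^*` is injective up to a bounded shift (`F ∘ Θ ~ id`).
-/

set_option linter.all false

open Set Filter Topology BoundedContinuousFunction

namespace Vale.Agent.P216.H550

open Vale.Agent.P216.AS Vale.Agent.P216.H901 Vale.Agent.P216.PS Vale.Agent.P216.MV337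
open Vale.Agent.P216.H754B Vale.Agent.P216.H894 Vale.Agent.P216.H83 Vale.Agent.P216.B64
open Vale.Agent.P216.H285 Vale.Agent.P216.H774 Vale.Agent.P216.H133C
open Vale.Agent.P216.C313 (XY XY_mono)
open Vale.Agent.P216.C337 (TrY spXY isCompact_XY tw c2 PY XY_eq PY_mono isMap_tw tw_mem)

/-- The reversal on the cohomology of the free loops, relative form. -/
noncomputable abbrev opFL (k : Type) [Field k] (M : Type) [MetricSpace M] (q : ℕ) :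
    PMOp (pmX k (H754B.mono_FL (M := M)) q) :=
  (evOp.sp sb_self sb_empty fun _ => empty_subset _).op k H754B.mono_FL mono_empty
    (fun _ => empty_subset _) q

section Geo

variable {Q M : Type} [MetricSpace Q] [CompactSpace Q] [MetricSpace M] [CompactSpace M]
  {g : Q → M} {f : M → Q} {ℓ ℓ' : ℝ} {T : M → ℝ → M}

/-- **The free loops are a retract of the pulled back loops.** -/
noncomputable def retrXQ (hg : Continuous g) (hf : Continuous f)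
    (hT : Tk (univ : Set M) id (fun x => g (f x)) ℓ T) :
    SpRetr (fun t => FL M t) (fun t => XQ g t) (2 * ℓ) :=
  domRetr (fun t ht => isCompact_XQ hg ht) hf (fun x => mem_univ _) hT

theorem retrXQ_comm (hg : Continuous g) (hf : Continuous f)
    (hT : Tk (univ : Set M) id (fun x => g (f x)) ℓ T) (k : Type) [Field k]
    (hℓ : 0 ≤ 2 * ℓ) (q : ℕ) :
    RComm ((retrXQ hg hf hT).retr k H754B.mono_FL (mono_XQ g) hℓ q) (opFL k M q) (opXQ k g q) := by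
  refine RComm.of hℓ fun s hs ht y => ?_
  set S := retrXQ hg hf hT with hS
  have m0 : IsMap (tr (ℝ →ᵇ M)) (tr (Q × (ℝ →ᵇ M))) (FL M s) (XQ g (s + 2 * ℓ)) (S.f s) :=
    S.map_f (mono_XQ g) hℓ hs le_rfl
  have m1 : IsMap (tr (Q × (ℝ →ᵇ M))) (tr (Q × (ℝ →ᵇ M))) (XQ g (s + 2 * ℓ)) (XQ g (s + 2 * ℓ))
      ((evOpQ g).r (s + 2 * ℓ)) := (evOpQ g).map _ ht
  have m2 : IsMap (tr (ℝ →ᵇ M)) (tr (ℝ →ᵇ M)) (FL M s) (FL M s) (evOp.r s) := evOp.map s hs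
  have e1 : ((S.retr k H754B.mono_FL (mono_XQ g) hℓ q).g s (s + 2 * ℓ) hs le_rfl
      ((opXQ k g q).r (s + 2 * ℓ) ht y)) =
      (pullR (on k) (m1.comp m0) (empty_subset _) (mapsTo_empty _ _) q :
        Hr (tr (Q × (ℝ →ᵇ M))) (on k) (XQ g (s + 2 * ℓ)) ∅ q →ₗ[k]
          Hr (tr (ℝ →ᵇ M)) (on k) (FL M s) ∅ q) y := by
    obtain ⟨z, hz, rfl⟩ := H.exists_mk y
    rfl
  have e2 : (opFL k M q).r s hs ((S.retr k H754B.mono_FL (mono_XQ g) hℓ q).g s (s + 2 * ℓ) hs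
      le_rfl y) =
      (pullR (on k) (m0.comp m2) (empty_subset _) (mapsTo_empty _ _) q :
        Hr (tr (Q × (ℝ →ᵇ M))) (on k) (XQ g (s + 2 * ℓ)) ∅ q →ₗ[k]
          Hr (tr (ℝ →ᵇ M)) (on k) (FL M s) ∅ q) y := by
    obtain ⟨z, hz, rfl⟩ := H.exists_mk y
    rfl
  rw [e1, e2]
  refine LinearMap.congr_fun (pullR_congr _ _ (empty_subset _) (mapsTo_empty _ _)
    (mapsTo_empty _ _) fun w hw => ?_) y
  have h0 : ∀ x, T x 0 = x := fun x => hT.left x trivial 0 le_rfl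
  have e3 : rv s w 0 = w 0 := rv_zero hw le_rfl
  change (f (w 0), rv (s + 2 * ℓ) (mo (c2 ℓ s (T (w 0)) (T (w 0)) w))) =
    (f (rv s w 0), mo (c2 ℓ s (T (rv s w 0)) (T (rv s w 0)) (rv s w)))
  rw [e3, c2_rv hT.nonneg hs.le (hT.lip _ trivial) hw.1 (h0 _).symm
    ((hw.2.2 s le_rfl).trans (h0 _).symm)]

/-! ### Moving along a homotopy of the base -/

/-- a homotopy `H` of the base from the identity to `u`, and tracks from `g y` to `g (H (y, s))` -/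
structure HTk (g : Q → M) (u : Q → Q) (H : Q × ℝ → Q) (ℓ' : ℝ) (T' : Q × ℝ → ℝ → M) : Prop where
  tr : TrY (univ ×ˢ Icc (0:ℝ) 1) (fun p : Q × ℝ => g p.1) (fun p => g (H p)) ℓ' T'
  Hc : Continuous H
  H0 : ∀ y, H (y, 0) = y
  H1 : ∀ y, H (y, 1) = u y
  c0 : ∀ y v, T' (y, 0) v = g y

theorem exists_htk {ρ : ℝ} (hρ : 0 < ρ) (hU : LS.UniqSeg M ρ) (hg : Continuous g) {u : Q → Q}
    {H : Q × ℝ → Q} (Hc : Continuous H) (H0 : ∀ y, H (y, 0) = y) (H1 : ∀ y, H (y, 1) = u y) :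
    ∃ ℓ' T', HTk g u H ℓ' T' := by
  obtain ⟨ℓ', T', h1, h2⟩ := C337.exists_tracksY (Y := Q × ℝ) (M := M) hρ hU
    (L := univ ×ˢ Icc (0:ℝ) 1) (isCompact_univ.prod isCompact_Icc)
    (f := fun p : Q × ℝ => g p.1) (g := fun p => g (H p))
    (H := fun p : (Q × ℝ) × ℝ => g (H (p.1.1, p.1.2 * p.2)))
    (by fun_prop) (fun p _ => by show g (H (p.1, p.2 * 0)) = g p.1; rw [mul_zero, H0])
    (fun p _ => by show g (H (p.1, p.2 * 1)) = g (H p); rw [mul_one])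
  refine ⟨ℓ', T', h1, Hc, H0, H1, fun y v => ?_⟩
  refine h2 (y, 0) ⟨trivial, le_rfl, zero_le_one⟩ (fun s _ => ?_) v
  show g (H (y, 0 * s)) = g y
  rw [zero_mul, H0]

section Move

variable {u : Q → Q} {H : Q × ℝ → Q} {T' : Q × ℝ → ℝ → M}

theorem HTk.track1 (h : HTk g u H ℓ' T') :
    TrY (univ : Set Q) g (fun y => g (u y)) ℓ' fun y => T' (y, 1) where
  nonneg := h.tr.nonneg
  lip y _ := h.tr.lip (y, 1) ⟨trivial, zero_le_one, le_rfl⟩
  left y _ v hv := h.tr.left (y, 1) ⟨trivial, zero_le_one, le_rfl⟩ v hv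
  right y _ v hv := by
    rw [h.tr.right (y, 1) ⟨trivial, zero_le_one, le_rfl⟩ v hv, h.H1]
  cont := h.tr.cont' (S := Q × ℝ) (X := fun p => (p.1, (1:ℝ))) (φ := fun p => p.2) (by fun_prop)
    (fun p _ => ⟨trivial, zero_le_one, le_rfl⟩) continuousOn_snd

/-- delays are homotopic to the identity -/
theorem hp_delay (hg : Continuous g) (hℓ : 0 ≤ ℓ') {t : ℝ} (ht : 0 < t) :
    Hp (XQ g t) ∅ (XQ g (t + 2 * ℓ')) ∅ id
      (fun q => (q.1, mo (c2 ℓ' t (fun _ => g q.1) (fun _ => g q.1) q.2))) := by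
  have hW : ∀ q ∈ XQ g t, q.2 ∈ P (g q.1) (g q.1) t := fun q hq => by
    have := hq.2.1
    rw [← hq.2.2]
    exact P_of_FL this
  have hmem : ∀ σ ∈ Icc (0:ℝ) 1, ∀ q ∈ XQ g t,
      mo (c2 (σ * ℓ') t (fun _ => g q.1) (fun _ => g q.1) q.2) ∈
        P (g q.1) (g q.1) (t + (σ * ℓ' + σ * ℓ')) := fun σ hσ q hq =>
    C337.mo_c2_mem (lip_const _) (lip_const _) (hW q hq).1 ht.le (mul_nonneg hσ.1 hℓ)
      (mul_nonneg hσ.1 hℓ) (eq_left (hW q hq) le_rfl) (eq_right (hW q hq) le_rfl)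
      (fun _ _ => rfl) fun _ _ => rfl
  have hle : ∀ σ ∈ Icc (0:ℝ) 1, t + (σ * ℓ' + σ * ℓ') ≤ t + 2 * ℓ' := fun σ hσ => by
    have := mul_le_mul_of_nonneg_right hσ.2 hℓ
    linarith
  refine MV337.hp_of_cont (isCompact_XQ hg ht) (F := fun p : ℝ × (Q × (ℝ →ᵇ M)) =>
    (p.2.1, mo (c2 (p.1 * ℓ') t (fun _ => g p.2.1) (fun _ => g p.2.1) p.2.2))) ?_ ?_ ?_ ?_ ?_
  · refine C337.continuousOn_mo_c2 (C := t + 2 * ℓ') (by fun_prop) (by fun_prop)
      continuousOn_const (by fun_prop) (fun φ hφ => ?_) (fun φ hφ => ?_) (fun _ _ => ht.le)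
      (fun p hp => eq_left (hW _ hp.2) le_rfl) (fun p hp => eq_right (hW _ hp.2) le_rfl)
      (fun _ _ => lip_const _) (fun _ _ => lip_const _) (fun p hp => (hW _ hp.2).1)
      (by linarith) fun p hp => ?_
    · exact hg.comp_continuousOn (by fun_prop)
    · exact hg.comp_continuousOn (by fun_prop)
    · exact PP_mono (hle _ hp.1) (P_subset_PP (hmem _ hp.1 _ hp.2))
  · intro σ hσ q hq
    exact mem_XY_of_P trivial (P_mono (hle σ hσ) (hmem σ hσ q hq))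
  · intro σ _ q hq
    exact hq.elim
  · intro q hq
    refine Prod.ext rfl ?_
    show mo (c2 (0 * ℓ') t (fun _ => g q.1) (fun _ => g q.1) q.2) = q.2
    rw [zero_mul]
    have e : c2 0 t (fun _ => g q.1) (fun _ => g q.1) q.2 = fun v => q.2 v := by
      funext v
      rw [C337.c2_const _ _ _ ht.le (hW q hq).2.1 (hW q hq).2.2, sub_zero]
    rw [e, mo_self]
  · intro q hq
    show (q.1, mo (c2 (1 * ℓ') t (fun _ => g q.1) (fun _ => g q.1) q.2)) = _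
    rw [one_mul]

/-- moving the base point along the homotopy -/
theorem hp_move (hg : Continuous g) (h : HTk g u H ℓ' T') {t : ℝ} (ht : 0 < t) :
    Hp (XQ g t) ∅ (XQ g (t + 2 * ℓ')) ∅
      (fun q => (q.1, mo (c2 ℓ' t (fun _ => g q.1) (fun _ => g q.1) q.2)))
      (fun q => (u q.1, mo (c2 ℓ' t (T' (q.1, 1)) (T' (q.1, 1)) q.2))) := by
  have hn := h.tr.nonneg
  have hW : ∀ q ∈ XQ g t, q.2 ∈ P (g q.1) (g q.1) t := fun q hq => by
    have := hq.2.1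
    rw [← hq.2.2]
    exact P_of_FL this
  have hL : ∀ σ ∈ Icc (0:ℝ) 1, ∀ y : Q, (y, σ) ∈ (univ : Set Q) ×ˢ Icc (0:ℝ) 1 := fun σ hσ y =>
    ⟨trivial, hσ⟩
  have h00 : ∀ σ ∈ Icc (0:ℝ) 1, ∀ q ∈ XQ g t, q.2 0 = T' (q.1, σ) 0 := fun σ hσ q hq => by
    rw [eq_left (hW q hq) le_rfl, h.tr.left _ (hL σ hσ q.1) 0 le_rfl]
  have h01 : ∀ σ ∈ Icc (0:ℝ) 1, ∀ q ∈ XQ g t, q.2 t = T' (q.1, σ) 0 := fun σ hσ q hq => by
    rw [eq_right (hW q hq) le_rfl, h.tr.left _ (hL σ hσ q.1) 0 le_rfl]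
  have hmem : ∀ σ ∈ Icc (0:ℝ) 1, ∀ q ∈ XQ g t,
      mo (c2 ℓ' t (T' (q.1, σ)) (T' (q.1, σ)) q.2) ∈
        P (g (H (q.1, σ))) (g (H (q.1, σ))) (t + (ℓ' + ℓ')) := fun σ hσ q hq =>
    C337.mo_c2_mem (h.tr.lip _ (hL σ hσ q.1)) (h.tr.lip _ (hL σ hσ q.1)) (hW q hq).1 ht.le hn hn
      (h00 σ hσ q hq) (h01 σ hσ q hq) (h.tr.right _ (hL σ hσ q.1)) (h.tr.right _ (hL σ hσ q.1))
  have hle : t + (ℓ' + ℓ') ≤ t + 2 * ℓ' := by linarith
  refine MV337.hp_of_cont (isCompact_XQ hg ht) (F := fun p : ℝ × (Q × (ℝ →ᵇ M)) =>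
    (H (p.2.1, p.1), mo (c2 ℓ' t (T' (p.2.1, p.1)) (T' (p.2.1, p.1)) p.2.2))) ?_ ?_ ?_ ?_ ?_
  · have hc := h.Hc
    refine C337.continuousOn_mo_c2 (C := t + 2 * ℓ') (by fun_prop) (by fun_prop)
      continuousOn_const continuousOn_const (fun φ hφ => ?_) (fun φ hφ => ?_) (fun _ _ => ht.le)
      (fun p hp => h00 _ hp.1 _ hp.2) (fun p hp => h01 _ hp.1 _ hp.2)
      (fun p hp => h.tr.lip _ (hL _ hp.1 _)) (fun p hp => h.tr.lip _ (hL _ hp.1 _))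
      (fun p hp => (hW _ hp.2).1) (by linarith) fun p hp => ?_
    · exact h.tr.cont' (X := fun p : ℝ × (Q × (ℝ →ᵇ M)) => ((p.2.1, p.1) : Q × ℝ)) (by fun_prop)
        (fun p hp => ⟨trivial, hp.1⟩) hφ
    · exact h.tr.cont' (X := fun p : ℝ × (Q × (ℝ →ᵇ M)) => ((p.2.1, p.1) : Q × ℝ)) (by fun_prop)
        (fun p hp => ⟨trivial, hp.1⟩) hφ
    · exact PP_mono hle (P_subset_PP (hmem _ hp.1 _ hp.2))
  · intro σ hσ q hq
    exact mem_XY_of_P trivial (P_mono hle (hmem σ hσ q hq))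
  · intro σ _ q hq
    exact hq.elim
  · intro q hq
    have e : T' (q.1, 0) = fun _ => g q.1 := funext fun v => h.c0 q.1 v
    show (H (q.1, 0), mo (c2 ℓ' t (T' (q.1, 0)) (T' (q.1, 0)) q.2)) = _
    rw [h.H0, e]
  · intro q hq
    show (H (q.1, 1), mo (c2 ℓ' t (T' (q.1, 1)) (T' (q.1, 1)) q.2)) = _
    rw [h.H1]

end Move

end Geo

end Vale.Agent.P216.H550
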