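import Vale.Agent.P216.H550.MainX
import Vale.Agent.P216.DV706.PInstC
import Vale.Agent.P216.Tight923.EndC

/-!
# P216-C: the main theorem from a handle decomposition and the based loops
-/

set_option linter.all false

open Set Topology Bundle Manifold
open scoped ContDiff

namespace Vale.Agent.P216.H550

open Vale.Agent.P216.H133C Vale.Agent.P216.B64

/-- **The main theorem of P216-C**, from a decomposition in handles of index `d j`, `j ≤ h`
(`4 ∣ d`), the finiteness of `H^*(M)` and the topology of the based loops. -/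
theorem main_cell {E : Type} [NormedAddCommGroup E] [NormedSpace ℝ E] [FiniteDimensional ℝ E]
    {M : Type} [MetricSpace M] [CompactSpace M] [ChartedSpace E M] [IsManifold 𝓘(ℝ, E) ∞ M]
    [RiemannianBundle (fun x : M => TangentSpace 𝓘(ℝ, E) x)]
    [IsContMDiffRiemannianBundle 𝓘(ℝ, E) ∞ E (fun x : M => TangentSpace 𝓘(ℝ, E) x)]
    [IsRiemannianManifold 𝓘(ℝ, E) M] [PathConnectedSpace M]
    {d h q N : ℕ} (C : CellDec M d h) (h4 : 4 ∣ d) (hd : 0 < d) (hh : 0 < h)
    (hD : N + 2 = d * (h + 1)) (he : q + 1 = d) (hF : FinM M) (hO : OmegaCGoal M q N) :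
    (primeClosedGeodesicImages M).Infinite :=
  main_C T695.tightEndC DV706.pcGoal (E := E) hF _ (xcGoal_of_omegaC C h4 hd hh hD he hO)

end Vale.Agent.P216.H550
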