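import Vale.Agent.P216.H550.HEq5
import Vale.Agent.P216.H550.MainC

/-!
# P216-D: the main theorem for spaces homotopy equivalent to a space with a handle decomposition
-/

set_option linter.all false

open Set Topology Bundle Manifold
open scoped ContDiff

namespace Vale.Agent.P216.H550

open Vale.Agent.P216.H133C Vale.Agent.P216.B64

/-- The stable cohomology of the free loops of a space homotopy equivalent to a space with a
handle decomposition, from the based loops. -/
theorem xcGoal_of_equiv {Q M : Type} [MetricSpace Q] [CompactSpace Q] [PathConnectedSpace Q]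
    [MetricSpace M] [CompactSpace M] [PathConnectedSpace M] {d h q N : ℕ} (C : CellDec Q d h)
    (e : ContinuousMap.HomotopyEquiv M Q) (h4 : 4 ∣ d) (hd : 0 < d) (hh : 0 < h)
    (hD : N + 2 = d * (h + 1)) (he : q + 1 = d) (hO : OmegaCGoal M q N) :
    XCGoal M (fun i => i * N + q) := by
  refine H774.xcGoal_of Vale.Agent.P216.MR.stMoore fun ρ hρ hU => ?_
  obtain ⟨x₀, B, hB, hO'⟩ := hO ρ hρ hU
  exact flGenC_of_equiv C e.toFun e.invFun e.left_inv e.right_inv hρ hU x₀ h4 hd hh hD he hB hO'

/-- **The main theorem for `M` homotopy equivalent to a space with a decomposition in handles of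
index `d j`, `j ≤ h`** (`4 ∣ d`), from the finiteness of `H^*(M)` and the topology of the based
loops of `M`. -/
theorem main_equiv {E : Type} [NormedAddCommGroup E] [NormedSpace ℝ E] [FiniteDimensional ℝ E]
    {M : Type} [MetricSpace M] [CompactSpace M] [ChartedSpace E M] [IsManifold 𝓘(ℝ, E) ∞ M]
    [RiemannianBundle (fun x : M => TangentSpace 𝓘(ℝ, E) x)]
    [IsContMDiffRiemannianBundle 𝓘(ℝ, E) ∞ E (fun x : M => TangentSpace 𝓘(ℝ, E) x)]
    [IsRiemannianManifold 𝓘(ℝ, E) M] [PathConnectedSpace M]
    {Q : Type} [MetricSpace Q] [CompactSpace Q] [PathConnectedSpace Q]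
    {d h q N : ℕ} (C : CellDec Q d h) (e : ContinuousMap.HomotopyEquiv M Q) (h4 : 4 ∣ d)
    (hd : 0 < d) (hh : 0 < h) (hD : N + 2 = d * (h + 1)) (he : q + 1 = d) (hF : FinM M)
    (hO : OmegaCGoal M q N) : (primeClosedGeodesicImages M).Infinite :=
  main_C T695.tightEndC DV706.pcGoal (E := E) hF _ (xcGoal_of_equiv C e h4 hd hh hD he hO)

end Vale.Agent.P216.H550
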