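import Vale.Agent.P216.H774D.MainE
import Vale.Agent.P216.H550.GenD3

/-!
# P216-D: assembly of GEN and the main theorem, odd case

`M` of odd dimension `n ≥ 5` with the cohomology of the `n`-sphere; based loops: `OmegaOut`.
-/

set_option linter.all false

open Set Topology Bundle Manifold
open scoped ContDiff

namespace Vale.Agent.P216.H550

open Vale.Agent.P216.B64 Vale.Agent.P216.AS Vale.Agent.P216.GM Vale.Agent.P216.MV337
open Vale.Agent.P216.PS Vale.Agent.P216.B609 Vale.Agent.P216.H901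
open Vale.Agent.P216.H754B Vale.Agent.P216.H894 Vale.Agent.P216.H83 Vale.Agent.P216.H285
open Vale.Agent.P216.H774 (FLFam hpull_G gX gX_eq exists_level gX_zero)
open Vale.Agent.P216.H133C Vale.Agent.P216.H774D

/-- The input of the assembly at a field `k`, odd case. -/
structure InO (M : Type) [MetricSpace M] (n : ℕ) (x₀ : M) (B : ℝ) (k : Type) [Field k] :
    Prop where
  om : Nonempty (OmegaOut M (n - 1) x₀ B k)
  stab : ∀ m : ℕ, (m : k) ≠ 0 → (m : k) ≠ 1 → (m : k) ^ ((n + 1) / 2) = 1 →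
    Stab (fun r => XP k M r) (fun i => (i + 1) * (n - 1)) ∧ FamWt M 0 m k

/-- **The assembly of GEN**, odd case. -/
theorem xdGoal_odd {M : Type} [MetricSpace M] [CompactSpace M] [PathConnectedSpace M]
    {V : Type} [NormedAddCommGroup V] [NormedSpace ℝ V]
    (T : Geometry.SimplicialComplex ℝ V) (hT : T.faces.Finite)
    (i : C(M, T.space)) (r : C(T.space, M)) (hri : (ContinuousMap.id M).Homotopic (r.comp i))
    (hM : StMoore) (x₀ : M) {n : ℕ} (hn : n % 2 = 1) (hn5 : 5 ≤ n)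
    {Q : ℕ → Prop} (hQ : ∀ p, Q p → (n + 1) / 2 ∣ p - 1)
    (H : ∀ ρ : ℝ, 0 < ρ → LS.UniqSeg M ρ → ∃ B : ℝ, 0 < B ∧ ∀ p : ℕ, ∀ _ : Fact p.Prime, 2 < p →
      Q p → InO M n x₀ B (ZMod p)) :
    XDGoal M Q 0 (fun i => (i + 1) * (n - 1)) := by
  intro ρ hρ hs
  obtain ⟨B, hB, H⟩ := H ρ hρ hs
  obtain ⟨I, hI⟩ := hM M ρ hρ hs 1 one_pos
  obtain ⟨C, hC, G⟩ := exists_stepFL1 hρ hs T hT i r hri x₀ hB
  have hB0 : 0 < 3 * C + B * ((n - 1 : ℕ) : ℝ) + B * (((0 + 1) * (n - 1) : ℕ) : ℝ) := by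
    positivity
  refine ⟨3 * C + B * ((n - 1 : ℕ) : ℝ) + B * (((0 + 1) * (n - 1) : ℕ) : ℝ) + 3, by linarith,
    fun p hp h2 hQp => ?_⟩
  obtain ⟨⟨O⟩, hS⟩ := H p hp h2 hQp
  obtain ⟨m, hm1, hm0, hmne, hms⟩ := exists_unit_root (p := p) (s := (n + 1) / 2) (by omega)
    (hQ p hQp)
  obtain ⟨hS, hw⟩ := hS m hm0 hmne hms
  have h2' : (2 : ZMod p) ≠ 0 := by
    intro h0
    have h3 : ((2 : ℕ) : ZMod p) = 0 := by exact_mod_cast h0
    rw [ZMod.natCast_eq_zero_iff] at h3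
    exact absurd (Nat.le_of_dvd (by norm_num) h3) (by omega)
  obtain ⟨g, _, g1, g2, g3, g4⟩ := gen_of_step (R := n - 1) hC
    (e := fun i => (i + 1) * (n - 1)) (fun i => Nat.mul_le_mul_right _ (by omega))
    (fun i => by rw [Nat.succ_mul (i + 1)]) (G (ZMod p) h2' (n - 1) (by omega) O) hS
  obtain ⟨c, hc⟩ : ∃ c, n - 1 = 2 * c := ⟨(n - 1) / 2, by omega⟩
  have F : FLGenD M 0 (fun i => (i + 1) * (n - 1))
      (3 * C + B * ((n - 1 : ℕ) : ℝ) + B * (((0 + 1) * (n - 1) : ℕ) : ℝ)) m (ZMod p) := by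
    refine flGenD g hm1 hB0.le g1 hw ?_ (fun j => ?_) (fun j => ?_) g2 g3 g4
    · intro a b hab
      show (a + 1) * (n - 1) < (b + 1) * (n - 1)
      exact Nat.mul_lt_mul_of_pos_right (by omega) (by omega)
    · show (j + 1) * (n - 1) % 2 = 0
      rw [hc, show (j + 1) * (2 * c) = 2 * ((j + 1) * c) by ring]
      omega
    · show 3 ≤ (j + 1) * (n - 1)
      have : 1 * (n - 1) ≤ (j + 1) * (n - 1) := Nat.mul_le_mul_right _ (by omega)
      omega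
  exact ⟨m, hm0, hmne, ⟨xGenD I F hB0 hm1 hI⟩⟩

/-- **The main theorem of P216-D, odd case** (`n` odd, `n ≥ 5`), from the based loops, the stable
classes and their weights (`InO`), for the primes `p > P0`, `p ≡ 1` modulo `(n + 1) / 2`. -/
theorem main_odd (hL : LiftD)
    {E : Type} [NormedAddCommGroup E] [NormedSpace ℝ E] [FiniteDimensional ℝ E]
    {M : Type} [MetricSpace M] [CompactSpace M] [ChartedSpace E M] [IsManifold 𝓘(ℝ, E) ∞ M]
    [RiemannianBundle (fun x : M => TangentSpace 𝓘(ℝ, E) x)]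
    [IsContMDiffRiemannianBundle 𝓘(ℝ, E) ∞ E (fun x : M => TangentSpace 𝓘(ℝ, E) x)]
    [IsRiemannianManifold 𝓘(ℝ, E) M] [PathConnectedSpace M]
    {n : ℕ} (hn : n % 2 = 1) (hn5 : 5 ≤ n) (P0 : ℕ) (x₀ : M)
    (H : ∀ ρ : ℝ, 0 < ρ → LS.UniqSeg M ρ → ∃ B : ℝ, 0 < B ∧ ∀ p : ℕ, ∀ _ : Fact p.Prime, 2 < p →
      P0 < p → (n + 1) / 2 ∣ p - 1 → InO M n x₀ B (ZMod p)) :
    (primeClosedGeodesicImages M).Infinite := by
  obtain ⟨ρ, hρ, hs, _⟩ := Geo.exists_uniqSeg E M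
  obtain ⟨c, T, i, r, hT, hri⟩ := H269D.exists_dom_manifold E M hρ hs
  refine main_D_of hL (E := E) (fun p => P0 < p ∧ (n + 1) / 2 ∣ p - 1) (fun K => ?_) 0
    (by norm_num) _ (xdGoal_odd T hT i r hri Vale.Agent.P216.MR.stMoore x₀ hn hn5
      (fun p hp => hp.2) fun ρ hρ hs => ?_)
  · obtain ⟨p, hp, hlt, hmod⟩ := Nat.exists_prime_gt_modEq_one (k := (n + 1) / 2) (max K P0)
      (by omega)
    refine ⟨p, lt_of_le_of_lt (le_max_left _ _) hlt, hp, lt_of_le_of_lt (le_max_right _ _) hlt, ?_⟩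
    exact (Nat.modEq_iff_dvd' hp.one_lt.le).1 hmod.symm
  · obtain ⟨B, hB, h⟩ := H ρ hρ hs
    exact ⟨B, hB, fun p hp h2 hQ => h p hp h2 hQ.1 hQ.2⟩

end Vale.Agent.P216.H550
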