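import Vale.Agent.P216.H550.ToFL
import Vale.Agent.P216.H539.StMoore

/-!
# P216-C: `XCGoal` from the based loops and a handle decomposition
-/

set_option linter.all false

namespace Vale.Agent.P216.B64

/-- **The topology of the based loops of `M`**, with the signs of the reversal (`q = d - 1`,
`N = (h + 1) d - 2`): one constant for all fields of characteristic not `2`. -/
def OmegaCGoal (M : Type) [MetricSpace M] (q N : ℕ) : Prop := ∀ ρ : ℝ, 0 < ρ → LS.UniqSeg M ρ →
  ∃ (x₀ : M) (B : ℝ), 0 < B ∧ ∀ (k : Type) [Field k], (2 : k) ≠ 0 →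
    ∃ O : OmegaOutC M q N x₀ B k, OmegaSignC O

end Vale.Agent.P216.B64

namespace Vale.Agent.P216.H550

open Vale.Agent.P216.H133C Vale.Agent.P216.B64

/-- **C07**: the stable cohomology of the free loops of `M`, from the based loops. -/
theorem xcGoal_of_omegaC {M : Type} [MetricSpace M] [CompactSpace M] [PathConnectedSpace M]
    {d h q N : ℕ} (C : CellDec M d h) (h4 : 4 ∣ d) (hd : 0 < d) (hh : 0 < h)
    (hD : N + 2 = d * (h + 1)) (he : q + 1 = d) (hO : OmegaCGoal M q N) :
    XCGoal M (fun i => i * N + q) := by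
  refine H774.xcGoal_of Vale.Agent.P216.MR.stMoore fun ρ hρ hU => ?_
  obtain ⟨x₀, B, hB, hO'⟩ := hO ρ hρ hU
  exact flGenC_of C hρ hU x₀ h4 hd hh hD he hB hO'

end Vale.Agent.P216.H550
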