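import Mathlib

/-!
# P216-D, block GEN: the arithmetic of the slots

`d` even, `d ≥ 4`, `h ≥ 1`, `N + 2 = d (h + 1)`.  The slots of the fibration of the free loops:
`(d j, s)`, `j ≤ h`, `s = i N` or `s = i N + (d - 1)`.
-/

set_option linter.all false

namespace Vale.Agent.P216.H550

/-- the data of a monogenic ring of even degree -/
structure DH (d h N : ℕ) : Prop where
  d4 : 4 ≤ d
  ev : d % 2 = 0
  h1 : 1 ≤ h
  hN : N + 2 = d * (h + 1)

/-- `(d j, s)` is a slot: `H^{dj}(M)` and `H^s(Ω M)` are not zero. -/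
def IsSlot (d h N j s : ℕ) : Prop := j ≤ h ∧ ∃ i, s = i * N ∨ s = i * N + (d - 1)

namespace DH

variable {d h N : ℕ} (H : DH d h N)

include H

theorem N_eq : N = d * h + d - 2 := by
  have := H.hN
  rw [Nat.mul_add, Nat.mul_one] at this
  omega

theorem N_ev : N % 2 = 0 := by
  have h1 : d * (h + 1) % 2 = 0 := by
    rw [Nat.mul_mod, H.ev, Nat.zero_mul, Nat.zero_mod]
  have := H.hN
  omega

theorem dh_le : d ≤ d * h := Nat.le_mul_of_pos_right d H.h1

theorem mul_ev (a b : ℕ) (hb : b % 2 = 0) : a * b % 2 = 0 := by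
  rw [Nat.mul_mod, hb, Nat.mul_zero, Nat.zero_mod]

theorem q_lt : d - 1 < N := by
  have := H.N_eq
  have := H.dh_le
  have := H.d4
  omega

/-- `d j = d j' + r N` with `j ≤ h` forces `r = 0`. -/
theorem aux {j c r : ℕ} (hj : j ≤ h) (e : d * j = c + (r + 1) * N) : False := by
  have h1 : d * j ≤ d * h := Nat.mul_le_mul_left d hj
  have h2 := H.N_eq
  have h3 := H.d4
  rw [Nat.succ_mul] at e
  omega

/-- even and odd parts -/
theorem ev_part (j i : ℕ) : (d * j + i * N) % 2 = 0 := by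
  have h1 : d * j % 2 = 0 := by
    rw [Nat.mul_comm]
    exact mul_ev H j d H.ev
  have h2 := mul_ev H i N H.N_ev
  omega

/-- Uniqueness in the even degrees. -/
theorem uniq0 {j j' i i' : ℕ} (hj : j ≤ h) (hj' : j' ≤ h) (e : d * j + i * N = d * j' + i' * N) :
    j = j' ∧ i = i' := by
  have hd : 0 < d := by have := H.d4; omega
  rcases lt_trichotomy i i' with h1 | h1 | h1
  · obtain ⟨r, rfl⟩ : ∃ r, i' = i + (r + 1) := ⟨i' - i - 1, by omega⟩
    rw [Nat.add_mul] at e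
    exact (H.aux hj (c := d * j') (r := r) (by omega)).elim
  · subst h1
    have : d * j = d * j' := by omega
    exact ⟨Nat.eq_of_mul_eq_mul_left hd this, rfl⟩
  · obtain ⟨r, rfl⟩ : ∃ r, i = i' + (r + 1) := ⟨i - i' - 1, by omega⟩
    rw [Nat.add_mul] at e
    exact (H.aux hj' (c := d * j) (r := r) (by omega)).elim

/-- **(S1)** At most one slot in every total degree. -/
theorem uniq {j j' s s' : ℕ} (hs : IsSlot d h N j s) (hs' : IsSlot d h N j' s')
    (e : d * j + s = d * j' + s') : j = j' ∧ s = s' := by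
  obtain ⟨hj, i, hi⟩ := hs
  obtain ⟨hj', i', hi'⟩ := hs'
  have p1 := H.ev_part j i
  have p2 := H.ev_part j' i'
  have p3 := H.ev
  have p4 := H.d4
  rcases hi with rfl | rfl <;> rcases hi' with rfl | rfl
  · obtain ⟨rfl, rfl⟩ := H.uniq0 hj hj' e
    exact ⟨rfl, rfl⟩
  · omega
  · omega
  · obtain ⟨rfl, rfl⟩ := H.uniq0 hj hj' (by omega : d * j + i * N = d * j' + i' * N)
    exact ⟨rfl, rfl⟩

/-- **(S2)** No slot just below the degree of `A i`. -/
theorem no_slot {i j s : ℕ} (hs : IsSlot d h N j s) : d * j + s ≠ i * N + (d - 1) - 1 := by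
  intro e
  obtain ⟨hj, i', hi'⟩ := hs
  have p1 := H.ev_part j i'
  have p2 := mul_ev H i N H.N_ev
  have p3 := H.ev
  have p4 := H.d4
  have p5 := H.N_eq
  have p6 := H.dh_le
  rcases hi' with rfl | rfl
  · rcases lt_or_ge i' i with h1 | h1
    · obtain ⟨r, rfl⟩ : ∃ r, i = i' + (r + 1) := ⟨i - i' - 1, by omega⟩
      rw [Nat.add_mul] at e
      exact H.aux hj (c := d - 2) (r := r) (by omega)
    · obtain ⟨r, rfl⟩ : ∃ r, i' = i + r := ⟨i' - i, by omega⟩
      rw [Nat.add_mul] at e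
      rcases Nat.eq_zero_or_pos r with rfl | hr
      · rcases Nat.eq_zero_or_pos j with rfl | hj0
        · omega
        · have : d ≤ d * j := Nat.le_mul_of_pos_right d hj0
          omega
      · have : N ≤ r * N := Nat.le_mul_of_pos_left N hr
        omega
  · omega

/-- **(S3)** The only slot with `j > 0` in the degree of `A i` plus one is `x W i`. -/
theorem slot_above {i j s : ℕ} (hs : IsSlot d h N j s) (hj0 : 0 < j)
    (e : d * j + s = i * N + (d - 1) + 1) : j = 1 ∧ s = i * N := by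
  obtain ⟨hj, i', hi'⟩ := hs
  have p1 := H.ev_part j i'
  have p2 := mul_ev H i N H.N_ev
  have p3 := H.ev
  have p4 := H.d4
  have p5 := H.N_eq
  have p6 := H.dh_le
  rcases hi' with rfl | rfl
  · obtain ⟨h1, rfl⟩ := H.uniq0 hj H.h1 (by omega : d * j + i' * N = d * 1 + i * N)
    exact ⟨h1, rfl⟩
  · omega

end DH

/-! ### Weights -/

section wt

variable {k : Type} [Field k] {d h N m : ℕ}

/-- weight in even degrees -/
theorem wt_ev (H : DH d h N) (hm : (m : k) ≠ 0) (hmd : (m : k) ^ (d / 2) = 1) (i j : ℕ) :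
    ((m : k)⁻¹) ^ ((d * j + i * N) / 2) = (m : k) ^ i := by
  obtain ⟨c, rfl⟩ : ∃ c, d = 2 * c := ⟨d / 2, by have := H.ev; omega⟩
  have hc : (m : k) ^ c = 1 := by
    rwa [Nat.mul_div_cancel_left c two_pos] at hmd
  have hN := H.hN
  have h4 := H.d4
  obtain ⟨b, hb⟩ : ∃ b, c * (h + 1) = b + 1 := ⟨c * (h + 1) - 1, by
    have : c ≤ c * (h + 1) := Nat.le_mul_of_pos_right c (Nat.succ_pos h)
    omega⟩
  have hN2 : N = 2 * b := by
    have : 2 * c * (h + 1) = 2 * (c * (h + 1)) := Nat.mul_assoc _ _ _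
    omega
  have e1 : (2 * c * j + i * N) / 2 = c * j + i * b := by
    rw [hN2, show 2 * c * j + i * (2 * b) = 2 * (c * j + i * b) by ring,
      Nat.mul_div_cancel_left _ two_pos]
  rw [e1]
  have e2 : ((m : k)⁻¹) ^ (c * j) = 1 := by
    rw [pow_mul, inv_pow, hc, inv_one, one_pow]
  have e3 : ((m : k)⁻¹) ^ (b + 1) = 1 := by
    rw [← hb, pow_mul, inv_pow, hc, inv_one, one_pow]
  have e4 : ((m : k)⁻¹) ^ b = m := by
    rw [pow_succ] at e3
    calc ((m : k)⁻¹) ^ b = ((m : k)⁻¹) ^ b * (m : k)⁻¹ * m := by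
          rw [mul_assoc, inv_mul_cancel₀ hm, mul_one]
      _ = m := by rw [e3, one_mul]
  rw [pow_add, e2, one_mul, Nat.mul_comm, pow_mul, e4]

/-- weight in odd degrees -/
theorem wt_odd (H : DH d h N) (hm : (m : k) ≠ 0) (hmd : (m : k) ^ (d / 2) = 1) (i j : ℕ) :
    ((m : k)⁻¹) ^ ((d * j + (i * N + (d - 1))) / 2) = (m : k) ^ (i + 1) := by
  have h4 := H.d4
  have hev := H.ev
  have h1 := H.ev_part (j + 1) i
  have h3 := H.ev_part j i
  have h2 : d * (j + 1) + i * N = d * j + (i * N + (d - 1)) + 1 := by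
    rw [Nat.mul_add, Nat.mul_one]
    omega
  have e1 := wt_ev (k := k) H hm hmd i (j + 1)
  have e2 : (d * (j + 1) + i * N) / 2 = (d * j + (i * N + (d - 1))) / 2 + 1 := by omega
  rw [e2, pow_succ] at e1
  calc ((m : k)⁻¹) ^ ((d * j + (i * N + (d - 1))) / 2)
      = ((m : k)⁻¹) ^ ((d * j + (i * N + (d - 1))) / 2) * (m : k)⁻¹ * m := by
        rw [mul_assoc, inv_mul_cancel₀ hm, mul_one]
    _ = _ := by rw [e1, pow_succ]

end wt

/-! ### One generator in the top degree, `n` odd -/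

section odd

/-- **(S5)** `n ≥ 4`: no slot just below the degree `(i + 1) (n - 1)`. -/
theorem no_slot_odd {n i j s : ℕ} (hn : 4 ≤ n) (hj : j ≤ 1)
    (hs : ∃ l, s = l * (n - 1)) : n * j + s ≠ (i + 1) * (n - 1) - 1 := by
  obtain ⟨l, rfl⟩ := hs
  obtain ⟨c, rfl⟩ : ∃ c, n = c + 1 := ⟨n - 1, by omega⟩
  rw [Nat.add_sub_cancel]
  intro e
  have h0 : 1 ≤ (i + 1) * c := Nat.mul_pos (Nat.succ_pos i) (by omega)
  obtain rfl | rfl : j = 0 ∨ j = 1 := by omega
  · -- `l c + 1 = (i + 1) c`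
    have e1 : l * c + 1 = (i + 1) * c := by omega
    rcases lt_or_ge l (i + 1) with h1 | h1
    · obtain ⟨r, hr⟩ : ∃ r, i + 1 = l + (r + 1) := ⟨i - l, by omega⟩
      rw [hr, Nat.add_mul, Nat.succ_mul] at e1
      omega
    · have := Nat.mul_le_mul_right c h1
      omega
  · have e1 : (l + 1) * c + 2 = (i + 1) * c := by
      rw [Nat.succ_mul]
      omega
    rcases lt_or_ge (l + 1) (i + 1) with h1 | h1
    · obtain ⟨r, hr⟩ : ∃ r, i + 1 = l + 1 + (r + 1) := ⟨i - l - 1, by omega⟩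
      rw [hr, Nat.add_mul (l + 1) (r + 1) c, Nat.succ_mul r c] at e1
      omega
    · have := Nat.mul_le_mul_right c h1
      omega

/-- uniqueness of the slots, `h = 1` -/
theorem uniq_odd {n j j' l l' : ℕ} (hn : 3 ≤ n) (hj : j ≤ 1) (hj' : j' ≤ 1)
    (e : n * j + l * (n - 1) = n * j' + l' * (n - 1)) : j = j' ∧ l = l' := by
  obtain ⟨c, rfl⟩ : ∃ c, n = c + 1 := ⟨n - 1, by omega⟩
  rw [Nat.add_sub_cancel] at e
  have hc : 0 < c := by omega
  have key : ∀ a b : ℕ, a * c + 1 ≠ b * c := by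
    intro a b e1
    rcases lt_or_ge a b with h1 | h1
    · obtain ⟨r, rfl⟩ : ∃ r, b = a + (r + 1) := ⟨b - a - 1, by omega⟩
      rw [Nat.add_mul, Nat.succ_mul] at e1
      omega
    · have := Nat.mul_le_mul_right c h1
      omega
  obtain rfl | rfl : j = 0 ∨ j = 1 := by omega
  · obtain rfl | rfl : j' = 0 ∨ j' = 1 := by omega
    · exact ⟨rfl, Nat.eq_of_mul_eq_mul_right hc (by omega)⟩
    · exact (key (l' + 1) l (by rw [Nat.succ_mul]; omega)).elim
  · obtain rfl | rfl : j' = 0 ∨ j' = 1 := by omega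
    · exact (key (l + 1) l' (by rw [Nat.succ_mul]; omega)).elim
    · exact ⟨rfl, Nat.eq_of_mul_eq_mul_right hc (by omega)⟩

/-- the only slot with `j = 1` in degree `(i + 1) (n - 1) + 1` -/
theorem slot_above_odd {n i l : ℕ} (hn : 3 ≤ n) (e : n * 1 + l * (n - 1) = (i + 1) * (n - 1) + 1) :
    l = i := by
  obtain ⟨c, rfl⟩ : ∃ c, n = c + 1 := ⟨n - 1, by omega⟩
  rw [Nat.add_sub_cancel, Nat.succ_mul i c] at e
  exact Nat.eq_of_mul_eq_mul_right (by omega : 0 < c) (by omega)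

variable {k : Type} [Field k] {n m : ℕ}

/-- weights, `n` odd, even degrees -/
theorem wt_om_odd (hn : n % 2 = 1) (hm : (m : k) ≠ 0) (hmn : (m : k) ^ ((n + 1) / 2) = 1)
    (j : ℕ) : ((m : k)⁻¹) ^ ((j * (n - 1) + 1) / 2) = (m : k) ^ j := by
  obtain ⟨c, rfl⟩ : ∃ c, n = 2 * c + 1 := ⟨n / 2, by omega⟩
  have h1 : (2 * c + 1 + 1) / 2 = c + 1 := by omega
  rw [h1] at hmn
  have h2 : (j * (2 * c + 1 - 1) + 1) / 2 = c * j := by
    rw [Nat.add_sub_cancel, show j * (2 * c) = 2 * (c * j) by ring]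
    omega
  have h3 : ((m : k)⁻¹) ^ c = m := by
    have e3 : ((m : k)⁻¹) ^ (c + 1) = 1 := by rw [inv_pow, hmn, inv_one]
    rw [pow_succ] at e3
    calc ((m : k)⁻¹) ^ c = ((m : k)⁻¹) ^ c * (m : k)⁻¹ * m := by
          rw [mul_assoc, inv_mul_cancel₀ hm, mul_one]
      _ = m := by rw [e3, one_mul]
  rw [h2, pow_mul, h3]

/-- weights, `n` odd, odd degrees -/
theorem wt_x_om_odd (hn : n % 2 = 1) (hm : (m : k) ≠ 0) (hmn : (m : k) ^ ((n + 1) / 2) = 1)
    (j : ℕ) : ((m : k)⁻¹) ^ ((n + j * (n - 1) + 1) / 2) = (m : k) ^ j := by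
  have e1 := wt_om_odd (k := k) hn hm hmn j
  obtain ⟨c, rfl⟩ : ∃ c, n = 2 * c + 1 := ⟨n / 2, by omega⟩
  have h1 : (2 * c + 1 + 1) / 2 = c + 1 := by omega
  rw [h1] at hmn
  have h2 : (j * (2 * c + 1 - 1) + 1) / 2 = c * j := by
    rw [Nat.add_sub_cancel, show j * (2 * c) = 2 * (c * j) by ring]
    omega
  have h3 : (2 * c + 1 + j * (2 * c + 1 - 1) + 1) / 2 = (c + 1) + c * j := by
    rw [Nat.add_sub_cancel, show j * (2 * c) = 2 * (c * j) by ring]
    omega
  rw [h2] at e1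
  rw [h3, pow_add, e1, inv_pow, hmn, inv_one, one_mul]

end odd

end Vale.Agent.P216.H550
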