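import Mathlib.Analysis.InnerProductSpace.PiL2
import Mathlib.Analysis.Normed.Module.Connected
import Mathlib.Topology.Connected.PathConnected

/-!
# The two caps of a sphere (input of the trivialisations, note 11516, section 1c)

`M` is homeomorphic to the unit sphere of `ℝⁿ⁺¹`.  With the sup-norm sphere, `D₊` is the top face
(a cube `[0,1]ⁿ`), `D₋` is the union of the other faces; both are contracted inside `M` to a given
base point.
-/

open Set Topology

namespace Vale.Agent.P216.H550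

/-- The decomposition `M = D₊ ∪ D₋` of a sphere. -/
structure Caps (n : ℕ) (M : Type) [MetricSpace M] (x0 : M) where
  Dp : Set M
  Dm : Set M
  closed_p : IsClosed Dp
  closed_m : IsClosed Dm
  union : Dp ∪ Dm = univ
  /-- the chart of `D₊` -/
  φ : M → Fin n → ℝ
  φ_cont : Continuous φ
  φ_mem : ∀ x i, φ x i ∈ Icc (0 : ℝ) 1
  ψ : (Fin n → ℝ) → M
  ψ_cont : ContinuousOn ψ {v | ∀ i, v i ∈ Icc (0 : ℝ) 1}
  ψ_mem : ∀ v, (∀ i, v i ∈ Icc (0 : ℝ) 1) → ψ v ∈ Dp
  φψ : ∀ v, (∀ i, v i ∈ Icc (0 : ℝ) 1) → φ (ψ v) = v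
  ψφ : ∀ x ∈ Dp, ψ (φ x) = x
  bd : ∀ x ∈ Dp, (x ∈ Dm ↔ ∃ i, φ x i = 0 ∨ φ x i = 1)
  /-- the contractions -/
  Hp : ℝ × M → M
  Hp_cont : ContinuousOn Hp (Icc (0 : ℝ) 1 ×ˢ Dp)
  Hp_zero : ∀ x ∈ Dp, Hp (0, x) = x
  Hp_one : ∀ x ∈ Dp, Hp (1, x) = x0
  Hm : ℝ × M → M
  Hm_cont : ContinuousOn Hm (Icc (0 : ℝ) 1 ×ˢ Dm)
  Hm_zero : ∀ x ∈ Dm, Hm (0, x) = x
  Hm_one : ∀ x ∈ Dm, Hm (1, x) = x0

section

variable {M : Type} [MetricSpace M] {n : ℕ}
  (h : M ≃ₜ Metric.sphere (0 : EuclideanSpace ℝ (Fin (n + 1))) 1)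

/-- the point of the sup-norm sphere -/
noncomputable def Y (x : M) : Fin (n + 1) → ℝ :=
  ‖WithLp.ofLp (h x : EuclideanSpace ℝ (Fin (n + 1)))‖⁻¹ •
    WithLp.ofLp (h x : EuclideanSpace ℝ (Fin (n + 1)))

theorem ofLp_ne (x : M) : WithLp.ofLp (h x : EuclideanSpace ℝ (Fin (n + 1))) ≠ 0 := by
  intro h0
  have h1 : (h x : EuclideanSpace ℝ (Fin (n + 1))) = 0 := by
    apply (WithLp.equiv 2 _).injective
    exact h0
  have h2 := mem_sphere_zero_iff_norm.1 (h x).2
  rw [h1, norm_zero] at h2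
  exact zero_ne_one h2

theorem continuous_Y : Continuous (Y h) := by
  have h1 : Continuous fun x : M => WithLp.ofLp (h x : EuclideanSpace ℝ (Fin (n + 1))) :=
    (PiLp.continuous_ofLp 2 _).comp (continuous_subtype_val.comp h.continuous)
  exact (h1.norm.inv₀ fun x => norm_ne_zero_iff.2 (ofLp_ne h x)).smul h1

theorem norm_Y (x : M) : ‖Y h x‖ = 1 := by
  rw [Y, norm_smul, norm_inv, norm_norm, inv_mul_cancel₀ (norm_ne_zero_iff.2 (ofLp_ne h x))]

theorem Y_ne (x : M) : Y h x ≠ 0 := by
  intro h0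
  have := norm_Y h x
  rw [h0, norm_zero] at this
  exact zero_ne_one this

theorem abs_Y_le (x : M) (i : Fin (n + 1)) : |Y h x i| ≤ 1 := by
  rw [← norm_Y h x, ← Real.norm_eq_abs]
  exact norm_le_pi_norm _ i

theorem exists_abs_Y (x : M) : ∃ i, |Y h x i| = 1 := by
  by_contra hcon
  push Not at hcon
  have h1 : ‖Y h x‖ < 1 := by
    rw [pi_norm_lt_iff one_pos]
    intro i
    rw [Real.norm_eq_abs]
    exact (abs_Y_le h x i).lt_of_ne (hcon i)
  rw [norm_Y] at h1
  exact lt_irrefl _ h1

open Classical in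
/-- the point of `M` in the direction `v` -/
noncomputable def Z (v : Fin (n + 1) → ℝ) : M :=
  if hv : v = 0 then h.symm ⟨EuclideanSpace.single 0 1, by simp⟩ else
    h.symm ⟨‖(WithLp.toLp 2 v : EuclideanSpace ℝ (Fin (n + 1)))‖⁻¹ •
      (WithLp.toLp 2 v : EuclideanSpace ℝ (Fin (n + 1))), by
      have h1 : (WithLp.toLp 2 v : EuclideanSpace ℝ (Fin (n + 1))) ≠ 0 := by
        intro h0
        apply hv
        have := congrArg WithLp.ofLp h0
        exact this
      rw [mem_sphere_zero_iff_norm, norm_smul, norm_inv, norm_norm,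
        inv_mul_cancel₀ (norm_ne_zero_iff.2 h1)]⟩

theorem toLp_ne {v : Fin (n + 1) → ℝ} (hv : v ≠ 0) :
    (WithLp.toLp 2 v : EuclideanSpace ℝ (Fin (n + 1))) ≠ 0 := by
  intro h0
  exact hv (congrArg WithLp.ofLp h0)

theorem h_Z {v : Fin (n + 1) → ℝ} (hv : v ≠ 0) :
    (h (Z h v) : EuclideanSpace ℝ (Fin (n + 1))) =
      ‖(WithLp.toLp 2 v : EuclideanSpace ℝ (Fin (n + 1)))‖⁻¹ •
      (WithLp.toLp 2 v : EuclideanSpace ℝ (Fin (n + 1))) := by
  rw [Z, dif_neg hv, Homeomorph.apply_symm_apply]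

theorem continuousOn_Z : ContinuousOn (Z h) {v | v ≠ 0} := by
  have h1 : ContinuousOn (fun v : Fin (n + 1) → ℝ => (h (Z h v) : EuclideanSpace ℝ (Fin (n + 1))))
      {v | v ≠ 0} := by
    have h2 : ContinuousOn (fun v : Fin (n + 1) → ℝ =>
        ‖(WithLp.toLp 2 v : EuclideanSpace ℝ (Fin (n + 1)))‖⁻¹ •
        (WithLp.toLp 2 v : EuclideanSpace ℝ (Fin (n + 1)))) {v | v ≠ 0} := by
      have h3 : Continuous fun v : Fin (n + 1) → ℝ =>
          (WithLp.toLp 2 v : EuclideanSpace ℝ (Fin (n + 1))) := PiLp.continuous_toLp 2 _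
      exact (h3.norm.continuousOn.inv₀ fun v hv => norm_ne_zero_iff.2 (toLp_ne hv)).smul
        h3.continuousOn
    exact h2.congr fun v hv => h_Z h hv
  have h4 : ContinuousOn (fun v => h (Z h v)) {v : Fin (n + 1) → ℝ | v ≠ 0} := by
    rw [continuousOn_iff_continuous_domRestrict] at h1 ⊢
    exact continuous_induced_rng.2 h1
  exact (h.symm.continuous.comp_continuousOn h4).congr fun v _ => by simp

theorem Z_smul {v : Fin (n + 1) → ℝ} (hv : v ≠ 0) {c : ℝ} (hc : 0 < c) : Z h (c • v) = Z h v := by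
  apply h.injective
  apply Subtype.ext
  have h1 : c • v ≠ 0 := smul_ne_zero hc.ne' hv
  rw [h_Z h h1, h_Z h hv]
  have h2 : (WithLp.toLp 2 (c • v) : EuclideanSpace ℝ (Fin (n + 1))) = c • WithLp.toLp 2 v := rfl
  rw [h2, norm_smul, Real.norm_eq_abs, abs_of_pos hc, mul_inv, smul_smul]
  congr 1
  field_simp

theorem Z_Y (x : M) : Z h (Y h x) = x := by
  have h1 := Z_smul h (ofLp_ne h x) (inv_pos.2 (norm_pos_iff.2 (ofLp_ne h x)))
  rw [Y, h1]
  apply h.injective
  apply Subtype.ext
  rw [h_Z h (ofLp_ne h x)]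
  have h2 := mem_sphere_zero_iff_norm.1 (h x).2
  have h3 : (WithLp.toLp 2 (WithLp.ofLp (h x : EuclideanSpace ℝ (Fin (n + 1)))) :
    EuclideanSpace ℝ (Fin (n + 1))) = h x := rfl
  rw [h3, h2, inv_one, one_smul]

theorem Y_Z {v : Fin (n + 1) → ℝ} (hv : ‖v‖ = 1) : Y h (Z h v) = v := by
  have hv0 : v ≠ 0 := by
    rintro rfl
    rw [norm_zero] at hv
    exact zero_ne_one hv
  have h1 : WithLp.ofLp (h (Z h v) : EuclideanSpace ℝ (Fin (n + 1))) =
      ‖(WithLp.toLp 2 v : EuclideanSpace ℝ (Fin (n + 1)))‖⁻¹ • v := by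
    rw [h_Z h hv0]
    rfl
  rw [Y, h1, norm_smul, norm_inv, norm_norm, hv, mul_one, inv_inv, smul_smul,
    mul_inv_cancel₀ (norm_ne_zero_iff.2 (toLp_ne hv0)), one_smul]

/-- the last unit vector -/
def el (n : ℕ) : Fin (n + 1) → ℝ := Pi.single (Fin.last n) 1

@[simp] theorem el_last : el n (Fin.last n) = 1 := by simp [el]

@[simp] theorem el_castSucc (i : Fin n) : el n i.castSucc = 0 := by
  rw [el, Pi.single_eq_of_ne (Fin.castSucc_lt_last i).ne]

/-- a deformation `H` of `D` to a point, continued along a path -/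
theorem extend_contr {M : Type} [MetricSpace M] [PathConnectedSpace M] (x0 : M) {D : Set M}
    {H : ℝ × M → M} {p : M} (hc : ContinuousOn H (Icc (0 : ℝ) 1 ×ˢ D)) (h0 : ∀ x ∈ D, H (0, x) = x)
    (h1 : ∀ x ∈ D, H (1, x) = p) : ∃ K : ℝ × M → M, ContinuousOn K (Icc (0 : ℝ) 1 ×ˢ D) ∧
      (∀ x ∈ D, K (0, x) = x) ∧ ∀ x ∈ D, K (1, x) = x0 := by
  obtain ⟨γ⟩ := PathConnectedSpace.joined p x0
  refine ⟨fun q => if q.1 ≤ 1 / 2 then H (2 * q.1, q.2) else γ.extend (2 * q.1 - 1), ?_, ?_, ?_⟩
  · have hU : Icc (0 : ℝ) 1 ×ˢ D = (Icc (0 : ℝ) (1 / 2) ×ˢ D) ∪ (Icc (1 / 2 : ℝ) 1 ×ˢ D) := by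
      rw [← union_prod, Icc_union_Icc_eq_Icc (by norm_num) (by norm_num)]
    have e1 : ContinuousOn (fun q : ℝ × M => if q.1 ≤ 1 / 2 then H (2 * q.1, q.2) else
        γ.extend (2 * q.1 - 1)) (Icc (0 : ℝ) (1 / 2) ×ˢ D) := by
      have : ContinuousOn (fun q : ℝ × M => H (2 * q.1, q.2)) (Icc (0 : ℝ) (1 / 2) ×ˢ D) := by
        refine hc.comp (by fun_prop) ?_
        rintro ⟨s, x⟩ ⟨hs, hx⟩
        exact ⟨⟨by linarith [hs.1], by linarith [hs.2]⟩, hx⟩
      refine this.congr ?_
      rintro ⟨s, x⟩ ⟨hs, hx⟩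
      exact if_pos hs.2
    have e2 : ContinuousOn (fun q : ℝ × M => if q.1 ≤ 1 / 2 then H (2 * q.1, q.2) else
        γ.extend (2 * q.1 - 1)) (Icc (1 / 2 : ℝ) 1 ×ˢ D) := by
      have : ContinuousOn (fun q : ℝ × M => γ.extend (2 * q.1 - 1)) (Icc (1 / 2 : ℝ) 1 ×ˢ D) :=
        (γ.continuous_extend.comp (by fun_prop)).continuousOn
      refine this.congr ?_
      rintro ⟨s, x⟩ ⟨hs, hx⟩
      rcases hs.1.lt_or_eq with hlt | heq
      · exact if_neg (not_le.2 hlt)
      · have hs' : s = 1 / 2 := heq.symm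
        subst hs'
        simp only [le_refl, if_true]
        rw [show (2 : ℝ) * (1 / 2) = 1 by norm_num, sub_self, γ.extend_zero]
        exact h1 x hx
    rw [hU]
    intro q hq
    have c1 : IsClosed ({q : ℝ × M | q.1 ≤ 1 / 2}) := isClosed_le continuous_fst continuous_const
    have c2 : IsClosed ({q : ℝ × M | 1 / 2 ≤ q.1}) := isClosed_le continuous_const continuous_fst
    refine ContinuousWithinAt.union ?_ ?_
    · by_cases hq1 : q ∈ Icc (0 : ℝ) (1 / 2) ×ˢ D
      · exact e1 q hq1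
      · have hq2 : ¬ q.1 ≤ 1 / 2 := by
          intro hle
          rcases hq with hq | hq
          · exact hq1 hq
          · exact hq1 ⟨⟨by linarith [hq.1.1], hle⟩, hq.2⟩
        refine continuousWithinAt_of_notMem_closure fun hcl => hq2 ?_
        exact closure_minimal (fun y hy => hy.1.2) c1 hcl
    · by_cases hq1 : q ∈ Icc (1 / 2 : ℝ) 1 ×ˢ D
      · exact e2 q hq1
      · have hq2 : ¬ 1 / 2 ≤ q.1 := by
          intro hle
          rcases hq with hq | hq
          · exact hq1 ⟨⟨hle, by linarith [hq.1.2]⟩, hq.2⟩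
          · exact hq1 hq
        refine continuousWithinAt_of_notMem_closure fun hcl => hq2 ?_
        exact closure_minimal (fun y hy => hy.1.1) c2 hcl
  · intro x hx
    simp only
    rw [if_pos (by norm_num), mul_zero]
    exact h0 x hx
  · intro x _
    simp only
    rw [if_neg (by norm_num), show (2 : ℝ) * 1 - 1 = 1 by norm_num, γ.extend_one]

include h in
/-- **The caps.** -/
theorem exists_caps [PathConnectedSpace M] (x0 : M) : Nonempty (Caps n M x0) := by
  -- the sets
  set Dp : Set M := {x | Y h x (Fin.last n) = 1} with hDp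
  set Dm : Set M := {x | Y h x (Fin.last n) = -1 ∨ ∃ i : Fin n, |Y h x i.castSucc| = 1} with hDm
  have hYi : ∀ i, Continuous fun x => Y h x i := fun i => (continuous_apply i).comp (continuous_Y h)
  have cp : IsClosed Dp := isClosed_eq (hYi _) continuous_const
  have cm : IsClosed Dm := by
    have e : Dm = {x | Y h x (Fin.last n) = -1} ∪ ⋃ i : Fin n, {x | |Y h x i.castSucc| = 1} := by
      ext x
      simp [hDm]
    rw [e]
    exact (isClosed_eq (hYi _) continuous_const).union
      (isClosed_iUnion_of_finite fun i => isClosed_eq (hYi _).abs continuous_const)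
  have hun : Dp ∪ Dm = univ := by
    rw [eq_univ_iff_forall]
    intro x
    obtain ⟨i, hi⟩ := exists_abs_Y h x
    induction i using Fin.lastCases with
    | last =>
      rcases (abs_eq one_pos.le).1 hi with h1 | h1
      · exact Or.inl h1
      · exact Or.inr (Or.inl h1)
    | cast i => exact Or.inr (Or.inr ⟨i, hi⟩)
  -- the chart
  set w : (Fin n → ℝ) → (Fin (n + 1) → ℝ) := fun v => Fin.snoc (fun i => 2 * v i - 1) 1 with hw
  have wl : ∀ v, w v (Fin.last n) = 1 := fun v => by simp [hw]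
  have wc : ∀ v (i : Fin n), w v i.castSucc = 2 * v i - 1 := fun v i => by simp [hw]
  have wn : ∀ v, (∀ i, v i ∈ Icc (0 : ℝ) 1) → ‖w v‖ = 1 := by
    intro v hv
    refine le_antisymm ((pi_norm_le_iff_of_nonneg one_pos.le).2 fun i => ?_) ?_
    · rw [Real.norm_eq_abs]
      induction i using Fin.lastCases with
      | last => rw [wl, abs_one]
      | cast i =>
        rw [wc, abs_le]
        constructor <;> linarith [(hv i).1, (hv i).2]
    · have := norm_le_pi_norm (w v) (Fin.last n)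
      rwa [wl, norm_one] at this
  have w0 : ∀ v, w v ≠ 0 := fun v h0 => by
    have := wl v
    rw [h0] at this
    exact zero_ne_one this
  have hwc : Continuous w := by
    refine continuous_pi fun i => ?_
    induction i using Fin.lastCases with
    | last =>
      simp only [wl]
      exact continuous_const
    | cast i =>
      simp only [wc]
      fun_prop
  -- the deformations
  have hp : ContinuousOn (fun q : ℝ × M => Z h ((1 - q.1) • Y h q.2 + q.1 • el n))
      (Icc (0 : ℝ) 1 ×ˢ Dp) := by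
    refine (continuousOn_Z h).comp (Continuous.continuousOn ?_) ?_
    · have := (continuous_Y h).comp (continuous_snd (X := ℝ) (Y := M))
      exact ((continuous_const.sub continuous_fst).smul this).add
        (continuous_fst.smul continuous_const)
    · rintro ⟨s, x⟩ ⟨_, hx⟩ h0
      have h1 := congrFun h0 (Fin.last n)
      simp only [Pi.add_apply, Pi.smul_apply, smul_eq_mul, el_last, Pi.zero_apply] at h1
      have h2 : Y h x (Fin.last n) = 1 := hx
      rw [h2] at h1
      linarith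
  have hm : ContinuousOn (fun q : ℝ × M => Z h ((1 - q.1) • Y h q.2 - q.1 • el n))
      (Icc (0 : ℝ) 1 ×ˢ Dm) := by
    refine (continuousOn_Z h).comp (Continuous.continuousOn ?_) ?_
    · have := (continuous_Y h).comp (continuous_snd (X := ℝ) (Y := M))
      exact ((continuous_const.sub continuous_fst).smul this).sub
        (continuous_fst.smul continuous_const)
    · rintro ⟨s, x⟩ ⟨_, hx⟩ h0
      have h1 := congrFun h0 (Fin.last n)
      simp only [Pi.sub_apply, Pi.smul_apply, smul_eq_mul, el_last, Pi.zero_apply, mul_one] at h1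
      rcases hx with h2 | ⟨i, h2⟩
      · have h2' : Y h x (Fin.last n) = -1 := h2
        rw [h2'] at h1
        linarith
      · have h3 := congrFun h0 i.castSucc
        simp only [Pi.sub_apply, Pi.smul_apply, smul_eq_mul, el_castSucc, Pi.zero_apply, mul_zero,
          sub_zero] at h3
        have h4 : Y h x i.castSucc ≠ 0 := by
          intro h5
          rw [h5, abs_zero] at h2
          exact zero_ne_one h2
        have h5 : 1 - s = 0 := (mul_eq_zero.1 h3).resolve_right h4
        rw [h5, zero_mul] at h1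
        linarith
  obtain ⟨Hp, Hp1, Hp2, Hp3⟩ := extend_contr x0 (p := Z h (el n)) hp
    (fun x _ => by simp [Z_Y]) (fun x _ => by simp)
  obtain ⟨Hm, Hm1, Hm2, Hm3⟩ := extend_contr x0 (p := Z h (-el n)) hm
    (fun x _ => by simp [Z_Y]) (fun x _ => by simp)
  refine ⟨{ Dp := Dp, Dm := Dm, closed_p := cp, closed_m := cm, union := hun,
            φ := fun x i => (Y h x i.castSucc + 1) / 2
            φ_cont := continuous_pi fun i => ((hYi _).add continuous_const).div_const _
            φ_mem := ?_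
            ψ := fun v => Z h (w v)
            ψ_cont := ((continuousOn_Z h).comp hwc.continuousOn fun v _ => w0 v)
            ψ_mem := ?_
            φψ := ?_
            ψφ := ?_
            bd := ?_
            Hp := Hp, Hp_cont := Hp1, Hp_zero := Hp2, Hp_one := Hp3
            Hm := Hm, Hm_cont := Hm1, Hm_zero := Hm2, Hm_one := Hm3 }⟩
  · intro x i
    have := abs_le.1 (abs_Y_le h x i.castSucc)
    constructor <;> linarith [this.1, this.2]
  · intro v hv
    show Y h (Z h (w v)) (Fin.last n) = 1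
    rw [Y_Z h (wn v hv), wl]
  · intro v hv
    funext i
    rw [Y_Z h (wn v hv), wc]
    ring
  · intro x hx
    have h1 : w (fun i => (Y h x i.castSucc + 1) / 2) = Y h x := by
      funext i
      induction i using Fin.lastCases with
      | last =>
        rw [wl]
        exact (show Y h x (Fin.last n) = 1 from hx).symm
      | cast i =>
        rw [wc]
        ring
    rw [h1, Z_Y]
  · intro x hx
    have hx' : Y h x (Fin.last n) = 1 := hx
    constructor
    · rintro (h1 | ⟨i, h1⟩)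
      · rw [hx'] at h1
        norm_num at h1
      · refine ⟨i, ?_⟩
        rcases (abs_eq one_pos.le).1 h1 with h2 | h2
        · right
          rw [h2]
          norm_num
        · left
          rw [h2]
          norm_num
    · rintro ⟨i, h1 | h1⟩
      · refine Or.inr ⟨i, ?_⟩
        have : Y h x i.castSucc = -1 := by linarith
        rw [this, abs_neg, abs_one]
      · refine Or.inr ⟨i, ?_⟩
        have : Y h x i.castSucc = 1 := by linarith
        rw [this, abs_one]

/-- `M` is path connected for `n ≥ 1`. -/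
theorem pathConnectedSpace (hn : 1 ≤ n)
    (h : M ≃ₜ Metric.sphere (0 : EuclideanSpace ℝ (Fin (n + 1))) 1) : PathConnectedSpace M := by
  have h1 : 1 < Module.rank ℝ (EuclideanSpace ℝ (Fin (n + 1))) := by
    rw [← Module.finrank_eq_rank, finrank_euclideanSpace_fin]
    exact_mod_cast (by omega : 1 < n + 1)
  have h2 := isPathConnected_sphere h1 (0 : EuclideanSpace ℝ (Fin (n + 1))) (zero_le_one (α := ℝ))
  have h3 : PathConnectedSpace (Metric.sphere (0 : EuclideanSpace ℝ (Fin (n + 1))) 1) :=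
    isPathConnected_iff_pathConnectedSpace.1 h2
  exact h.symm.surjective.pathConnectedSpace h.symm.continuous

end

end Vale.Agent.P216.H550
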