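import Vale.Agent.P216.H550.OmC
import Vale.Agent.P216.H774.ToXC

/-!
# P216-C: from the persistence form to `FLGenC`

`flGenC : GenC (H^*(FL M)) → FLGenC M 1 e 1 B k`, `isoTop`: the loops over the last member of the
filtration are all free loops, `flGenC_of`: from a handle decomposition and `OmegaOutC` with its
signs to `FLGenC`.
-/

set_option linter.all false

open Set BoundedContinuousFunction

namespace Vale.Agent.P216.H550

open Vale.Agent.P216.AS Vale.Agent.P216.H901 Vale.Agent.P216.PS Vale.Agent.P216.MV337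
open Vale.Agent.P216.H754B Vale.Agent.P216.H894 Vale.Agent.P216.H83 Vale.Agent.P216.B64
open Vale.Agent.P216.H285 Vale.Agent.P216.H774 Vale.Agent.P216.H133C

/-- The reversal on the cohomology of the free loops. -/
noncomputable abbrev opXP (k : Type) [Field k] (M : Type) [MetricSpace M] (q : ℕ) :
    PMOp (XP k M q) :=
  (evOp.sp sb_self sb_empty fun _ => empty_subset _).opa k mono_FL q

section Out

variable {M : Type} [MetricSpace M] {B : ℝ} {k : Type} [Field k] {e : ℕ → ℕ}
  (Γ : GenC (fun q => XP k M q) (fun q => opXP k M q) (sgn k) e B)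

/-- The generators, for all real `t`. -/
noncomputable def gC (q : ℕ) (t : ℝ) : HU k (FL M t) q :=
  if ht : 0 < t then (Γ.g q).z t ht else (0 : HU k (FL M t) q)

theorem gC_eq (q : ℕ) (t : ℝ) (ht : 0 < t) : gC Γ q t = (Γ.g q).z t ht := by
  unfold gC
  exact dif_pos ht

/-- **`FLGenC` from `GenC`.** -/
noncomputable def flGenC (he : StrictMono e) (hp : ∀ i, e i % 2 = 1)
    (h3 : ∀ i, 3 ≤ e i) (hB : 0 ≤ B) : FLGenC M 1 e 1 B k where
  g := gC Γ
  res_g q s t hs h := by
    rw [gC_eq Γ q s hs, gC_eq Γ q t (hs.trans_le h)]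
    exact (Γ.g q).comp s t hs h
  span q t ht h z := by
    obtain ⟨a, ha⟩ := Γ.line q t (t + B) ht (by linarith) le_rfl z
    refine ⟨a, ?_⟩
    rw [gC_eq Γ q t ht]
    exact ha
  rev_zero t ht f hf h := by
    obtain rfl := revP_eq hf
    rw [gC_eq Γ _ t ht]
    have h1 := Γ.sign 0 t ht
    have h2 : sgn k 0 = 1 := by
      unfold sgn
      simp
    rw [h2, one_smul] at h1
    exact h1
  rev_x n t ht h0 hn f hf h := by
    obtain rfl := revP_eq hf
    rw [gC_eq Γ _ t ht]
    have h1 := Γ.sign n t ht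
    have h2 : sgn k n = ((1 : ℤ) : k) * (-1 : k) ^ (n / 2) := by
      unfold sgn
      rw [Int.cast_one, one_mul]
    rw [h2] at h1
    exact h1
  rev_y n t ht h0 hn f hf h := by
    obtain rfl := revP_eq hf
    rw [gC_eq Γ _ t ht]
    have h1 := Γ.sign n t ht
    have h2 : sgn k n = ((1 : ℤ) : k) * (-1 : k) ^ ((n + 1) / 2) := by
      unfold sgn
      rw [Int.cast_one, one_mul]
      congr 1
      omega
    rw [h2] at h1
    exact h1
  e_mono := he
  e_par := hp
  e_ge := h3
  gap i t t' ht ht' _ := by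
    rw [gC_eq Γ _ t' ht']
    exact Γ.gap i t' ht'
  birth0 t ht h := by
    rw [gC_eq Γ _ t ht]
    exact Γ.birth0 t ht h
  birth i t ht h := by
    rw [gC_eq Γ _ t ht] at h
    rw [gC_eq Γ _ (t + B) (by linarith)]
    exact Γ.birth i t ht (by linarith) h

end Out

/-! ### All free loops -/

section Top

variable {E : Type} [PseudoMetricSpace E] {k : Type} [Field k] {X Y : Set E}

/-- Equal sets. -/
noncomputable def resEquiv (h1 : Y ⊆ X) (h2 : X ⊆ Y) (q : ℕ) :
    Ha (tr E) (on k) X q ≃ₗ[k] Ha (tr E) (on k) Y q :=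
  LinearEquiv.ofLinear (res h1 q) (res h2 q)
    (LinearMap.ext fun x => (res_res h2 h1 x).trans (res_refl subset_rfl x))
    (LinearMap.ext fun x => (res_res h1 h2 x).trans (res_refl subset_rfl x))

variable {M : Type} [MetricSpace M] {d h : ℕ} (C : CellDec M d h)

theorem top_sub (t : ℝ) : ovr evz (fun t => FL M t) (C.L (h + 1)) t ⊆ FL M t := fun _ h => h.1

theorem sub_top (t : ℝ) : FL M t ⊆ ovr evz (fun t => FL M t) (C.L (h + 1)) t := fun w hw =>
  ⟨hw, by
    show evz w ∈ C.L (h + 1)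
    rw [C.L_top]
    exact mem_univ _⟩

/-- The loops over the last member of the filtration are all free loops. -/
noncomputable def isoTopA (q : ℕ) : PMIso (XP k M q) (XD k mono_FL evz (C.L (h + 1)) q) where
  e t ht := (resEquiv (top_sub C t) (sub_top C t) q).trans
    (absE k (ovr evz (fun t => FL M t) (C.L (h + 1)) t) q)
  nat s t hs ht h x := by
    obtain ⟨y, hy, rfl⟩ := H.exists_mk x
    rfl

theorem isoTopA_op (q : ℕ) : IsoOp (isoTopA (k := k) C q) (opXP k M q)
    (opXD evOp k mono_FL (C.L (h + 1)) q) := by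
  intro t ht x
  obtain ⟨y, hy, rfl⟩ := H.exists_mk x
  rfl

/-- nothing over the empty set -/
theorem XD_zero (q : ℕ) : ∀ t, 0 < t → ∀ x : (XD k mono_FL evz (C.L 0) q).V t, x = 0 := by
  intro t ht x
  obtain ⟨x, hx, rfl⟩ := H.exists_mk x
  refine H.mk_eq_zero.2 (T_le_Bc _ _ _ ⟨hx.1.1, 1, one_pos, fun y hy => ?_⟩)
  have := (hy.1 0).2
  rw [C.L_zero] at this
  exact absurd this (notMem_empty _)

end Top

/-! ### The assembly -/

section Main

variable {M : Type} [MetricSpace M] [CompactSpace M] {d h q N : ℕ}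

/-- arithmetic of the degrees -/
theorem deg_facts (h4 : 4 ∣ d) (hd : 0 < d) (hh : 0 < h) (hD : N + 2 = d * (h + 1))
    (he : q + 1 = d) : (StrictMono fun i => i * N + q) ∧ (∀ i, (i * N + q) % 2 = 1) ∧
      ∀ i, 3 ≤ i * N + q := by
  have hd4 : 4 ≤ d := Nat.le_of_dvd hd h4
  have hp := slot_parity h4 hD
  have hdh : d ≤ d * h := Nat.le_mul_of_pos_right d hh
  have h5 : d * (h + 1) = d * h + d := by ring
  refine ⟨fun i j hij => ?_, fun i => ?_, fun i => by omega⟩
  · have : i * N < j * N := Nat.mul_lt_mul_of_pos_right hij (by omega)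
    show i * N + q < j * N + q
    omega
  · have p1 : (i * N) % 2 = 0 := by rw [Nat.mul_mod, hp]; simp
    omega

/-- **From the based loops to `FLGenC`**: one constant for all fields. -/
theorem flGenC_of [PathConnectedSpace M] (C : CellDec M d h) {ρ : ℝ} (hρ : 0 < ρ)
    (hU : LS.UniqSeg M ρ) (x₀ : M) (h4 : 4 ∣ d) (hd : 0 < d) (hh : 0 < h)
    (hD : N + 2 = d * (h + 1)) (he : q + 1 = d) {B : ℝ} (hB : 0 < B)
    (hO : ∀ (k : Type) [Field k], (2 : k) ≠ 0 → ∃ O : OmegaOutC M q N x₀ B k, OmegaSignC O) :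
    ∃ B' : ℝ, 0 < B' ∧ ∀ (k : Type) [Field k], (2 : k) ≠ 0 →
      Nonempty (FLGenC M 1 (fun i => i * N + q) 1 B' k) := by
  obtain ⟨c, hc, hS⟩ := exists_cellFL C hρ hU x₀
  have hK : 0 < CellSys.K (2 * B) (3 * B) c (fun j => d * j) (h + 1) (3 * B) :=
    CellSys.K_pos (by linarith) (by linarith) hc (by linarith) _
  have hJ0 : 0 ≤ ((h + 1 : ℕ) : ℝ) * (B + 2 * c) := mul_nonneg (Nat.cast_nonneg _) (by linarith)
  have hB' : 0 < genK (fun j => d * j) (h + 1) c B B := by
    unfold genK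
    linarith
  refine ⟨_, hB', fun k _ h2 => ?_⟩
  obtain ⟨O, hs⟩ := hO k h2
  choose S Op using fun j (hj : j < h + 1) => hS k h2 j (Nat.lt_succ_iff.1 hj)
  obtain ⟨Γ⟩ := genC_slots (X := fun j q => XD k mono_FL evz (C.L j) q) S
    (fun j hj => (Op j hj).some) (slotsOf O hB.le) hB hc h2 h4 hd hh hD he
    (fun q => XD_zero C q) (sign_W O hB.le hs) (sign_A O hB.le hs)
  obtain ⟨e1, e2, e3⟩ := deg_facts h4 hd hh hD he
  exact ⟨flGenC (Γ.iso (fun q => isoTopA C q) fun q => isoTopA_op C q) e1 e2 e3 hB'.le⟩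

end Main

end Vale.Agent.P216.H550
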